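import Vale.Agent.P201.S.Defs

/-!
P201, part LA: ports, and cycles of partial injections.
-/

namespace Vale.Agent.P201.S

open Finset

section port

variable {S : Sys} (σ : Equiv.Perm S.C)

theorem mt_mt (q : Port S) : mt σ (mt σ q) = q := by
  obtain ⟨c, e⟩ := q
  cases e <;> simp [mt]

theorem mt_snd (q : Port S) : (mt σ q).2 = !q.2 := by
  obtain ⟨c, e⟩ := q
  cases e <;> simp [mt]

theorem mt_ne (q : Port S) : mt σ q ≠ q := by
  intro h
  have h1 := mt_snd σ q
  rw [h] at h1
  cases h2 : q.2 <;> rw [h2] at h1 <;> simp at h1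

theorem mt_inj {q q' : Port S} (h : mt σ q = mt σ q') : q = q' := by
  rw [← mt_mt σ q, h, mt_mt]

end port

section cyc

variable {S : Type}

theorem pit_zero (f : S ≃. S) (s : S) : pit f 0 s = some s := rfl

theorem pit_succ (f : S ≃. S) (k : ℕ) (s : S) : pit f (k + 1) s = (f s).bind (pit f k) := rfl

theorem pit_one (f : S ≃. S) (s : S) : pit f 1 s = f s := by
  rw [pit_succ]
  cases h : f s <;> simp [pit_zero]

theorem pit_add (f : S ≃. S) (a b : ℕ) (s : S) :
    pit f (a + b) s = (pit f a s).bind (pit f b) := by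
  induction a generalizing s with
  | zero => rw [Nat.zero_add, pit_zero]; rfl
  | succ a ih =>
    rw [Nat.succ_add_eq_add_succ, Nat.add_succ, pit_succ, pit_succ]
    cases h : f s with
    | none => rfl
    | some t => exact ih t

theorem pit_succ' (f : S ≃. S) (k : ℕ) (s : S) : pit f (k + 1) s = (pit f k s).bind f := by
  rw [pit_add]
  congr 1
  funext t
  exact pit_one f t

theorem pit_inj {f : S ≃. S} {k : ℕ} {s s' t : S} (h : pit f k s = some t)
    (h' : pit f k s' = some t) : s = s' := by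
  induction k generalizing s s' with
  | zero =>
    rw [pit_zero, Option.some.injEq] at h h'
    rw [h, h']
  | succ k ih =>
    rw [pit_succ, Option.bind_eq_some_iff] at h h'
    obtain ⟨u, hu, h⟩ := h
    obtain ⟨u', hu', h'⟩ := h'
    have := ih h h'
    subst this
    exact f.inj hu hu'

theorem pit_mul {f : S ≃. S} {k : ℕ} {s : S} (h : pit f k s = some s) (m : ℕ) :
    pit f (k * m) s = some s := by
  induction m with
  | zero => rfl
  | succ m ih =>
    rw [Nat.mul_succ, pit_add, ih]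
    exact h

theorem Per.dom {f : S ≃. S} {s : S} (h : Per f s) : (f s).isSome := by
  obtain ⟨k, hk, h⟩ := h
  obtain ⟨k, rfl⟩ : ∃ m, k = m + 1 := ⟨k - 1, by omega⟩
  rw [pit_succ, Option.bind_eq_some_iff] at h
  obtain ⟨u, hu, -⟩ := h
  have hu' : f s = some u := hu
  rw [hu']
  rfl

/-- going around -/
theorem Per.back {f : S ≃. S} {s t : S} (h : Per f s) {j : ℕ} (hj : pit f j s = some t) :
    ∃ i, pit f i t = some s := by
  obtain ⟨k, hk, h⟩ := h
  refine ⟨k * (j + 1) - j, ?_⟩
  have h1 : j ≤ k * (j + 1) := by nlinarith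
  have h2 := pit_mul h (j + 1)
  rw [show k * (j + 1) = j + (k * (j + 1) - j) by omega, pit_add, hj] at h2
  exact h2

theorem Per.of_pit {f : S ≃. S} {s t : S} (h : Per f s) {j : ℕ} (hj : pit f j s = some t) :
    Per f t := by
  obtain ⟨i, hi⟩ := h.back hj
  obtain ⟨k, hk, h⟩ := h
  refine ⟨i + (k + j), by omega, ?_⟩
  rw [pit_add, hi, Option.bind_some, pit_add, h, Option.bind_some, hj]

theorem Per.step {f : S ≃. S} {s t : S} (h : Per f s) (hj : f s = some t) : Per f t :=
  h.of_pit (j := 1) (by rw [pit_one, hj])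

variable [Fintype S]

theorem mem_orb {f : S ≃. S} {s t : S} : t ∈ orb f s ↔ ∃ k, pit f k s = some t := by
  unfold orb
  simp

theorem self_mem_orb (f : S ≃. S) (s : S) : s ∈ orb f s := mem_orb.2 ⟨0, rfl⟩

theorem orb_trans {f : S ≃. S} {s t u : S} (h1 : t ∈ orb f s) (h2 : u ∈ orb f t) :
    u ∈ orb f s := by
  obtain ⟨a, ha⟩ := mem_orb.1 h1
  obtain ⟨b, hb⟩ := mem_orb.1 h2
  exact mem_orb.2 ⟨a + b, by rw [pit_add, ha, Option.bind_some, hb]⟩

theorem step_mem_orb {f : S ≃. S} {s t u : S} (h1 : t ∈ orb f s) (h2 : f t = some u) :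
    u ∈ orb f s := orb_trans h1 (mem_orb.2 ⟨1, by rw [pit_one, h2]⟩)

theorem Per.symm_mem {f : S ≃. S} {s t : S} (h : Per f s) (ht : t ∈ orb f s) : s ∈ orb f t := by
  obtain ⟨j, hj⟩ := mem_orb.1 ht
  exact mem_orb.2 (h.back hj)

theorem Per.of_mem {f : S ≃. S} {s t : S} (h : Per f s) (ht : t ∈ orb f s) : Per f t := by
  obtain ⟨j, hj⟩ := mem_orb.1 ht
  exact h.of_pit hj

theorem Per.orb_eq {f : S ≃. S} {s t : S} (h : Per f s) (ht : t ∈ orb f s) :
    orb f t = orb f s := by
  ext u
  exact ⟨fun hu => orb_trans ht hu, fun hu => orb_trans (h.symm_mem ht) hu⟩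

open Classical in
theorem per_fibre {f : S ≃. S} {s : S} (h : Per f s) :
    ((univ.filter (Per f)).filter fun t => orb f t = orb f s) = orb f s := by
  ext t
  rw [mem_filter, mem_filter]
  constructor
  · rintro ⟨-, h1⟩
    rw [← h1]
    exact self_mem_orb f t
  · intro ht
    exact ⟨⟨mem_univ _, h.of_mem ht⟩, h.orb_eq ht⟩

open Classical in
/-- sums over the periodic points, cycle by cycle -/
theorem sum_cyc (f : S ≃. S) (w : S → ℕ) :
    ∑ O ∈ (univ.filter (Per f)).image (orb f), ∑ t ∈ O, w t = ∑ s ∈ univ.filter (Per f), w s := by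
  rw [← Finset.sum_fiberwise_of_maps_to (t := (univ.filter (Per f)).image (orb f)) (g := orb f)
    fun s hs => mem_image_of_mem _ hs]
  refine sum_congr rfl fun O hO => ?_
  obtain ⟨s, hs, rfl⟩ := mem_image.1 hO
  rw [per_fibre (mem_filter.1 hs).2]

open Classical in
/-- counting cycles with weights, up to one exceptional cycle -/
theorem cyc_weight (f : S ≃. S) (w : S → ℕ) (c : ℕ) (Ex : S → Prop)
    (hEx : ∀ s s', Per f s → Per f s' → Ex s → Ex s' → orb f s = orb f s')
    (hw : ∀ s, Per f s → ¬ Ex s → c ≤ ∑ t ∈ orb f s, w t) :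
    c * cyc f ≤ ∑ s ∈ univ.filter (fun s => (f s).isSome), w s + c := by
  have h0 : ∑ s ∈ univ.filter (Per f), w s ≤ ∑ s ∈ univ.filter (fun s => (f s).isSome), w s := by
    refine sum_le_sum_of_subset fun s hs => ?_
    rw [mem_filter] at hs ⊢
    exact ⟨hs.1, hs.2.dom⟩
  have h1 := sum_cyc f w
  have h2 : c * cyc f ≤ ∑ O ∈ (univ.filter (Per f)).image (orb f), ∑ t ∈ O, w t + c := by
    unfold cyc
    set C := (univ.filter (Per f)).image (orb f) with hC
    have hc : ∀ O ∈ C, ∃ s, Per f s ∧ orb f s = O := by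
      intro O hO
      obtain ⟨s, hs, h⟩ := mem_image.1 hO
      exact ⟨s, (mem_filter.1 hs).2, h⟩
    by_cases hne : ∃ s, Per f s ∧ Ex s
    · obtain ⟨s0, hs0, he0⟩ := hne
      have hmem : orb f s0 ∈ C := mem_image_of_mem _ (mem_filter.2 ⟨mem_univ _, hs0⟩)
      rw [← Finset.add_sum_erase C _ hmem]
      have h3 : (C.erase (orb f s0)).card • c ≤ ∑ O ∈ C.erase (orb f s0), ∑ t ∈ O, w t := by
        refine Finset.card_nsmul_le_sum _ _ _ fun O hO => ?_
        obtain ⟨hO1, hO2⟩ := mem_erase.1 hO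
        obtain ⟨s, hs, rfl⟩ := hc O hO2
        refine hw s hs fun hE => hO1 (hEx s s0 hs hs0 hE he0)
      have h4 := card_erase_add_one hmem
      rw [smul_eq_mul] at h3
      rw [← h4, Nat.mul_add, Nat.mul_one, Nat.mul_comm c]
      omega
    · push Not at hne
      have h3 : C.card • c ≤ ∑ O ∈ C, ∑ t ∈ O, w t := by
        refine Finset.card_nsmul_le_sum _ _ _ fun O hO => ?_
        obtain ⟨s, hs, rfl⟩ := hc O hO
        exact hw s hs (hne s hs)
      rw [smul_eq_mul] at h3
      rw [Nat.mul_comm c]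
      omega
  omega

open Classical in
/-- counting cycles with weights -/
theorem cyc_weight0 (f : S ≃. S) (w : S → ℕ) (c : ℕ)
    (hw : ∀ s, Per f s → c ≤ ∑ t ∈ orb f s, w t) :
    c * cyc f ≤ ∑ s ∈ univ.filter (fun s => (f s).isSome), w s := by
  have h0 : ∑ s ∈ univ.filter (Per f), w s ≤ ∑ s ∈ univ.filter (fun s => (f s).isSome), w s := by
    refine sum_le_sum_of_subset fun s hs => ?_
    rw [mem_filter] at hs ⊢
    exact ⟨hs.1, hs.2.dom⟩
  have h1 := sum_cyc f w
  unfold cyc
  have h3 : ((univ.filter (Per f)).image (orb f)).card • c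
      ≤ ∑ O ∈ (univ.filter (Per f)).image (orb f), ∑ t ∈ O, w t := by
    refine Finset.card_nsmul_le_sum _ _ _ fun O hO => ?_
    obtain ⟨s, hs, rfl⟩ := mem_image.1 hO
    exact hw s (mem_filter.1 hs).2
  rw [smul_eq_mul] at h3
  rw [Nat.mul_comm c]
  omega

theorem domc_le_card (f : S ≃. S) : domc f ≤ Fintype.card S := by
  unfold domc
  exact (card_le_univ _)

end cyc

end Vale.Agent.P201.S
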