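import Mathlib

/-!
P201, LA5: the class bound `2 * mult b ≤ ∑_{class} mult + bad` (pure part, helper540).
-/

namespace Vale.Agent.P201.S.ClsA

open Finset Classical

variable {Q B Γ : Type*} [Fintype B] [DecidableEq B] [DecidableEq Γ]

/-- the links of the regular blocks of a class without partner at a regular block -/
noncomputable def bad (L : Finset Q) (bl : Q → B) (Reg : B → Prop) (rep : B → Γ)
    (Pr : Q → Q → Prop) (c : Γ) : ℕ :=
  (L.filter (fun s => Reg (bl s) ∧ rep (bl s) = c ∧ ¬ ∃ s', Pr s s' ∧ Reg (bl s'))).card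

/-- **class bound** -/
theorem class_bound (L : Finset Q) (bl : Q → B) (Reg : B → Prop) (rep : B → Γ)
    (Pr : Q → Q → Prop) (hsymm : ∀ s s', Pr s s' → Pr s' s)
    (huniq : ∀ s s' t, Pr s s' → Pr s t → s' = t) (hL : ∀ s s', Pr s s' → s ∈ L)
    (hcls : ∀ s s', Pr s s' → Reg (bl s) → Reg (bl s') →
      rep (bl s) = rep (bl s') ∧ bl s ≠ bl s') (b : B) (hb : Reg b) :
    2 * (L.filter (fun s => bl s = b)).card ≤
      ∑ b' ∈ (univ.filter Reg).filter (fun b' => rep b' = rep b),
        (L.filter (fun s => bl s = b')).card + bad L bl Reg rep Pr (rep b) := by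
  set A := L.filter (fun s => Reg (bl s) ∧ rep (bl s) = rep b) with hA
  have e1 : ∑ b' ∈ (univ.filter Reg).filter (fun b' => rep b' = rep b),
      (L.filter (fun s => bl s = b')).card = A.card := by
    rw [Finset.card_eq_sum_card_fiberwise (f := bl)
      (t := (univ.filter Reg).filter (fun b' => rep b' = rep b)) (s := A)]
    · refine Finset.sum_congr rfl fun b' hb' => ?_
      congr 1
      ext s
      simp only [mem_filter, mem_univ, true_and, hA] at hb' ⊢
      constructor
      · rintro ⟨h1, rfl⟩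
        exact ⟨⟨h1, hb'.1, hb'.2⟩, rfl⟩
      · rintro ⟨⟨h1, -⟩, h2⟩
        exact ⟨h1, h2⟩
    · intro s hs
      simp only [hA, coe_filter, Set.mem_ofPred_eq] at hs ⊢
      exact ⟨mem_filter.2 ⟨mem_univ _, hs.2.1⟩, hs.2.2⟩
  rw [e1]
  set P := L.filter (fun s => bl s = b) with hP
  set P1 := P.filter (fun s => ∃ s', Pr s s' ∧ Reg (bl s')) with hP1
  set P2 := P.filter (fun s => ¬ ∃ s', Pr s s' ∧ Reg (bl s')) with hP2
  have e2 : P1.card + P2.card = P.card := by
    rw [hP1, hP2]; exact Finset.card_filter_add_card_filter_not _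
  have e3 : P2.card ≤ bad L bl Reg rep Pr (rep b) := by
    refine Finset.card_le_card fun s hs => ?_
    simp only [hP2, hP, mem_filter] at hs ⊢
    obtain ⟨⟨h1, rfl⟩, h2⟩ := hs
    exact ⟨h1, hb, rfl, h2⟩
  have hPA : P ⊆ A := by
    intro s hs
    simp only [hP, hA, mem_filter] at hs ⊢
    obtain ⟨h1, rfl⟩ := hs
    exact ⟨h1, hb, rfl⟩
  have e4 : P1.card ≤ (A \ P).card := by
    refine Finset.card_le_card_of_injOn
      (fun s => if h : ∃ s', Pr s s' ∧ Reg (bl s') then h.choose else s) ?_ ?_
    · intro s hs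
      simp only [coe_filter, hP1, Set.mem_ofPred_eq] at hs
      have hex := hs.2
      have hsp := hex.choose_spec
      simp only [hex, dif_pos]
      have hs1 := hs.1
      simp only [hP, mem_filter] at hs1
      obtain ⟨h1, h2⟩ := hs1
      have hr : Reg (bl s) := by rw [h2]; exact hb
      have h3 := hcls _ _ hsp.1 hr hsp.2
      simp only [coe_sdiff, Set.mem_sdiff, mem_coe, hA, hP, mem_filter]
      refine ⟨⟨hL _ _ (hsymm _ _ hsp.1), hsp.2, by rw [← h3.1, h2]⟩, fun h4 => h3.2 ?_⟩
      rw [h2, h4.2]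
    · intro s hs t ht hst
      simp only [coe_filter, hP1, Set.mem_ofPred_eq] at hs ht
      have hexs := hs.2
      have hext := ht.2
      simp only [hexs, hext, dif_pos] at hst
      have h1 := hexs.choose_spec.1
      have h2 := hext.choose_spec.1
      rw [← hst] at h2
      exact huniq _ _ _ (hsymm _ _ h1) (hsymm _ _ h2)
  have e5 : (A \ P).card + P.card = A.card := Finset.card_sdiff_add_card_eq_card hPA
  omega

/-- **the total number of bad links** -/
theorem sum_bad_le (L : Finset Q) (bl : Q → B) (Reg : B → Prop) (rep : B → Γ)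
    (Pr : Q → Q → Prop) (hsymm : ∀ s s', Pr s s' → Pr s' s)
    (huniq : ∀ s s' t, Pr s s' → Pr s t → s' = t) (hL : ∀ s s', Pr s s' → s ∈ L) :
    ∑ c ∈ (univ.filter Reg).image rep, bad L bl Reg rep Pr c ≤
      (L.filter (fun s => ¬ ∃ s', Pr s s')).card + (L.filter (fun s => ¬ Reg (bl s))).card := by
  set D := L.filter (fun s => Reg (bl s) ∧ ¬ ∃ s', Pr s s' ∧ Reg (bl s')) with hD
  have e1 : ∑ c ∈ (univ.filter Reg).image rep, bad L bl Reg rep Pr c = D.card := by
    rw [Finset.card_eq_sum_card_fiberwise (f := fun s => rep (bl s))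
      (t := (univ.filter Reg).image rep) (s := D)]
    · refine Finset.sum_congr rfl fun c _ => ?_
      unfold bad
      congr 1
      ext s
      simp only [mem_filter, hD]
      tauto
    · intro s hs
      simp only [hD, coe_filter, Set.mem_ofPred_eq] at hs
      simp only [coe_image, Set.mem_image, coe_filter, mem_univ, true_and, Set.mem_ofPred_eq]
      exact ⟨bl s, hs.2.1, rfl⟩
  rw [e1]
  set D2 := D.filter (fun s => ∃ s', Pr s s') with hD2
  set D1 := D.filter (fun s => ¬ ∃ s', Pr s s') with hD1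
  have e2 : D2.card + D1.card = D.card := by
    rw [hD1, hD2]; exact Finset.card_filter_add_card_filter_not _
  have e3 : D1.card ≤ (L.filter (fun s => ¬ ∃ s', Pr s s')).card := by
    refine Finset.card_le_card fun s hs => ?_
    simp only [hD1, hD, mem_filter] at hs ⊢
    exact ⟨hs.1.1, hs.2⟩
  have e4 : D2.card ≤ (L.filter (fun s => ¬ Reg (bl s))).card := by
    refine Finset.card_le_card_of_injOn
      (fun s => if h : ∃ s', Pr s s' then h.choose else s) ?_ ?_
    · intro s hs
      simp only [coe_filter, hD2, hD, Set.mem_ofPred_eq, mem_filter] at hs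
      have hex := hs.2
      have hsp := hex.choose_spec
      simp only [hex, dif_pos, coe_filter, Set.mem_ofPred_eq]
      refine ⟨hL _ _ (hsymm _ _ hsp), fun hreg => hs.1.2.2 ⟨_, hsp, hreg⟩⟩
    · intro s hs t ht hst
      simp only [coe_filter, hD2, Set.mem_ofPred_eq] at hs ht
      have hexs := hs.2
      have hext := ht.2
      simp only [hexs, hext, dif_pos] at hst
      have h1 := hexs.choose_spec
      have h2 := hext.choose_spec
      rw [← hst] at h2
      exact huniq _ _ _ (hsymm _ _ h1) (hsymm _ _ h2)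
  omega

end Vale.Agent.P201.S.ClsA
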