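import Vale.Agent.P201.S.LA.PatDefs
import Vale.Agent.P201.S.LA.ClsA

/-!
P201, part LA5: the class bound for the multiplicities of the regular blocks (helper540).
-/

namespace Vale.Agent.P201.S

open Finset Classical

variable {S : Sys} {σ : Equiv.Perm S.C}

namespace Glue

variable (G : Glue σ)

/-- links -/
noncomputable def lnk : Finset G.Q := univ.filter (fun s => (G.Y s).isSome)

/-- the block of a link (end block of the square) -/
noncomputable def bl (s : G.Q) : S.B := S.blk (mt σ (G.ε s))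

/-- number of links at the regular blocks of the class `k` which have no partner at a regular
block -/
noncomputable def badC (k : S.B) : ℕ :=
  Vale.Agent.P201.S.ClsA.bad G.lnk G.bl G.Reg G.rep G.Pair k

variable {G}

theorem mem_lnk {s : G.Q} : s ∈ G.lnk ↔ ∃ v, G.Y s = some v := by
  simp [lnk, Option.isSome_iff_exists]

/-- the multiplicity of a regular block is the number of its links -/
theorem Reg.mulB_eq {b : S.B} (h : G.Reg b) :
    G.mulB b = (G.lnk.filter (fun s => G.bl s = b)).card := by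
  have e1 : (univ.filter fun s : G.Q => G.Y.symm s = none ∧ S.blk (G.ε s) = b) = ∅ := by
    rw [Finset.filter_eq_empty_iff]
    rintro s - ⟨h1, h2⟩
    obtain ⟨r, hr⟩ := h.ran s h2
    have := (PEquiv.eq_some_iff G.Y).2 hr
    rw [h1] at this
    exact absurd this (by simp)
  have e2 : (univ.filter fun s : G.Q => S.blk (mt σ (G.ε s)) = b) =
      G.lnk.filter (fun s => G.bl s = b) := by
    ext s
    simp only [mem_filter, mem_univ, true_and]
    constructor
    · intro h1
      exact ⟨mem_lnk.2 (h.dom s h1), h1⟩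
    · rintro ⟨-, h1⟩
      exact h1
  unfold mulB
  rw [e1, e2]
  simp

theorem Pair.cls (hR : G.Red) {s s' : G.Q} (h : G.Pair s s') (h1 : G.Reg (G.bl s))
    (h2 : G.Reg (G.bl s')) : G.rep (G.bl s) = G.rep (G.bl s') ∧ G.bl s ≠ G.bl s' := by
  have h0 := h
  obtain ⟨v, v', k1, k2, k3, k4, -, -⟩ := h0
  constructor
  · refine RB.rep_eq ⟨(mt σ (G.ε s), G.ε v), (G.ε v', mt σ (G.ε s')), ?_, ?_, ?_⟩
    · exact ⟨h1, s, v, k1, rfl, Or.inl rfl⟩
    · exact ⟨h2, s', v', k3, rfl, Or.inr rfl⟩
    · exact Relation.EqvGen.rel _ _ ⟨s, s', v, v', h, k1, k3, h1, h2, rfl, rfl⟩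
  · intro he
    have h3 := h.unit_ne hR k1 k3
    rcases h1.unit s v s' v' k1 k3 rfl he.symm with h4 | h4
    · exact h3.1 h4
    · exact h3.2 h4

/-- **Class bound.** -/
theorem cls_bound (hR : G.Red) {b : S.B} (hb : G.Reg b) :
    2 * G.mulB b ≤ ∑ b' ∈ (univ.filter G.Reg).filter (fun b' => G.rep b' = G.rep b), G.mulB b' +
      G.badC (G.rep b) := by
  have h := Vale.Agent.P201.S.ClsA.class_bound G.lnk G.bl G.Reg G.rep G.Pair
    (fun s s' h => h.symm) (fun s s' t h h' => h.unique h')
    (fun s s' h => mem_lnk.2 (by obtain ⟨v, v', h1, -⟩ := h; exact ⟨v, h1⟩))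
    (fun s s' h h1 h2 => h.cls hR h1 h2) b hb
  rw [hb.mulB_eq]
  refine le_trans h (Nat.add_le_add_right (le_of_eq (Finset.sum_congr rfl fun b' hb' => ?_)) _)
  simp only [mem_filter, mem_univ, true_and] at hb'
  rw [hb'.1.mulB_eq]

/-- **Total number of bad links.** -/
theorem sum_badC_le (G : Glue σ) :
    ∑ k ∈ (univ.filter G.Reg).image G.rep, G.badC k ≤
      (univ.filter fun s => (G.Y s).isSome ∧ ¬ G.Paired s).card +
        (univ.filter fun s => (G.Y s).isSome ∧ ¬ G.Reg (G.bl s)).card := by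
  have h := Vale.Agent.P201.S.ClsA.sum_bad_le G.lnk G.bl G.Reg G.rep G.Pair
    (fun s s' h => h.symm) (fun s s' t h h' => h.unique h')
    (fun s s' h => mem_lnk.2 (by obtain ⟨v, v', h1, -⟩ := h; exact ⟨v, h1⟩))
  refine le_trans h (le_of_eq ?_)
  unfold lnk
  rw [Finset.filter_filter, Finset.filter_filter]
  rfl

end Glue

end Vale.Agent.P201.S
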