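import Vale.Agent.P201.S.LA.Gir

/-!
P201, part LA: windows. A partial injection is cut in few short pieces.
-/

namespace Vale.Agent.P201.S

open Finset

variable {S : Type}

theorem pit_symm {f : S ≃. S} {k : ℕ} {s t : S} : pit f.symm k t = some s ↔ pit f k s = some t := by
  induction k generalizing s t with
  | zero =>
    rw [pit_zero, pit_zero, Option.some.injEq, Option.some.injEq]
    exact eq_comm
  | succ k ih =>
    rw [pit_succ, pit_succ', Option.bind_eq_some_iff, Option.bind_eq_some_iff]
    constructor
    · rintro ⟨u, h1, h2⟩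
      exact ⟨u, ih.1 h2, (PEquiv.eq_some_iff f).1 h1⟩
    · rintro ⟨u, h1, h2⟩
      exact ⟨u, (PEquiv.eq_some_iff f).2 h2, ih.2 h1⟩

/-- `t` is `L`-close to `s` along `f` (strictly after `s`) -/
def Cl (f : S ≃. S) (L : ℕ) (s t : S) : Prop := ∃ k, 0 < k ∧ k < L ∧ pit f k s = some t

/-- `T` is separated: no element of `T` is close after another one, unless the later one is a source;
sources have no predecessor anyway -/
def Sep (f : S ≃. S) (L : ℕ) (T : Finset S) : Prop := ∀ s ∈ T, ∀ t ∈ T, ¬ Cl f L s t

variable [Fintype S] [DecidableEq S]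

/-- sources -/
def src (f : S ≃. S) : Finset S := univ.filter fun s => (f.symm s).isNone

theorem mem_src {f : S ≃. S} {s : S} : s ∈ src f ↔ f.symm s = none := by
  unfold src
  simp [Option.isNone_iff_eq_none]

theorem card_src (f : S ≃. S) : (src f).card = Fintype.card S - domc f := by
  classical
  have h1 : (univ.filter fun s => (f.symm s).isSome).card = domc f := by
    unfold domc
    refine Finset.card_bij' (fun s hs => (f.symm s).get (mem_filter.1 hs).2)
      (fun s hs => (f s).get (mem_filter.1 hs).2) ?_ ?_ ?_ ?_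
    · intro s hs
      rw [mem_filter]
      refine ⟨mem_univ _, ?_⟩
      have : f ((f.symm s).get (mem_filter.1 hs).2) = some s := by
        rw [← PEquiv.eq_some_iff]
        exact (Option.some_get _).symm
      rw [this]
      rfl
    · intro s hs
      rw [mem_filter]
      refine ⟨mem_univ _, ?_⟩
      have : f.symm ((f s).get (mem_filter.1 hs).2) = some s := by
        rw [PEquiv.eq_some_iff]
        exact (Option.some_get _).symm
      rw [this]
      rfl
    · intro s hs
      have : f ((f.symm s).get (mem_filter.1 hs).2) = some s := by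
        rw [← PEquiv.eq_some_iff]
        exact (Option.some_get _).symm
      simp only [this, Option.get_some]
    · intro s hs
      have : f.symm ((f s).get (mem_filter.1 hs).2) = some s := by
        rw [PEquiv.eq_some_iff]
        exact (Option.some_get _).symm
      simp only [this, Option.get_some]
  have h2 := Finset.card_filter_add_card_filter_not (s := (univ : Finset S))
    (fun s => (f.symm s).isSome)
  rw [h1, Finset.card_univ] at h2
  have h3 : (src f) = univ.filter fun s => ¬ (f.symm s).isSome := by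
    ext s
    rw [mem_src, mem_filter]
    simp
  rw [h3]
  omega

theorem src_sep (f : S ≃. S) (L : ℕ) : Sep f L (src f) := by
  intro s _ t ht hc
  obtain ⟨k, hk, -, h⟩ := hc
  obtain ⟨k, rfl⟩ : ∃ m, k = m + 1 := ⟨k - 1, by omega⟩
  rw [pit_succ', Option.bind_eq_some_iff] at h
  obtain ⟨u, -, h2⟩ := h
  have h3 : f.symm t = some u := (PEquiv.eq_some_iff f).2 h2
  rw [mem_src] at ht
  rw [ht] at h3
  exact absurd h3 (by simp)

/-- a maximal separated set containing the sources -/
theorem exists_max_sep (f : S ≃. S) (L : ℕ) : ∃ T : Finset S, src f ⊆ T ∧ Sep f L T ∧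
    ∀ s, s ∉ T → ¬ Sep f L (insert s T) := by
  classical
  obtain ⟨T, hT1, hT2⟩ := Finset.exists_max_image
    (univ.filter fun T : Finset S => src f ⊆ T ∧ Sep f L T) Finset.card
    ⟨src f, mem_filter.2 ⟨mem_univ _, Subset.rfl, src_sep f L⟩⟩
  rw [mem_filter] at hT1
  refine ⟨T, hT1.2.1, hT1.2.2, fun s hs hsep => ?_⟩
  have := hT2 (insert s T) (mem_filter.2 ⟨mem_univ _, hT1.2.1.trans (subset_insert _ _), hsep⟩)
  rw [card_insert_of_notMem hs] at this
  omega

/-- every element is the image of a source or lies on a cycle: going back `m` steps is possible or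
one meets a source -/
theorem back_or_src (f : S ≃. S) (s : S) (m : ℕ) :
    (∃ t, pit f m t = some s) ∨ ∃ k t, k < m ∧ pit f k t = some s ∧ t ∈ src f := by
  induction m with
  | zero => exact Or.inl ⟨s, rfl⟩
  | succ m ih =>
    rcases ih with ⟨t, ht⟩ | ⟨k, t, hk, ht, hs⟩
    · cases h : f.symm t with
      | none => exact Or.inr ⟨m, t, by omega, ht, mem_src.2 h⟩
      | some u =>
        left
        refine ⟨u, ?_⟩
        rw [pit_succ]
        rw [PEquiv.eq_some_iff] at h
        rw [h]
        exact ht
    · exact Or.inr ⟨k, t, by omega, ht, hs⟩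

/-- windows -/
theorem exists_win (f : S ≃. S) {L : ℕ} (hL : 0 < L)
    (hcyc : ∀ s k, 0 < k → pit f k s = some s → 2 * L ≤ k) :
    ∃ T : Finset S, src f ⊆ T ∧ (T.card - (Fintype.card S - domc f)) * L ≤ Fintype.card S ∧
      ∀ s, ∃ k t, k < 2 * L ∧ t ∈ T ∧ pit f k t = some s := by
  classical
  obtain ⟨T, hT1, hT2, hT3⟩ := exists_max_sep f L
  refine ⟨T, hT1, ?_, ?_⟩
  · -- counting
    have hcard : (T \ src f).card = T.card - (Fintype.card S - domc f) := by
      rw [card_sdiff_of_subset hT1, card_src]
    rw [← hcard]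
    -- the map `(t, k) ↦` the element `k` steps before `t`
    have hback : ∀ t ∈ T \ src f, ∀ k < L, ∃ u, pit f k u = some t := by
      intro t ht k hk
      rcases back_or_src f t k with h | ⟨j, u, hj, hu, hus⟩
      · exact h
      · exfalso
        rw [mem_sdiff] at ht
        rcases Nat.eq_zero_or_pos j with rfl | hj0
        · rw [pit_zero, Option.some.injEq] at hu
          subst hu
          exact ht.2 hus
        · exact hT2 u (hT1 hus) t ht.1 ⟨j, hj0, by omega, hu⟩
    choose! B hB using hback
    have hinj : Set.InjOn (fun x : S × ℕ => B x.1 x.2)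
        (((T \ src f) ×ˢ range L : Finset (S × ℕ)) : Set (S × ℕ)) := by
      rintro ⟨t, k⟩ hx ⟨t', k'⟩ hx' heq
      simp only [coe_product, Set.mem_prod, mem_coe, mem_range] at hx hx' heq
      have e1 := hB t hx.1 k hx.2
      have e2 := hB t' hx'.1 k' hx'.2
      rw [← heq] at e2
      have key : ∀ a b : ℕ, ∀ u v w : S, a < b → b < L → pit f a w = some u →
          pit f b w = some v → u ∈ T → v ∈ T → False := by
        intro a b u v w hab hbL hu hv huT hvT
        obtain ⟨c, rfl⟩ : ∃ c, b = a + c := ⟨b - a, by omega⟩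
        rw [pit_add, hu, Option.bind_some] at hv
        exact hT2 u huT v hvT ⟨c, by omega, by omega, hv⟩
      rcases lt_trichotomy k k' with h | h | h
      · exact (key k k' t t' _ h hx'.2 e1 e2 (mem_sdiff.1 hx.1).1 (mem_sdiff.1 hx'.1).1).elim
      · subst h
        rw [e1, Option.some.injEq] at e2
        rw [e2]
      · exact (key k' k t' t _ h hx.2 e2 e1 (mem_sdiff.1 hx'.1).1 (mem_sdiff.1 hx.1).1).elim
    have h1 := Finset.card_le_card_of_injOn (t := (univ : Finset S)) _
      (fun x _ => mem_coe.2 (mem_univ _)) hinj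
    rw [card_product, card_range, card_univ] at h1
    exact h1
  · -- covering
    intro s
    by_contra hcon
    push Not at hcon
    -- go back `L` steps
    have hb : ∃ u, pit f L u = some s := by
      rcases back_or_src f s L with h | ⟨j, u, hj, hu, hus⟩
      · exact h
      · exact (hcon j u (by omega) (hT1 hus) hu).elim
    obtain ⟨u, hu⟩ := hb
    have huT : u ∉ T := fun h => hcon L u (by omega) h hu
    apply hT3 u huT
    intro a ha b hb hc
    obtain ⟨k, hk0, hkL, hk⟩ := hc
    rw [mem_insert] at ha hb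
    rcases ha with rfl | ha
    · rcases hb with rfl | hb
      · have := hcyc _ k hk0 hk
        omega
      · -- `b` is between `a` and `s`
        obtain ⟨c, hc⟩ : ∃ c, L = k + c := ⟨L - k, by omega⟩
        rw [hc, pit_add, hk, Option.bind_some] at hu
        exact hcon c b (by omega) hb hu
    · rcases hb with rfl | hb
      · refine hcon (k + L) a (by omega) ha ?_
        rw [pit_add, hk, Option.bind_some, hu]
      · exact hT2 a ha b hb ⟨k, hk0, hkL, hk⟩

/-- coordinates: every element has a unique position in a window -/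
theorem exists_coord (f : S ≃. S) {T : Finset S} {m : ℕ} {s : S}
    (h : ∃ k t, k < m ∧ t ∈ T ∧ pit f k t = some s) :
    ∃ k t, k < m ∧ t ∈ T ∧ pit f k t = some s ∧
      ∀ j, 0 < j → j ≤ k → ∀ u, pit f j t = some u → u ∉ T := by
  classical
  let P : ℕ → Prop := fun k => ∃ t, k < m ∧ t ∈ T ∧ pit f k t = some s
  have hP : ∃ k, P k := h
  obtain ⟨t, h1, h2, h3⟩ := Nat.find_spec hP
  refine ⟨Nat.find hP, t, h1, h2, h3, fun j hj hjk u hu huT => ?_⟩
  obtain ⟨c, hc⟩ : ∃ c, Nat.find hP = j + c := ⟨Nat.find hP - j, by omega⟩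
  refine Nat.find_min hP (m := c) (by omega) ⟨u, by omega, huT, ?_⟩
  have h4 : pit f (Nat.find hP) t = some s := h3
  rw [hc, pit_add, hu, Option.bind_some] at h4
  exact h4

/-- uniqueness of the coordinates -/
theorem coord_unique (f : S ≃. S) {T : Finset S} {s t t' : S} {k k' : ℕ} (ht : t ∈ T)
    (ht' : t' ∈ T) (h : pit f k t = some s) (h' : pit f k' t' = some s)
    (hn : ∀ j, 0 < j → j ≤ k → ∀ u, pit f j t = some u → u ∉ T)
    (hn' : ∀ j, 0 < j → j ≤ k' → ∀ u, pit f j t' = some u → u ∉ T) : k = k' ∧ t = t' := by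
  have key : ∀ (a b : ℕ) (u v : S), pit f a u = some s → pit f b v = some s → v ∈ T → a < b →
      (∀ j, 0 < j → j ≤ b → ∀ w, pit f j v = some w → w ∉ T) → u ∈ T → False := by
    intro a b u v hu hv _ hab hnv huT
    obtain ⟨c, rfl⟩ : ∃ c, b = c + a := ⟨b - a, by omega⟩
    rw [pit_add, Option.bind_eq_some_iff] at hv
    obtain ⟨w, hw1, hw2⟩ := hv
    have := pit_inj hw2 hu
    subst this
    exact hnv c (by omega) (by omega) _ hw1 huT
  rcases lt_trichotomy k k' with hlt | heq | hlt
  · exact (key k k' t t' h h' ht' hlt hn' ht).elim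
  · subst heq
    exact ⟨rfl, pit_inj h h'⟩
  · exact (key k' k t' t h' h ht hlt hn ht').elim

end Vale.Agent.P201.S
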