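import Vale.Agent.P201.S.LA.Geo
import Vale.Agent.P201.S.LA.Win
import Vale.Agent.P201.S.LA.Fan
import Vale.Agent.P201.S.LA.PatDefs

/-!
P201, part LA (B2): counting irregular blocks, visits, used ports.
-/

namespace Vale.Agent.P201.S.Cnt

open Finset Vale.Agent.P201.S.Geo

variable {S : Sys} {σ : Equiv.Perm (S.C)} {G : Glue σ}

/-- the chain starting at `t` -/
noncomputable def cht (G : Glue σ) (t : G.Q) (i : ℕ) : G.Q := (pit G.Y i t).getD t

theorem cht_eq {t s : G.Q} {i : ℕ} (h : pit G.Y i t = some s) : cht G t i = s := by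
  unfold cht
  rw [h]
  rfl

theorem pit_le {t s : G.Q} {k : ℕ} (h : pit G.Y k t = some s) {i : ℕ} (hi : i ≤ k) :
    pit G.Y i t = some (cht G t i) := by
  have h1 := pit_isSome (f := G.Y) hi (by rw [h]; rfl)
  obtain ⟨u, hu⟩ := Option.isSome_iff_exists.1 h1
  rw [cht_eq hu]
  exact hu

theorem ych {t s : G.Q} {k : ℕ} (h : pit G.Y k t = some s) : Ych G k (cht G t) := by
  intro i hi
  have h1 := pit_le h hi.le
  have h2 := pit_le h (i := i + 1) (by omega)
  rw [pit_succ', h1, Option.bind_some] at h2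
  exact h2

/-- windows data -/
structure Wd (G : Glue σ) (T : Finset G.Q) (L g : ℕ) : Prop where
  red : G.Red
  gir : Girth σ g
  len : 4 * L + 2 < g
  sr : src G.Y ⊆ T
  cov : ∀ s, ∃ k t, k < 2 * L ∧ t ∈ T ∧ pit G.Y k t = some s

variable {T : Finset G.Q} {L g : ℕ}

open Classical in
theorem Wd.end_le (h : Wd G T L g) (b : S.B) :
    (univ.filter fun s : G.Q => S.blk (mt σ (G.ε s)) = b).card ≤ T.card := by
  choose k t hk ht hp using h.cov
  refine Finset.card_le_card_of_injOn t (fun s _ => ht s) ?_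
  intro s hs s' hs' hst
  have e1 : S.blk (mt σ (G.ε s)) = b := (mem_filter.1 (mem_coe.1 hs)).2
  have e2 : S.blk (mt σ (G.ε s')) = b := (mem_filter.1 (mem_coe.1 hs')).2
  have p1 := hp s
  have p2 := hp s'
  rw [← hst] at p2
  have key : ∀ (a c : ℕ) (u u' : G.Q), pit G.Y a (t s) = some u → pit G.Y c (t s) = some u' →
      S.blk (mt σ (G.ε u)) = b → S.blk (mt σ (G.ε u')) = b → a ≤ c → c < 2 * L → u = u' := by
    intro a c u u' ha hc eu eu' hac hcL
    have h1 := bs_inj h.red h.gir (ych hc) (by have := h.len; omega) (i := a + 1) (j := c + 1)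
      (by omega) (by omega) (by rw [bs_succ, bs_succ, cht_eq ha, cht_eq hc, eu, eu'])
    have h2 : a = c := by omega
    subst h2
    rw [ha, Option.some.injEq] at hc
    exact hc
  rcases le_total (k s) (k s') with hle | hle
  · exact key _ _ _ _ p1 p2 e1 e2 hle (hk s')
  · exact (key _ _ _ _ p2 p1 e2 e1 hle (hk s)).symm

open Classical in
theorem Wd.start_le (h : Wd G T L g) (b : S.B) :
    (univ.filter fun s : G.Q => S.blk (G.ε s) = b).card ≤ T.card := by
  choose k t hk ht hp using h.cov
  refine Finset.card_le_card_of_injOn t (fun s _ => ht s) ?_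
  intro s hs s' hs' hst
  have e1 : S.blk (G.ε s) = b := (mem_filter.1 (mem_coe.1 hs)).2
  have e2 : S.blk (G.ε s') = b := (mem_filter.1 (mem_coe.1 hs')).2
  have p1 := hp s
  have p2 := hp s'
  rw [← hst] at p2
  have key : ∀ (a c : ℕ) (u u' : G.Q), pit G.Y a (t s) = some u → pit G.Y c (t s) = some u' →
      S.blk (G.ε u) = b → S.blk (G.ε u') = b → a ≤ c → c < 2 * L → u = u' := by
    intro a c u u' ha hc eu eu' hac hcL
    have h1 := bs_inj h.red h.gir (ych hc) (by have := h.len; omega) (i := a) (j := c)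
      (by omega) (by omega) (by
        rw [← bs_start h.red (ych hc) hac, ← bs_start h.red (ych hc) le_rfl, cht_eq ha, cht_eq hc,
          eu, eu'])
    subst h1
    rw [ha, Option.some.injEq] at hc
    exact hc
  rcases le_total (k s) (k s') with hle | hle
  · exact key _ _ _ _ p1 p2 e1 e2 hle (hk s')
  · exact (key _ _ _ _ p2 p1 e2 e1 hle (hk s)).symm

theorem Wd.mulB_le (h : Wd G T L g) (b : S.B) : G.mulB b ≤ 2 * T.card := by
  classical
  unfold Glue.mulB
  have h1 := h.end_le b
  have h2 : (univ.filter fun s : G.Q => G.Y.symm s = none ∧ S.blk (G.ε s) = b).card ≤ T.card :=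
    card_le_card fun s hs => h.sr (mem_src.2 (mem_filter.1 hs).2.1)
  omega

open Classical in
/-- used ports at a block -/
theorem Wd.ports_le (h : Wd G T L g) (b : S.B) :
    (univ.filter fun q : Port S => S.blk q = b ∧ 0 < G.mulP q).card ≤ 2 * T.card := by
  have hsub : (univ.filter fun q : Port S => S.blk q = b ∧ 0 < G.mulP q) ⊆
      ((univ.filter fun s : G.Q => S.blk (G.ε s) = b).image G.ε) ∪
      ((univ.filter fun s : G.Q => S.blk (mt σ (G.ε s)) = b).image fun s => mt σ (G.ε s)) := by
    intro q hq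
    obtain ⟨-, hb, hq⟩ := mem_filter.1 hq
    unfold Glue.mulP at hq
    obtain ⟨s, hs⟩ := card_pos.1 hq
    rw [mem_union, mem_image, mem_image]
    rcases (mem_filter.1 hs).2 with hs | hs
    · left
      exact ⟨s, mem_filter.2 ⟨mem_univ _, by rw [hs]; exact hb⟩, hs⟩
    · right
      exact ⟨s, mem_filter.2 ⟨mem_univ _, by rw [hs]; exact hb⟩, hs⟩
  have h1 := h.end_le b
  have h2 := h.start_le b
  have h3 := card_image_le (s := univ.filter fun s : G.Q => S.blk (G.ε s) = b) (f := G.ε)
  have h4 := card_image_le (s := univ.filter fun s : G.Q => S.blk (mt σ (G.ε s)) = b)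
    (f := fun s => mt σ (G.ε s))
  have h5 := card_le_card hsub
  have h6 := card_union_le ((univ.filter fun s : G.Q => S.blk (G.ε s) = b).image G.ε)
    ((univ.filter fun s : G.Q => S.blk (mt σ (G.ε s)) = b).image fun s => mt σ (G.ε s))
  omega

/-- greatest `k ≤ 2 L` such that the chain of `t` is defined up to `k` -/
noncomputable def mx (G : Glue σ) (L : ℕ) (t : G.Q) : ℕ := by
  classical
  exact Nat.findGreatest (fun k => (pit G.Y k t).isSome) (2 * L)

theorem mx_le (t : G.Q) : mx G L t ≤ 2 * L := by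
  classical
  unfold mx
  exact Nat.findGreatest_le _

theorem mx_some (t : G.Q) : pit G.Y (mx G L t) t = some (cht G t (mx G L t)) := by
  classical
  have h : (pit G.Y (mx G L t) t).isSome := by
    unfold mx
    exact Nat.findGreatest_spec (P := fun k => (pit G.Y k t).isSome) (Nat.zero_le _) rfl
  obtain ⟨u, hu⟩ := Option.isSome_iff_exists.1 h
  exact pit_le hu le_rfl

theorem le_mx {t s : G.Q} {k : ℕ} (hk : k ≤ 2 * L) (h : pit G.Y k t = some s) : k ≤ mx G L t := by
  classical
  unfold mx
  exact Nat.le_findGreatest hk (by rw [h]; rfl)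

/-- the two ends of the run of two windows -/
theorem Wd.ends (h : Wd G T L g) (t t' : G.Q) : ∃ b1 b2 : S.B, ∀ k k', k < mx G L t →
    k' < mx G L t' → S.blk (mt σ (G.ε (cht G t k))) = S.blk (mt σ (G.ε (cht G t' k'))) →
    ¬ ((mt σ (G.ε (cht G t k)) = mt σ (G.ε (cht G t' k')) ∧
        G.ε (cht G t (k + 1)) = G.ε (cht G t' (k' + 1))) ∨
      (mt σ (G.ε (cht G t k)) = G.ε (cht G t' (k' + 1)) ∧
        G.ε (cht G t (k + 1)) = mt σ (G.ε (cht G t' k')))) →
    S.blk (mt σ (G.ε (cht G t k))) = b1 ∨ S.blk (mt σ (G.ε (cht G t k))) = b2 := by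
  have hy := ych (mx_some (L := L) t)
  have hy' := ych (mx_some (L := L) t')
  have hm : (mx G L t + 1) + (mx G L t' + 1) < g := by
    have h1 := mx_le (G := G) (L := L) t
    have h2 := mx_le (G := G) (L := L) t'
    have := h.len
    omega
  obtain ⟨i0, j0, len, hr⟩ := run_coinc h.red h.gir hy hy' hm
  refine ⟨bs G (cht G t) i0, bs G (cht G t) (i0 + (len - 1)), fun k k' hk hk' hb hne => ?_⟩
  obtain ⟨n1, n2⟩ := unit_of_run h.red h.gir hy hy' hm hk hk' hb hne
  rw [← bs_succ]
  rcases hr with hr | hr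
  · obtain ⟨x, hx, e1, e2⟩ := (hr (k + 1) (k' + 1)).1 ⟨by omega, by omega, hb⟩
    by_cases hx0 : x = 0
    · left
      rw [e1, hx0, add_zero]
    · by_cases hx1 : x = len - 1
      · right
        rw [e1, hx1]
      · exfalso
        apply n1
        exact ⟨((hr k k').2 ⟨x - 1, by omega, by omega, by omega⟩).2.2,
          ((hr (k + 2) (k' + 2)).2 ⟨x + 1, by omega, by omega, by omega⟩).2.2⟩
  · obtain ⟨x, hx, e1, e2⟩ := (hr (k + 1) (k' + 1)).1 ⟨by omega, by omega, hb⟩
    by_cases hx0 : x = 0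
    · left
      rw [e1, hx0, add_zero]
    · by_cases hx1 : x = len - 1
      · right
        rw [e1, hx1]
      · exfalso
        apply n2
        exact ⟨((hr k (k' + 2)).2 ⟨x - 1, by omega, by omega, by omega⟩).2.2,
          ((hr (k + 2) k').2 ⟨x + 1, by omega, by omega, by omega⟩).2.2⟩

open Classical in
/-- number of visited irregular blocks -/
theorem Wd.irr_le (h : Wd G T L g) :
    (univ.filter fun b : S.B => ¬ G.Reg b ∧ 0 < G.mulB b).card ≤
      2 * (Fintype.card G.Q - domc G.Y) + 2 * T.card ^ 2 := by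
  choose b1 b2 hb using h.ends
  have hsub : (univ.filter fun b : S.B => ¬ G.Reg b ∧ 0 < G.mulB b) ⊆
      ((univ.filter fun s : G.Q => ¬ (G.Y s).isSome).image fun s => S.blk (mt σ (G.ε s))) ∪
      ((src G.Y).image fun s => S.blk (G.ε s)) ∪
      (((T ×ˢ T).image fun x => b1 x.1 x.2) ∪ ((T ×ˢ T).image fun x => b2 x.1 x.2)) := by
    intro b hbm
    obtain ⟨-, hreg, hpos⟩ := mem_filter.1 hbm
    rw [mem_union, mem_union, mem_union, mem_image, mem_image, mem_image, mem_image]
    by_contra hcon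
    push Not at hcon
    obtain ⟨⟨c1, c2⟩, c3, c4⟩ := hcon
    apply hreg
    refine ⟨?_, ?_, ?_, ?_⟩
    · unfold Glue.mulB at hpos
      by_contra hno
      push Not at hno
      have h0 : (univ.filter fun s : G.Q => S.blk (mt σ (G.ε s)) = b).card = 0 := by
        rw [card_eq_zero, filter_eq_empty_iff]
        exact fun s _ => hno s
      rw [h0, zero_add] at hpos
      obtain ⟨s, hs⟩ := card_pos.1 hpos
      exact c2 s (mem_src.2 (mem_filter.1 hs).2.1) (mem_filter.1 hs).2.2
    · intro s hs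
      by_contra hno
      refine c1 s (mem_filter.2 ⟨mem_univ _, fun h1 => hno ?_⟩) hs
      exact Option.isSome_iff_exists.1 h1
    · intro s hs
      by_contra hno
      refine c2 s (mem_src.2 ?_) hs
      rw [Option.eq_none_iff_forall_ne_some]
      intro r hr
      exact hno ⟨r, (PEquiv.eq_some_iff G.Y).1 hr⟩
    · intro s v s' v' hs hs' e e'
      by_contra hno
      obtain ⟨k, t, hk, ht, hp⟩ := h.cov s
      obtain ⟨k', t', hk', ht', hp'⟩ := h.cov s'
      have q1 : pit G.Y (k + 1) t = some v := by rw [pit_succ', hp]; exact hs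
      have q2 : pit G.Y (k' + 1) t' = some v' := by rw [pit_succ', hp']; exact hs'
      have m1 := le_mx (L := L) (by omega) q1
      have m2 := le_mx (L := L) (by omega) q2
      have := hb t t' k k' (by omega) (by omega) (by
        rw [cht_eq hp, cht_eq hp', e, e']) (by
        rw [cht_eq hp, cht_eq hp', cht_eq q1, cht_eq q2]
        rintro (⟨a1, a2⟩ | ⟨a1, a2⟩)
        · exact hno (Or.inl ⟨a1.symm, a2.symm⟩)
        · exact hno (Or.inr ⟨a2.symm, a1.symm⟩))
      rw [cht_eq hp, e] at this
      rcases this with h1 | h1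
      · exact c3 (t, t') (mem_product.2 ⟨ht, ht'⟩) h1.symm
      · exact c4 (t, t') (mem_product.2 ⟨ht, ht'⟩) h1.symm
  have e1 : (univ.filter fun s : G.Q => ¬ (G.Y s).isSome).card = Fintype.card G.Q - domc G.Y := by
    have h2 := Finset.card_filter_add_card_filter_not (s := (univ : Finset G.Q))
      (fun s => (G.Y s).isSome)
    rw [Finset.card_univ] at h2
    unfold domc
    omega
  have e2 := card_src G.Y
  have e3 := card_image_le (s := univ.filter fun s : G.Q => ¬ (G.Y s).isSome)
    (f := fun s => S.blk (mt σ (G.ε s)))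
  have e4 := card_image_le (s := src G.Y) (f := fun s => S.blk (G.ε s))
  have e5 := card_image_le (s := T ×ˢ T) (f := fun x => b1 x.1 x.2)
  have e6 := card_image_le (s := T ×ˢ T) (f := fun x => b2 x.1 x.2)
  rw [card_product] at e5 e6
  have e7 := card_le_card hsub
  have e8 := card_union_le (((univ.filter fun s : G.Q => ¬ (G.Y s).isSome).image
      fun s => S.blk (mt σ (G.ε s))) ∪ ((src G.Y).image fun s => S.blk (G.ε s)))
      (((T ×ˢ T).image fun x => b1 x.1 x.2) ∪ ((T ×ˢ T).image fun x => b2 x.1 x.2))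
  have e9 := card_union_le ((univ.filter fun s : G.Q => ¬ (G.Y s).isSome).image
      fun s => S.blk (mt σ (G.ε s))) ((src G.Y).image fun s => S.blk (G.ε s))
  have e10 := card_union_le ((T ×ˢ T).image fun x => b1 x.1 x.2)
    ((T ×ˢ T).image fun x => b2 x.1 x.2)
  rw [pow_two]
  omega

/-- existence of windows -/
theorem exists_wd (hR : G.Red) (hg : Girth σ g) (hL : 0 < L) (hlen : 4 * L + 2 < g) :
    ∃ T : Finset G.Q, Wd G T L g ∧
      (T.card - (Fintype.card G.Q - domc G.Y)) * L ≤ Fintype.card G.Q := by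
  obtain ⟨T, h1, h2, h3⟩ := exists_win G.Y hL (fun s k hk hp => by
    have := Glue.girth_per hR hg hk hp
    omega)
  exact ⟨T, ⟨hR, hg, hlen, h1, h3⟩, h2⟩

end Vale.Agent.P201.S.Cnt
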