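import Mathlib

/-!
P201, part LA: relations on `Fin F` which are unions of few diagonal or antidiagonal runs, and the number
of such relations (helper167).  Pure file.
-/

namespace Vale.Agent.P201.S.Runs

open Finset

/-- a run code `(i, j, len, sign)`: the pairs `(i + x, j + x)` (sign `true`) or `(i + x, j - x)`
(sign `false`), `x < len` -/
abbrev RunF (F : ℕ) : Type := Fin (F + 1) × Fin (F + 1) × Fin (F + 1) × Bool

def RunRel {F : ℕ} (c : RunF F) (a b : ℕ) : Prop :=
  ∃ x < c.2.2.1.val, a = c.1.val + x ∧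
    ((c.2.2.2 = true ∧ b = c.2.1.val + x) ∨ (c.2.2.2 = false ∧ b + x = c.2.1.val))

/-- the relation `T` on natural numbers is a union of at most `k` runs -/
def IsRunsF (F k : ℕ) (T : ℕ → ℕ → Prop) : Prop :=
  ∃ c : Fin k → RunF F, ∀ a b, T a b ↔ ∃ m, RunRel (c m) a b

theorem IsRunsF.congr {F k : ℕ} {T T' : ℕ → ℕ → Prop} (h : IsRunsF F k T)
    (hT : ∀ a b, T' a b ↔ T a b) : IsRunsF F k T' := by
  obtain ⟨c, hc⟩ := h
  exact ⟨c, fun a b => (hT a b).trans (hc a b)⟩

theorem IsRunsF.mono {F k k' : ℕ} {T : ℕ → ℕ → Prop} (h : IsRunsF F k T) (hk : k ≤ k') :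
    IsRunsF F k' T := by
  obtain ⟨c, hc⟩ := h
  refine ⟨fun m => if hm : m.val < k then c ⟨m.val, hm⟩ else (0, 0, 0, true), fun a b => ?_⟩
  rw [hc]
  constructor
  · rintro ⟨m, hm⟩
    refine ⟨⟨m.val, lt_of_lt_of_le m.2 hk⟩, ?_⟩
    simp only [m.2, dif_pos]
    exact hm
  · rintro ⟨m, hm⟩
    by_cases h1 : m.val < k
    · simp only [h1, dif_pos] at hm
      exact ⟨_, hm⟩
    · simp only [h1, dif_neg, not_false_eq_true] at hm
      obtain ⟨x, hx, -⟩ := hm
      simp at hx

theorem IsRunsF.empty (F : ℕ) {T : ℕ → ℕ → Prop} (h : ∀ a b, ¬ T a b) : IsRunsF F 0 T :=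
  ⟨fun m => m.elim0, fun a b => ⟨fun h1 => absurd h1 (h a b), fun ⟨m, _⟩ => m.elim0⟩⟩

/-- union over a finite index type -/
theorem IsRunsF.iUnion {F k : ℕ} {ι : Type} [Fintype ι] {T : ι → ℕ → ℕ → Prop}
    (h : ∀ w, IsRunsF F k (T w)) : IsRunsF F (Fintype.card ι * k) (fun a b => ∃ w, T w a b) := by
  classical
  choose c hc using h
  let e : Fin (Fintype.card ι * k) ≃ ι × Fin k :=
    finProdFinEquiv.symm.trans (Equiv.prodCongr (Fintype.equivFin ι).symm (Equiv.refl _))
  refine ⟨fun m => c (e m).1 (e m).2, fun a b => ?_⟩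
  constructor
  · rintro ⟨w, hw⟩
    obtain ⟨m, hm⟩ := (hc w a b).1 hw
    refine ⟨e.symm (w, m), ?_⟩
    change RunRel (c (e (e.symm (w, m))).1 (e (e.symm (w, m))).2) a b
    rw [Equiv.apply_symm_apply]
    exact hm
  · rintro ⟨m, hm⟩
    exact ⟨(e m).1, (hc _ a b).2 ⟨_, hm⟩⟩

theorem IsRunsF.union {F k l : ℕ} {T U : ℕ → ℕ → Prop} (h : IsRunsF F k T) (h' : IsRunsF F l U) :
    IsRunsF F (k + l) (fun a b => T a b ∨ U a b) := by
  obtain ⟨c, hc⟩ := h
  obtain ⟨d, hd⟩ := h'
  refine ⟨Fin.append c d, fun a b => ?_⟩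
  constructor
  · rintro (h1 | h1)
    · obtain ⟨m, hm⟩ := (hc a b).1 h1
      exact ⟨Fin.castAdd l m, by rw [Fin.append_left]; exact hm⟩
    · obtain ⟨m, hm⟩ := (hd a b).1 h1
      exact ⟨Fin.natAdd k m, by rw [Fin.append_right]; exact hm⟩
  · rintro ⟨m, hm⟩
    induction m using Fin.addCases with
    | left i =>
      rw [Fin.append_left] at hm
      exact Or.inl ((hc a b).2 ⟨i, hm⟩)
    | right i =>
      rw [Fin.append_right] at hm
      exact Or.inr ((hd a b).2 ⟨i, hm⟩)

/-- a finite set of pairs -/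
theorem IsRunsF.of_finset {F : ℕ} (E : Finset (ℕ × ℕ)) (hE : ∀ x ∈ E, x.1 < F ∧ x.2 < F)
    {T : ℕ → ℕ → Prop} (h : ∀ a b, T a b ↔ (a, b) ∈ E) : IsRunsF F E.card T := by
  classical
  let e := E.equivFin.symm
  refine ⟨fun m => (⟨(e m).1.1, by have := (hE _ (e m).2).1; omega⟩,
    ⟨(e m).1.2, by have := (hE _ (e m).2).2; omega⟩,
    ⟨1, by have := (hE _ (e m).2).2; omega⟩, true), fun a b => ?_⟩
  rw [h]
  constructor
  · intro hab
    refine ⟨E.equivFin ⟨(a, b), hab⟩, 0, ?_⟩
    simp [e]
  · rintro ⟨m, x, hx, h1, h2⟩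
    simp only [Nat.lt_one_iff] at hx
    subst hx
    simp only [Nat.add_zero, true_and, Bool.true_eq_false, false_and, or_false] at h1 h2
    subst h1 h2
    exact (e m).2

/-- **single run**: a functional relation any two points of which are joined by a run inside the
relation is a run. -/
theorem isRunsF_one {F : ℕ} {T : ℕ → ℕ → Prop} (hF : ∀ a b, T a b → a < F ∧ b < F)
    (hfun : ∀ a b b', T a b → T a b' → b = b')
    (hconn : ∀ a b a' b', T a b → T a' b' → a < a' →
      (∀ x ≤ a' - a, T (a + x) (b + x)) ∨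
      (∀ x ≤ a' - a, x ≤ b ∧ T (a + x) (b - x))) : IsRunsF F 1 T := by
  classical
  by_cases hne : ∃ a b, T a b
  · -- smallest and largest first coordinate
    have hex : ∃ a, ∃ b, T a b := hne
    obtain ⟨b0, hb0⟩ := Nat.find_spec hex
    have hmin : ∀ a b, T a b → Nat.find hex ≤ a := fun a b h => Nat.find_min' hex ⟨b, h⟩
    generalize Nat.find hex = a0 at hb0 hmin
    have hex2 : ∃ d, ∃ b, T (F - 1 - d) b ∧ d < F := by
      obtain ⟨h1, h2⟩ := hF _ _ hb0
      refine ⟨F - 1 - a0, b0, ?_, by omega⟩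
      rw [show F - 1 - (F - 1 - a0) = a0 by omega]
      exact hb0
    obtain ⟨b1, hb1, hd⟩ := Nat.find_spec hex2
    have hmax : ∀ a b, T a b → a ≤ F - 1 - Nat.find hex2 := by
      intro a b h
      obtain ⟨h1, h2⟩ := hF _ _ h
      have := Nat.find_min' hex2 ⟨b, by
        rw [show F - 1 - (F - 1 - a) = a by omega]
        exact ⟨h, by omega⟩⟩
      omega
    generalize F - 1 - Nat.find hex2 = a1 at hb1 hmax
    obtain ⟨f0, f0'⟩ := hF _ _ hb0
    obtain ⟨f1, f1'⟩ := hF _ _ hb1
    have h01 : a0 ≤ a1 := hmin _ _ hb1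
    rcases Nat.eq_or_lt_of_le h01 with h01' | h01'
    · -- one point
      subst h01'
      refine IsRunsF.mono (IsRunsF.of_finset {(a0, b0)} ?_ ?_) (by simp)
      · intro x hx
        rw [mem_singleton] at hx
        subst hx
        exact ⟨f0, f0'⟩
      · intro a b
        rw [mem_singleton, Prod.mk.injEq]
        constructor
        · intro h
          have h1 := hmin _ _ h
          have h2 := hmax _ _ h
          have h3 : a = a0 := by omega
          subst h3
          exact ⟨rfl, hfun _ _ _ h hb0⟩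
        · rintro ⟨rfl, rfl⟩
          exact hb0
    · rcases hconn _ _ _ _ hb0 hb1 h01' with hc | hc
      · have f2 := (hF _ _ (hc (a1 - a0) le_rfl)).2
        refine ⟨fun _ => (⟨a0, by omega⟩, ⟨b0, by omega⟩, ⟨a1 - a0 + 1, by omega⟩, true),
          fun a b => ?_⟩
        constructor
        · intro h
          have h1 := hmin _ _ h
          have h2 := hmax _ _ h
          have h3 := hc (a - a0) (by omega)
          rw [show a0 + (a - a0) = a by omega] at h3
          have h4 := hfun _ _ _ h h3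
          refine ⟨0, a - a0, ?_, ?_, Or.inl ⟨rfl, h4⟩⟩
          · change a - a0 < a1 - a0 + 1
            omega
          · change a = a0 + (a - a0)
            omega
        · rintro ⟨m, x, hx, h1, h2⟩
          have hx' : x < a1 - a0 + 1 := hx
          have h1' : a = a0 + x := h1
          rcases h2 with ⟨-, h2⟩ | ⟨h2, -⟩
          · have h2' : b = b0 + x := h2
            subst h1' h2'
            exact hc x (by omega)
          · exact absurd h2 (by simp)
      · refine ⟨fun _ => (⟨a0, by omega⟩, ⟨b0, by omega⟩, ⟨a1 - a0 + 1, by omega⟩, false),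
          fun a b => ?_⟩
        constructor
        · intro h
          have h1 := hmin _ _ h
          have h2 := hmax _ _ h
          obtain ⟨h5, h3⟩ := hc (a - a0) (by omega)
          rw [show a0 + (a - a0) = a by omega] at h3
          have h4 := hfun _ _ _ h h3
          refine ⟨0, a - a0, ?_, ?_, Or.inr ⟨rfl, ?_⟩⟩
          · change a - a0 < a1 - a0 + 1
            omega
          · change a = a0 + (a - a0)
            omega
          · change b + (a - a0) = b0
            omega
        · rintro ⟨m, x, hx, h1, h2⟩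
          have hx' : x < a1 - a0 + 1 := hx
          have h1' : a = a0 + x := h1
          rcases h2 with ⟨h2, -⟩ | ⟨-, h2⟩
          · exact absurd h2 (by simp)
          · have h2' : b + x = b0 := h2
            obtain ⟨h5, h6⟩ := hc x (by omega)
            subst h1'
            rw [show b = b0 - x by omega]
            exact h6
  · exact IsRunsF.mono (IsRunsF.empty F (fun a b h => hne ⟨a, b, h⟩)) (Nat.zero_le 1)

/-- antidiagonal version of the slope rule: every pair is an end or has a successor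
`(a + 1, b - 1)` -/
theorem isRunsF_of_anti {F : ℕ} {T : ℕ → ℕ → Prop} (hF : ∀ a b, T a b → a < F ∧ b < F)
    (E : Finset (ℕ × ℕ)) (hE : ∀ a b, T a b → (a, b) ∈ E ∨ (1 ≤ b ∧ T (a + 1) (b - 1))) :
    IsRunsF F E.card T := by
  classical
  -- backward length at a point
  let P : ℕ × ℕ → ℕ → Prop := fun q l => l ≤ F ∧ ∀ x < l, x ≤ q.1 ∧ T (q.1 - x) (q.2 + x)
  have hP : ∀ q : ℕ × ℕ, ∃ l, P q l ∧ ∀ l', P q l' → l' ≤ l := by
    intro q
    have h0 : P q 0 := ⟨Nat.zero_le _, fun x hx => absurd hx (by omega)⟩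
    refine ⟨Nat.findGreatest (P q) F, Nat.findGreatest_spec (P := P q) (Nat.zero_le F) h0, ?_⟩
    intro l' hl'
    exact Nat.le_findGreatest hl'.1 hl'
  choose len hlen hmaxl using hP
  let e := E.equivFin.symm
  have hb : ∀ q : ℕ × ℕ, 0 < len q → len q ≤ q.1 + 1 ∧ q.2 + (len q - 1) < F ∧ q.1 < F := by
    intro q hq
    have h1 := (hlen q).2 (len q - 1) (by omega)
    have h2 := (hlen q).2 0 hq
    have h3 := hF _ _ h1.2
    have h4 := hF _ _ h2.2
    simp only [Nat.sub_zero] at h4
    exact ⟨by omega, h3.2, h4.1⟩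
  refine ⟨fun m => if h : 0 < len (e m).1 then
      (⟨(e m).1.1 + 1 - len (e m).1, by have := hb _ h; omega⟩,
        ⟨(e m).1.2 + (len (e m).1 - 1), by have := hb _ h; omega⟩,
        ⟨len (e m).1, by have := (hlen (e m).1).1; omega⟩, false)
      else (0, 0, 0, true), fun a b => ?_⟩
  constructor
  · -- follow the antidiagonal until an end
    have key : ∀ (b a : ℕ), T a b → ∃ y, y ≤ b ∧ (a + y, b - y) ∈ E ∧
        ∀ x ≤ y, T (a + x) (b - x) := by
      intro b
      induction b with
      | zero =>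
        intro a h
        rcases hE _ _ h with h1 | ⟨h1, -⟩
        · exact ⟨0, le_rfl, h1, fun x hx => by
            rw [show x = 0 by omega]; exact h⟩
        · omega
      | succ b ih =>
        intro a h
        rcases hE _ _ h with h1 | ⟨-, h1⟩
        · exact ⟨0, by omega, h1, fun x hx => by
            rw [show x = 0 by omega]; exact h⟩
        · rw [Nat.add_sub_cancel] at h1
          obtain ⟨y, hy, hyE, hyT⟩ := ih _ h1
          refine ⟨y + 1, by omega, ?_, ?_⟩
          · rw [show a + (y + 1) = a + 1 + y by omega, show b + 1 - (y + 1) = b - y by omega]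
            exact hyE
          · intro x hx
            rcases Nat.eq_zero_or_pos x with rfl | hx0
            · exact h
            · have := hyT (x - 1) (by omega)
              rw [show a + x = a + 1 + (x - 1) by omega, show b + 1 - x = b - (x - 1) by omega]
              exact this
    intro h
    obtain ⟨y, hyb, hyE, hyT⟩ := key b a h
    have hF1 := hF _ _ (hyT y le_rfl)
    have hPy : P (a + y, b - y) (y + 1) := by
      refine ⟨by have := (hF _ _ h).2; omega, fun x hx => ⟨by simp only; omega, ?_⟩⟩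
      have := hyT (y - x) (by omega)
      rw [show a + (y - x) = a + y - x by omega, show b - (y - x) = b - y + x by omega] at this
      exact this
    have hl := hmaxl _ _ hPy
    refine ⟨E.equivFin ⟨(a + y, b - y), hyE⟩, ?_⟩
    have he : (e (E.equivFin ⟨(a + y, b - y), hyE⟩)) = ⟨(a + y, b - y), hyE⟩ := by
      simp [e]
    have hpos : 0 < len (a + y, b - y) := by omega
    have hb1 := hb _ hpos
    simp only at hb1
    have hkey : RunRel (F := F)
        (if h : 0 < len (e (E.equivFin ⟨(a + y, b - y), hyE⟩)).1 then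
      (⟨(e (E.equivFin ⟨(a + y, b - y), hyE⟩)).1.1 + 1 - len (e (E.equivFin ⟨(a + y, b - y), hyE⟩)).1, by have := hb _ h; omega⟩,
        ⟨(e (E.equivFin ⟨(a + y, b - y), hyE⟩)).1.2 + (len (e (E.equivFin ⟨(a + y, b - y), hyE⟩)).1 - 1), by have := hb _ h; omega⟩,
        ⟨len (e (E.equivFin ⟨(a + y, b - y), hyE⟩)).1, by have := (hlen (e (E.equivFin ⟨(a + y, b - y), hyE⟩)).1).1; omega⟩, false)
      else (0, 0, 0, true)) a b := by
      rw [dif_pos (by rw [he]; exact hpos)]
      refine ⟨len (a + y, b - y) - 1 - y, ?_, ?_, Or.inr ⟨rfl, ?_⟩⟩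
      · change _ < len (e (E.equivFin ⟨(a + y, b - y), hyE⟩)).1
        rw [he]
        change _ < len (a + y, b - y)
        omega
      · change a = (e (E.equivFin ⟨(a + y, b - y), hyE⟩)).1.1 + 1 -
          len (e (E.equivFin ⟨(a + y, b - y), hyE⟩)).1 + _
        rw [he]
        change a = a + y + 1 - len (a + y, b - y) + _
        omega
      · change b + _ = (e (E.equivFin ⟨(a + y, b - y), hyE⟩)).1.2 +
          (len (e (E.equivFin ⟨(a + y, b - y), hyE⟩)).1 - 1)
        rw [he]
        change b + _ = b - y + (len (a + y, b - y) - 1)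
        omega
    exact hkey
  · rintro ⟨m, hm⟩
    by_cases h0 : 0 < len (e m).1
    · simp only [h0, dif_pos] at hm
      obtain ⟨x, hx, h1, h2⟩ := hm
      have hb1 := hb _ h0
      rcases h2 with ⟨h2, -⟩ | ⟨-, h2⟩
      · simp at h2
      · simp only at hx h1 h2
        have h3 := (hlen (e m).1).2 (len (e m).1 - 1 - x) (by omega)
        rw [show (e m).1.1 - (len (e m).1 - 1 - x) = a by omega,
          show (e m).1.2 + (len (e m).1 - 1 - x) = b by omega] at h3
        exact h3.2
    · simp only [h0, dif_neg, not_false_eq_true] at hm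
      obtain ⟨x, hx, -⟩ := hm
      simp at hx

/-- swapping the coordinates -/
theorem IsRunsF.swap {F k : ℕ} {T : ℕ → ℕ → Prop} (hF : ∀ a b, T a b → a < F ∧ b < F)
    (h : IsRunsF F k T) : IsRunsF F k (fun a b => T b a) := by
  classical
  obtain ⟨c, hc⟩ := h
  -- an antidiagonal run starts at its other end after the swap
  have key : ∀ m, ∃ d : RunF F, ∀ a b, RunRel d a b ↔ RunRel (c m) b a := by
    intro m
    rcases hcm : c m with ⟨⟨i, hi⟩, ⟨j, hj⟩, ⟨l, hl⟩, s⟩
    cases s with
    | true =>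
      refine ⟨(⟨j, hj⟩, ⟨i, hi⟩, ⟨l, hl⟩, true), fun a b => ?_⟩
      constructor
      · rintro ⟨x, hx, h1, ⟨-, h2⟩ | ⟨h2, -⟩⟩
        · exact ⟨x, hx, h2, Or.inl ⟨rfl, h1⟩⟩
        · exact absurd h2 (by simp)
      · rintro ⟨x, hx, h1, ⟨-, h2⟩ | ⟨h2, -⟩⟩
        · exact ⟨x, hx, h2, Or.inl ⟨rfl, h1⟩⟩
        · exact absurd h2 (by simp)
    | false =>
      by_cases hl0 : l = 0
      · subst hl0
        refine ⟨(0, 0, 0, true), fun a b => ?_⟩
        constructor
        · rintro ⟨x, hx, -⟩
          simp at hx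
        · rintro ⟨x, hx, -⟩
          simp at hx
      · -- the length is at most `j + 1`, otherwise truncate
        let l' := min l (j + 1)
        have hT : ∀ x < l', T (i + x) (j - x) := by
          intro x hx
          refine (hc _ _).2 ⟨m, ?_⟩
          rw [hcm]
          refine ⟨x, ?_, rfl, Or.inr ⟨rfl, ?_⟩⟩
          · change x < l
            omega
          · change j - x + x = j
            omega
        have h1 := hF _ _ (hT (l' - 1) (by omega))
        refine ⟨(⟨j - (l' - 1), by omega⟩, ⟨i + (l' - 1), by omega⟩, ⟨l', by omega⟩, false),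
          fun a b => ?_⟩
        constructor
        · rintro ⟨x, hx, h1, ⟨h2, -⟩ | ⟨-, h2⟩⟩
          · exact absurd h2 (by simp)
          · simp only at hx h1 h2
            refine ⟨l' - 1 - x, ?_, ?_, Or.inr ⟨rfl, ?_⟩⟩
            · change l' - 1 - x < l
              omega
            · change b = i + (l' - 1 - x)
              omega
            · change a + (l' - 1 - x) = j
              omega
        · rintro ⟨x, hx, h1, ⟨h2, -⟩ | ⟨-, h2⟩⟩
          · exact absurd h2 (by simp)
          · simp only at hx h1 h2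
            refine ⟨l' - 1 - x, ?_, ?_, Or.inr ⟨rfl, ?_⟩⟩
            · change l' - 1 - x < l'
              omega
            · change a = j - (l' - 1) + (l' - 1 - x)
              omega
            · change b + (l' - 1 - x) = i + (l' - 1)
              omega
  choose d hd using key
  refine ⟨d, fun a b => ?_⟩
  refine (hc b a).trans ?_
  constructor
  · rintro ⟨m, hm⟩
    exact ⟨m, (hd m a b).2 hm⟩
  · rintro ⟨m, hm⟩
    exact ⟨m, (hd m a b).1 hm⟩

/-- diagonal version of the slope rule -/
theorem isRunsF_of_diag {F : ℕ} {T : ℕ → ℕ → Prop} (hF : ∀ a b, T a b → a < F ∧ b < F)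
    (E : Finset (ℕ × ℕ)) (hE : ∀ a b, T a b → (a, b) ∈ E ∨ T (a + 1) (b + 1)) :
    IsRunsF F E.card T := by
  classical
  let P : ℕ × ℕ → ℕ → Prop := fun q l => l ≤ F ∧ ∀ x < l, x ≤ q.1 ∧ x ≤ q.2 ∧ T (q.1 - x) (q.2 - x)
  have hP : ∀ q : ℕ × ℕ, ∃ l, P q l ∧ ∀ l', P q l' → l' ≤ l := by
    intro q
    have h0 : P q 0 := ⟨Nat.zero_le _, fun x hx => absurd hx (by omega)⟩
    refine ⟨Nat.findGreatest (P q) F, Nat.findGreatest_spec (P := P q) (Nat.zero_le F) h0, ?_⟩
    intro l' hl'
    exact Nat.le_findGreatest hl'.1 hl'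
  choose len hlen hmaxl using hP
  let e := E.equivFin.symm
  have hb : ∀ q : ℕ × ℕ, 0 < len q → len q ≤ q.1 + 1 ∧ len q ≤ q.2 + 1 ∧ q.1 < F ∧ q.2 < F := by
    intro q hq
    have h1 := (hlen q).2 (len q - 1) (by omega)
    have h2 := (hlen q).2 0 hq
    have h4 := hF _ _ h2.2.2
    simp only [Nat.sub_zero] at h4
    exact ⟨by omega, by omega, h4.1, h4.2⟩
  have hex : ∀ m, ∃ d : RunF F, ∀ a b, RunRel d a b ↔
      ∃ x < len (e m).1, a = (e m).1.1 - x ∧ b = (e m).1.2 - x := by
    intro m
    by_cases h : 0 < len (e m).1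
    · have hb1 := hb _ h
      refine ⟨(⟨(e m).1.1 + 1 - len (e m).1, by omega⟩,
        ⟨(e m).1.2 + 1 - len (e m).1, by omega⟩,
        ⟨len (e m).1, by have := (hlen (e m).1).1; omega⟩, true), fun a b => ?_⟩
      constructor
      · rintro ⟨x, hx, h1, ⟨-, h2⟩ | ⟨h2, -⟩⟩
        · simp only at hx h1 h2
          exact ⟨len (e m).1 - 1 - x, by omega, by omega, by omega⟩
        · exact absurd h2 (by simp)
      · rintro ⟨x, hx, h1, h2⟩
        refine ⟨len (e m).1 - 1 - x, ?_, ?_, Or.inl ⟨rfl, ?_⟩⟩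
        · simp only; omega
        · simp only; omega
        · simp only; omega
    · refine ⟨(0, 0, 0, true), fun a b => ?_⟩
      constructor
      · rintro ⟨x, hx, -⟩
        simp at hx
      · rintro ⟨x, hx, -⟩
        omega
  choose d hd using hex
  refine ⟨d, fun a b => ?_⟩
  constructor
  · have key : ∀ (k a b : ℕ), F - a = k → T a b → ∃ y, (a + y, b + y) ∈ E ∧
        ∀ x ≤ y, T (a + x) (b + x) := by
      intro k
      induction k using Nat.strong_induction_on with
      | _ k ih =>
        intro a b hk h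
        rcases hE _ _ h with h1 | h1
        · exact ⟨0, h1, fun x hx => by rw [show x = 0 by omega]; exact h⟩
        · have h2 := (hF _ _ h).1
          obtain ⟨y, hyE, hyT⟩ := ih (F - (a + 1)) (by omega) (a + 1) (b + 1) rfl h1
          refine ⟨y + 1, ?_, ?_⟩
          · rw [show a + (y + 1) = a + 1 + y by omega, show b + (y + 1) = b + 1 + y by omega]
            exact hyE
          · intro x hx
            rcases Nat.eq_zero_or_pos x with rfl | hx0
            · exact h
            · have := hyT (x - 1) (by omega)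
              rw [show a + x = a + 1 + (x - 1) by omega, show b + x = b + 1 + (x - 1) by omega]
              exact this
    intro h
    obtain ⟨y, hyE, hyT⟩ := key _ a b rfl h
    have hF1 := hF _ _ (hyT y le_rfl)
    have hPy : P (a + y, b + y) (y + 1) := by
      refine ⟨by omega, fun x hx => ⟨by simp only; omega, by simp only; omega, ?_⟩⟩
      have := hyT (y - x) (by omega)
      rw [show a + (y - x) = a + y - x by omega, show b + (y - x) = b + y - x by omega] at this
      exact this
    have hl := hmaxl _ _ hPy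
    refine ⟨E.equivFin ⟨(a + y, b + y), hyE⟩, ?_⟩
    rw [hd]
    have he : (e (E.equivFin ⟨(a + y, b + y), hyE⟩)) = ⟨(a + y, b + y), hyE⟩ := by
      simp [e]
    rw [he]
    refine ⟨y, ?_, ?_, ?_⟩
    · change y < len (a + y, b + y)
      omega
    · change a = a + y - y
      omega
    · change b = b + y - y
      omega
  · rintro ⟨m, hm⟩
    rw [hd] at hm
    obtain ⟨x, hx, rfl, rfl⟩ := hm
    exact ((hlen (e m).1).2 x hx).2.2

/-! ## The interface (form of helper621) -/

/-- a run `(i, j, len, sign)` -/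
abbrev Run := ℕ × ℕ × ℕ × Bool

def Run.rel (r : Run) (i j : ℕ) : Prop :=
  ∃ x < r.2.2.1, i = r.1 + x ∧ (if r.2.2.2 then j = r.2.1 + x else j + x = r.2.1)

def IsRuns (F B : ℕ) (R : ℕ → ℕ → Prop) : Prop :=
  ∃ c : Fin B → Run, (∀ b, (c b).1 ≤ F ∧ (c b).2.1 ≤ F ∧ (c b).2.2.1 ≤ F) ∧
    ∀ i j, R i j ↔ ∃ b, (c b).rel i j

theorem rel_iff {F : ℕ} (c : RunF F) (i j : ℕ) :
    Run.rel (c.1.val, c.2.1.val, c.2.2.1.val, c.2.2.2) i j ↔ RunRel c i j := by
  obtain ⟨a, b, l, s⟩ := c
  unfold Run.rel RunRel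
  cases s <;> simp

theorem isRuns_iff {F B : ℕ} {R : ℕ → ℕ → Prop} : IsRuns F B R ↔ IsRunsF F B R := by
  constructor
  · rintro ⟨c, hb, hc⟩
    refine ⟨fun m => (⟨(c m).1, by have := hb m; omega⟩, ⟨(c m).2.1, by have := hb m; omega⟩,
      ⟨(c m).2.2.1, by have := hb m; omega⟩, (c m).2.2.2), fun i j => ?_⟩
    rw [hc]
    refine exists_congr fun m => ?_
    exact rel_iff (F := F) (⟨(c m).1, by have := hb m; omega⟩,
      ⟨(c m).2.1, by have := hb m; omega⟩, ⟨(c m).2.2.1, by have := hb m; omega⟩, (c m).2.2.2) i j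
  · rintro ⟨c, hc⟩
    refine ⟨fun m => ((c m).1.val, (c m).2.1.val, (c m).2.2.1.val, (c m).2.2.2), fun m => ?_,
      fun i j => ?_⟩
    · exact ⟨Nat.lt_succ_iff.1 (c m).1.2, Nat.lt_succ_iff.1 (c m).2.1.2,
        Nat.lt_succ_iff.1 (c m).2.2.1.2⟩
    · rw [hc]
      exact exists_congr fun m => (rel_iff (c m) i j).symm

theorem IsRuns.mono {F B B' : ℕ} {R : ℕ → ℕ → Prop} (hB : B ≤ B') (h : IsRuns F B R) :
    IsRuns F B' R := isRuns_iff.2 ((isRuns_iff.1 h).mono hB)

theorem IsRuns.congr {F B : ℕ} {R R' : ℕ → ℕ → Prop} (h : IsRuns F B R)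
    (hR : ∀ i j, R' i j ↔ R i j) : IsRuns F B R' := isRuns_iff.2 ((isRuns_iff.1 h).congr hR)

theorem IsRuns.union {F B B' : ℕ} {R R' : ℕ → ℕ → Prop} (h : IsRuns F B R)
    (h' : IsRuns F B' R') : IsRuns F (B + B') (fun i j => R i j ∨ R' i j) :=
  isRuns_iff.2 ((isRuns_iff.1 h).union (isRuns_iff.1 h'))

theorem IsRuns.swap {F B : ℕ} {R : ℕ → ℕ → Prop} (hF : ∀ i j, R i j → i < F ∧ j < F)
    (h : IsRuns F B R) : IsRuns F B (fun i j => R j i) :=
  isRuns_iff.2 ((isRuns_iff.1 h).swap hF)

/-- window index of `i`: the number of cuts below `i` -/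
def wix (cut : ℕ → Prop) [DecidablePred cut] (i : ℕ) : ℕ := ((range i).filter cut).card

theorem wix_mono (cut : ℕ → Prop) [DecidablePred cut] {i j : ℕ} (h : i ≤ j) :
    wix cut i ≤ wix cut j := by
  refine card_le_card (filter_subset_filter _ ?_)
  intro x hx
  rw [mem_range] at hx ⊢
  omega

theorem wix_nocut (cut : ℕ → Prop) [DecidablePred cut] {i j : ℕ}
    (hw : wix cut i = wix cut j) {y : ℕ} (h1 : i ≤ y) (h2 : y < j) : ¬ cut y := by
  intro hy
  have h3 : wix cut i < wix cut j := by
    refine card_lt_card ?_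
    rw [Finset.ssubset_iff_of_subset]
    · refine ⟨y, ?_, ?_⟩
      · rw [mem_filter, mem_range]
        exact ⟨h2, hy⟩
      · rw [mem_filter, mem_range]
        omega
    · refine filter_subset_filter _ ?_
      intro x hx
      rw [mem_range] at hx ⊢
      omega
  omega

/-- In each pair of windows the relation is one run. -/
theorem windows_runs (cut : ℕ → Prop) [DecidablePred cut] (F W : ℕ)
    (hW : ((range F).filter cut).card ≤ W) (R : ℕ → ℕ → Prop)
    (hF : ∀ i j, R i j → i < F ∧ j < F)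
    (H : ∀ i j m m', (∀ y, i ≤ y → y < i + m → ¬ cut y) → (∀ y, j ≤ y → y < j + m' → ¬ cut y) →
      i + m < F → j + m' < F →
      (R i j → R (i + m) (j + m') → m = m' ∧ ∀ x ≤ m, R (i + x) (j + x)) ∧
      (R i (j + m') → R (i + m) j → m = m' ∧ ∀ x ≤ m, R (i + x) (j + m' - x))) :
    IsRuns F ((W + 1) * (W + 1)) R := by
  classical
  have hwl : ∀ i, i < F → wix cut i ≤ W := fun i hi => (wix_mono cut hi.le).trans hW
  let T : Fin (W + 1) × Fin (W + 1) → ℕ → ℕ → Prop := fun w i j =>
    R i j ∧ wix cut i = w.1.val ∧ wix cut j = w.2.val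
  have hT : ∀ w, IsRunsF F 1 (T w) := by
    rintro ⟨u, v⟩
    refine isRunsF_one (fun a b h => hF a b h.1) ?_ ?_
    · rintro a b b' ⟨h, hu, hv⟩ ⟨h', hu', hv'⟩
      have f1 := hF _ _ h
      have f2 := hF _ _ h'
      simp only at hv hv'
      rcases Nat.le_total b b' with hb | hb
      · have := (H a b 0 (b' - b) (fun y h1 h2 => by omega)
          (fun y h1 h2 => wix_nocut cut (hv.trans hv'.symm) h1 (by omega)) (by omega)
          (by omega)).1 h (by
            rw [show a + 0 = a by omega, show b + (b' - b) = b' by omega]; exact h')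
        omega
      · have := (H a b' 0 (b - b') (fun y h1 h2 => by omega)
          (fun y h1 h2 => wix_nocut cut (hv'.trans hv.symm) h1 (by omega)) (by omega)
          (by omega)).1 h' (by
            rw [show a + 0 = a by omega, show b' + (b - b') = b by omega]; exact h)
        omega
    · rintro a b a' b' ⟨h, hu, hv⟩ ⟨h', hu', hv'⟩ haa
      have f1 := hF _ _ h
      have f2 := hF _ _ h'
      simp only at hu hv hu' hv'
      rcases Nat.le_total b b' with hb | hb
      · left
        obtain ⟨hm, hx⟩ := (H a b (a' - a) (b' - b)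
          (fun y h1 h2 => wix_nocut cut (hu.trans hu'.symm) h1 (by omega))
          (fun y h1 h2 => wix_nocut cut (hv.trans hv'.symm) h1 (by omega)) (by omega)
          (by omega)).1 h (by
            rw [show a + (a' - a) = a' by omega, show b + (b' - b) = b' by omega]; exact h')
        intro x hxa
        refine ⟨hx x hxa, ?_, ?_⟩
        · have m1 := wix_mono cut (show a ≤ a + x by omega)
          have m2 := wix_mono cut (show a + x ≤ a' by omega)
          simp only
          omega
        · have m1 := wix_mono cut (show b ≤ b + x by omega)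
          have m2 := wix_mono cut (show b + x ≤ b' by omega)
          simp only
          omega
      · right
        obtain ⟨hm, hx⟩ := (H a b' (a' - a) (b - b')
          (fun y h1 h2 => wix_nocut cut (hu.trans hu'.symm) h1 (by omega))
          (fun y h1 h2 => wix_nocut cut (hv'.trans hv.symm) h1 (by omega)) (by omega)
          (by omega)).2 (by
            rw [show b' + (b - b') = b by omega]; exact h) (by
            rw [show a + (a' - a) = a' by omega]; exact h')
        intro x hxa
        have hx' := hx x hxa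
        rw [show b' + (b - b') - x = b - x by omega] at hx'
        refine ⟨by omega, hx', ?_, ?_⟩
        · have m1 := wix_mono cut (show a ≤ a + x by omega)
          have m2 := wix_mono cut (show a + x ≤ a' by omega)
          simp only
          omega
        · have m1 := wix_mono cut (show b' ≤ b - x by omega)
          have m2 := wix_mono cut (show b - x ≤ b by omega)
          simp only
          omega
  have hU := IsRunsF.iUnion hT
  rw [Fintype.card_prod, Fintype.card_fin, Nat.mul_one] at hU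
  refine isRuns_iff.2 (hU.congr fun i j => ?_)
  constructor
  · intro h
    have f1 := hF _ _ h
    exact ⟨(⟨wix cut i, by have := hwl i f1.1; omega⟩, ⟨wix cut j, by have := hwl j f1.2; omega⟩),
      h, rfl, rfl⟩
  · rintro ⟨w, h, -⟩
    exact h

open Classical in
theorem runs_of_ends_diag (F B : ℕ) (R : ℕ → ℕ → Prop) (hF : ∀ i j, R i j → i < F ∧ j < F)
    (hB : ((range F ×ˢ range F).filter (fun q => R q.1 q.2 ∧ ¬ R (q.1 + 1) (q.2 + 1))).card ≤ B) :
    IsRuns F B R := by
  refine isRuns_iff.2 (IsRunsF.mono (isRunsF_of_diag hF _ ?_) hB)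
  intro a b h
  by_cases h1 : R (a + 1) (b + 1)
  · exact Or.inr h1
  · left
    rw [mem_filter, mem_product, mem_range, mem_range]
    exact ⟨hF _ _ h, h, h1⟩

open Classical in
theorem runs_of_ends_anti (F B : ℕ) (R : ℕ → ℕ → Prop) (hF : ∀ i j, R i j → i < F ∧ j < F)
    (hB : ((range F ×ˢ range F).filter
      (fun q => R q.1 q.2 ∧ ¬ (1 ≤ q.2 ∧ R (q.1 + 1) (q.2 - 1)))).card ≤ B) :
    IsRuns F B R := by
  refine isRuns_iff.2 (IsRunsF.mono (isRunsF_of_anti hF _ ?_) hB)
  intro a b h
  by_cases h1 : 1 ≤ b ∧ R (a + 1) (b - 1)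
  · exact Or.inr h1
  · left
    rw [mem_filter, mem_product, mem_range, mem_range]
    exact ⟨hF _ _ h, h, h1⟩

/-- the number of records -/
theorem codes (V B : ℕ) : ∃ CC : Finset (ℕ × (Fin 7 → ℕ → ℕ → Prop)),
    CC.card ≤ (V + 1) * ((2 * (V + 1) ^ 3) ^ B) ^ 7 ∧
    ∀ F ≤ V, ∀ R : Fin 7 → ℕ → ℕ → Prop, (∀ k, IsRuns F B (R k)) → (F, R) ∈ CC := by
  classical
  let X : Type := Fin (V + 1) × (Fin 7 → Fin B → Fin (V + 1) × Fin (V + 1) × Fin (V + 1) × Bool)
  let dc : X → ℕ × (Fin 7 → ℕ → ℕ → Prop) := fun x =>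
    (x.1.val, fun k i j => ∃ b, Run.rel ((x.2 k b).1.val, (x.2 k b).2.1.val, (x.2 k b).2.2.1.val,
      (x.2 k b).2.2.2) i j)
  refine ⟨(univ : Finset X).image dc, ?_, ?_⟩
  · refine le_trans card_image_le ?_
    have h1 : (univ : Finset X).card =
        (V + 1) * (((V + 1) * ((V + 1) * ((V + 1) * 2))) ^ B) ^ 7 := by
      simp [X, Fintype.card_prod]
    rw [h1]
    refine le_of_eq ?_
    congr 3
    ring
  · intro F hF R hR
    choose c hb hc using hR
    rw [mem_image]
    refine ⟨(⟨F, by omega⟩, fun k b => (⟨(c k b).1, by have := hb k b; omega⟩,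
      ⟨(c k b).2.1, by have := hb k b; omega⟩, ⟨(c k b).2.2.1, by have := hb k b; omega⟩,
      (c k b).2.2.2)), mem_univ _, ?_⟩
    refine Prod.ext rfl ?_
    funext k i j
    exact propext (hc k i j).symm

end Vale.Agent.P201.S.Runs
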