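import Vale.Agent.P201.S.LA.Gir

/-!
P201, part LA (B2): two short chains of squares meet in one diagonal or antidiagonal run.
-/

namespace Vale.Agent.P201.S.Geo

open Finset

variable {S : Sys} {σ : Equiv.Perm S.C}

/-- a relation on positions which is one diagonal or antidiagonal segment -/
def Run (C : ℕ → ℕ → Prop) : Prop :=
  ∃ i0 j0 len, (∀ i j, C i j ↔ ∃ x < len, i = i0 + x ∧ j = j0 + x) ∨
    (∀ i j, C i j ↔ ∃ x < len, i = i0 + x ∧ j + x = j0)

theorem run_of (C : ℕ → ℕ → Prop) (a : ℕ) (hC : ∀ i j, C i j → i ≤ a)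
    (huniq : ∀ i j j', C i j → C i j' → j = j')
    (hCL : ∀ i j i2 j2, C i j → C i2 j2 → i < i2 →
      (j2 = j + (i2 - i) ∧ ∀ x ≤ i2 - i, C (i + x) (j + x)) ∨
      (j = j2 + (i2 - i) ∧ ∀ x ≤ i2 - i, C (i + x) (j - x))) : Run C := by
  classical
  by_cases hne : ∃ i j, C i j
  · -- least and greatest first coordinate
    have hle : ∃ i, ∃ j, C i j := hne
    set i0 := Nat.find hle with hi0
    obtain ⟨j0, h0⟩ := Nat.find_spec hle
    have hmin : ∀ i j, C i j → i0 ≤ i := fun i j h => Nat.find_min' hle ⟨j, h⟩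
    have hmax : ∃ i1, (∃ j, C i1 j) ∧ ∀ i j, C i j → i ≤ i1 := by
      obtain ⟨i1, h1, h2⟩ := Finset.exists_max_image ((range (a + 1)).filter fun i => ∃ j, C i j)
        id ⟨i0, mem_filter.2 ⟨mem_range.2 (by have := hC _ _ h0; omega), j0, h0⟩⟩
      refine ⟨i1, (mem_filter.1 h1).2, fun i j h => ?_⟩
      exact h2 i (mem_filter.2 ⟨mem_range.2 (by have := hC _ _ h; omega), j, h⟩)
    obtain ⟨i1, ⟨j1, h1⟩, hmax⟩ := hmax
    have hle01 := hmin _ _ h1
    rcases hle01.eq_or_lt with heq | hlt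
    · refine ⟨i0, j0, 1, Or.inl fun i j => ⟨fun h => ⟨0, by omega, ?_, ?_⟩, ?_⟩⟩
      · have := hmin _ _ h
        have := hmax _ _ h
        omega
      · have e1 := hmin _ _ h
        have e2 := hmax _ _ h
        have : i = i0 := by omega
        subst this
        exact huniq _ _ _ h h0
      · rintro ⟨x, hx, rfl, rfl⟩
        obtain rfl : x = 0 := by omega
        exact h0
    · rcases hCL _ _ _ _ h0 h1 hlt with ⟨e, h2⟩ | ⟨e, h2⟩
      · refine ⟨i0, j0, i1 - i0 + 1, Or.inl fun i j => ⟨fun h => ?_, ?_⟩⟩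
        · have e1 := hmin _ _ h
          have e2 := hmax _ _ h
          refine ⟨i - i0, by omega, by omega, ?_⟩
          have h3 := h2 (i - i0) (by omega)
          rw [show i0 + (i - i0) = i by omega] at h3
          exact huniq _ _ _ h h3
        · rintro ⟨x, hx, rfl, rfl⟩
          exact h2 x (by omega)
      · refine ⟨i0, j0, i1 - i0 + 1, Or.inr fun i j => ⟨fun h => ?_, ?_⟩⟩
        · have e1 := hmin _ _ h
          have e2 := hmax _ _ h
          refine ⟨i - i0, by omega, by omega, ?_⟩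
          have h3 := h2 (i - i0) (by omega)
          rw [show i0 + (i - i0) = i by omega] at h3
          have := huniq _ _ _ h h3
          omega
        · rintro ⟨x, hx, rfl, h⟩
          have h3 := h2 x (by omega)
          rwa [show j0 - x = j by omega] at h3
  · push Not at hne
    exact ⟨0, 0, 0, Or.inl fun i j => ⟨fun h => absurd h (hne i j), by
      rintro ⟨x, hx, -⟩
      omega⟩⟩

/-- restriction of a run to a box -/
theorem Run.box {C : ℕ → ℕ → Prop} (h : Run C) (a b : ℕ) :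
    Run fun i j => C i j ∧ i < a ∧ j < b := by
  obtain ⟨i0, j0, len, h | h⟩ := h
  · refine run_of _ a (fun i j h => h.2.1.le) ?_ ?_
    · rintro i j j' ⟨h1, -, -⟩ ⟨h2, -, -⟩
      obtain ⟨x, -, e1, e2⟩ := (h i j).1 h1
      obtain ⟨y, -, e3, e4⟩ := (h i j').1 h2
      omega
    · rintro i j i2 j2 ⟨h1, h1a, h1b⟩ ⟨h2, h2a, h2b⟩ hlt
      obtain ⟨x, hx, e1, e2⟩ := (h i j).1 h1
      obtain ⟨y, hy, e3, e4⟩ := (h i2 j2).1 h2
      left
      refine ⟨by omega, fun z hz => ⟨(h _ _).2 ⟨x + z, by omega, by omega, by omega⟩, by omega,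
        by omega⟩⟩
  · refine run_of _ a (fun i j h => h.2.1.le) ?_ ?_
    · rintro i j j' ⟨h1, -, -⟩ ⟨h2, -, -⟩
      obtain ⟨x, -, e1, e2⟩ := (h i j).1 h1
      obtain ⟨y, -, e3, e4⟩ := (h i j').1 h2
      omega
    · rintro i j i2 j2 ⟨h1, h1a, h1b⟩ ⟨h2, h2a, h2b⟩ hlt
      obtain ⟨x, hx, e1, e2⟩ := (h i j).1 h1
      obtain ⟨y, hy, e3, e4⟩ := (h i2 j2).1 h2
      right
      refine ⟨by omega, fun z hz => ⟨(h _ _).2 ⟨x + z, by omega, by omega, by omega⟩, by omega,
        by omega⟩⟩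

/-- `ch 0, …, ch m` is a chain for `Y` -/
def Ych (G : Glue σ) (m : ℕ) (ch : ℕ → G.Q) : Prop := ∀ i < m, G.Y (ch i) = some (ch (i + 1))

/-- the blocks `0, …, m + 1` met by the chain -/
noncomputable def bs (G : Glue σ) (ch : ℕ → G.Q) : ℕ → S.B
  | 0 => S.blk (G.ε (ch 0))
  | i + 1 => S.blk (mt σ (G.ε (ch i)))

/-- the ports `i, …, i + k - 1` of the chain -/
noncomputable def pts (G : Glue σ) (ch : ℕ → G.Q) : ℕ → ℕ → List (Port S)
  | _, 0 => []
  | i, k + 1 => G.ε (ch i) :: pts G ch (i + 1) k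

variable {G : Glue σ}

theorem bs_succ (ch : ℕ → G.Q) (i : ℕ) : bs G ch (i + 1) = S.blk (mt σ (G.ε (ch i))) := rfl

theorem bs_start (hR : G.Red) {m : ℕ} {ch : ℕ → G.Q} (h : Ych G m ch) {i : ℕ} (hi : i ≤ m) :
    S.blk (G.ε (ch i)) = bs G ch i := by
  cases i with
  | zero => rfl
  | succ i => exact (hR.y _ _ (h i (by omega))).1.symm

theorem pts_length (ch : ℕ → G.Q) (i k : ℕ) : (pts G ch i k).length = k := by
  induction k generalizing i with
  | zero => rfl
  | succ k ih => rw [pts, List.length_cons, ih]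

theorem pts_get (ch : ℕ → G.Q) (i k x : ℕ) (hx : x < k) :
    (pts G ch i k)[x]? = some (G.ε (ch (i + x))) := by
  induction k generalizing i x with
  | zero => omega
  | succ k ih =>
    rw [pts]
    cases x with
    | zero => rfl
    | succ x =>
      rw [List.getElem?_cons_succ, ih (i + 1) x (by omega)]
      congr 3
      omega

theorem rw_pts (hR : G.Red) {m : ℕ} {ch : ℕ → G.Q} (h : Ych G m ch) :
    ∀ k i, i + k ≤ m + 1 → RW σ (bs G ch i) (pts G ch i k) (bs G ch (i + k)) := by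
  intro k
  induction k with
  | zero => intro i _; exact rfl
  | succ k ih =>
    intro i hi
    rw [pts, RW.cons_iff]
    refine ⟨bs_start hR h (by omega), ?_, ?_⟩
    · intro b hb
      cases k with
      | zero => simp [pts] at hb
      | succ k =>
        rw [pts, List.head?_cons, Option.mem_def, Option.some.injEq] at hb
        subst hb
        exact (hR.y _ _ (h i (by omega))).2
    · have := ih (i + 1) (by omega)
      rw [show i + (k + 1) = i + 1 + k by omega]
      exact this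

/-- a short chain meets a block only once -/
theorem bs_inj (hR : G.Red) {g : ℕ} (hg : Girth σ g) {m : ℕ} {ch : ℕ → G.Q} (h : Ych G m ch)
    (hm : m + 1 < g) {i j : ℕ} (hi : i ≤ m + 1) (hj : j ≤ m + 1) (e : bs G ch i = bs G ch j) :
    i = j := by
  have key : ∀ i j : ℕ, i < j → j ≤ m + 1 → bs G ch i = bs G ch j → False := by
    intro i j hij hj e
    have h1 := rw_pts hR h (j - i) i (by omega)
    rw [show i + (j - i) = j by omega, ← e] at h1
    have h2 := h1.girth hg (by
      intro h0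
      have := congrArg List.length h0
      rw [pts_length, List.length_nil] at this
      omega)
    rw [pts_length] at h2
    omega
  rcases lt_trichotomy i j with hlt | heq | hlt
  · exact (key i j hlt hj e).elim
  · exact heq
  · exact (key j i hlt hi e.symm).elim

theorem rvw_get (l : List (Port S)) (x : ℕ) (hx : x < l.length) :
    (rvw σ l)[x]? = (l[l.length - 1 - x]?).map (mt σ) := by
  unfold rvw
  rw [List.getElem?_reverse (by simpa using hx), List.getElem?_map, List.length_map]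

/-- two coincidences of two chains -/
theorem coinc (hR : G.Red) {g : ℕ} (hg : Girth σ g) {m m' : ℕ} {ch ch' : ℕ → G.Q}
    (h : Ych G m ch) (h' : Ych G m' ch') (hm : (m + 1) + (m' + 1) < g) {i i2 j j2 : ℕ}
    (hi : i < i2) (hi2 : i2 ≤ m + 1) (hj : j ≤ m' + 1) (hj2 : j2 ≤ m' + 1)
    (e : bs G ch i = bs G ch' j) (e2 : bs G ch i2 = bs G ch' j2) :
    (j2 = j + (i2 - i) ∧ ∀ x < i2 - i, G.ε (ch (i + x)) = G.ε (ch' (j + x))) ∨
    (j = j2 + (i2 - i) ∧ ∀ x < i2 - i, G.ε (ch (i + x)) = mt σ (G.ε (ch' (j - 1 - x)))) := by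
  have h1 := rw_pts hR h (i2 - i) i (by omega)
  rw [show i + (i2 - i) = i2 by omega] at h1
  rcases le_or_gt j j2 with hjj | hjj
  · left
    have h2 := rw_pts hR h' (j2 - j) j (by omega)
    rw [show j + (j2 - j) = j2 by omega, ← e, ← e2] at h2
    have h3 := h1.unique hg h2 (by rw [pts_length, pts_length]; omega)
    have h4 := congrArg List.length h3
    rw [pts_length, pts_length] at h4
    refine ⟨by omega, fun x hx => ?_⟩
    have h5 := pts_get ch i (i2 - i) x hx
    have h6 := pts_get ch' j (j2 - j) x (by omega)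
    rw [h3, h6, Option.some.injEq] at h5
    exact h5.symm
  · right
    have h2 := (rw_pts hR h' (j - j2) j2 (by omega)).reverse
    rw [show j2 + (j - j2) = j by omega, ← e, ← e2] at h2
    have h3 := h1.unique hg h2 (by rw [rvw_length, pts_length, pts_length]; omega)
    have h4 := congrArg List.length h3
    rw [rvw_length, pts_length, pts_length] at h4
    refine ⟨by omega, fun x hx => ?_⟩
    have h5 := pts_get ch i (i2 - i) x hx
    have h6 := rvw_get (σ := σ) (pts G ch' j2 (j - j2)) x (by rw [pts_length]; omega)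
    rw [pts_length, pts_get ch' j2 (j - j2) (j - j2 - 1 - x) (by omega)] at h6
    rw [h3, h6, Option.map_some, Option.some.injEq] at h5
    rw [← h5]
    congr 4
    omega

/-- **two short chains meet in one run** -/
theorem run_coinc (hR : G.Red) {g : ℕ} (hg : Girth σ g) {m m' : ℕ} {ch ch' : ℕ → G.Q}
    (h : Ych G m ch) (h' : Ych G m' ch') (hm : (m + 1) + (m' + 1) < g) :
    Run fun i j => i ≤ m + 1 ∧ j ≤ m' + 1 ∧ bs G ch i = bs G ch' j := by
  refine run_of _ (m + 1) (fun i j h => h.1) ?_ ?_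
  · rintro i j j' ⟨-, hj, e⟩ ⟨-, hj', e'⟩
    exact bs_inj hR hg h' (by omega) hj hj' (e.symm.trans e')
  · rintro i j i2 j2 ⟨hi, hj, e⟩ ⟨hi2, hj2, e2⟩ hlt
    rcases coinc hR hg h h' hm hlt hi2 hj hj2 e e2 with ⟨h1, h2⟩ | ⟨h1, h2⟩
    · left
      refine ⟨h1, fun x hx => ⟨by omega, by omega, ?_⟩⟩
      cases x with
      | zero => exact e
      | succ x =>
        rw [show i + (x + 1) = i + x + 1 by omega, show j + (x + 1) = j + x + 1 by omega,
          bs_succ, bs_succ, h2 x (by omega)]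
    · right
      refine ⟨h1, fun x hx => ⟨by omega, by omega, ?_⟩⟩
      cases x with
      | zero => exact e
      | succ x =>
        rw [show i + (x + 1) = i + x + 1 by omega, bs_succ, h2 x (by omega), mt_mt,
          show j - (x + 1) = j - 1 - x by omega]
        exact bs_start hR h' (by omega)

/-- equal ports of two squares -/
theorem port_eq_iff (hR : G.Red) {g : ℕ} (hg : Girth σ g) {m m' : ℕ} {ch ch' : ℕ → G.Q}
    (h : Ych G m ch) (h' : Ych G m' ch') (hm : (m + 1) + (m' + 1) < g) {i j : ℕ} (hi : i ≤ m)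
    (hj : j ≤ m') : G.ε (ch i) = G.ε (ch' j) ↔
      bs G ch i = bs G ch' j ∧ bs G ch (i + 1) = bs G ch' (j + 1) := by
  constructor
  · intro e
    exact ⟨by rw [← bs_start hR h hi, ← bs_start hR h' hj, e], by rw [bs_succ, bs_succ, e]⟩
  · rintro ⟨e, e2⟩
    rcases coinc hR hg h h' hm (Nat.lt_succ_self i) (by omega) (by omega) (by omega) e e2 with
      ⟨-, h2⟩ | ⟨h1, -⟩
    · exact h2 0 (by omega)
    · omega

/-- opposite ports of two squares -/
theorem port_mt_iff (hR : G.Red) {g : ℕ} (hg : Girth σ g) {m m' : ℕ} {ch ch' : ℕ → G.Q}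
    (h : Ych G m ch) (h' : Ych G m' ch') (hm : (m + 1) + (m' + 1) < g) {i j : ℕ} (hi : i ≤ m)
    (hj : j ≤ m') : G.ε (ch i) = mt σ (G.ε (ch' j)) ↔
      bs G ch i = bs G ch' (j + 1) ∧ bs G ch (i + 1) = bs G ch' j := by
  constructor
  · intro e
    refine ⟨by rw [← bs_start hR h hi, e, bs_succ], ?_⟩
    rw [bs_succ, e, mt_mt]
    exact bs_start hR h' hj
  · rintro ⟨e, e2⟩
    rcases coinc hR hg h h' hm (Nat.lt_succ_self i) (by omega) (by omega) (by omega) e e2 with
      ⟨h1, -⟩ | ⟨h1, h2⟩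
    · omega
    · have := h2 0 (by omega)
      simpa using this

/-- at an inner point of the run the unordered units are equal -/
theorem unit_of_run (hR : G.Red) {g : ℕ} (hg : Girth σ g) {m m' : ℕ} {ch ch' : ℕ → G.Q}
    (h : Ych G m ch) (h' : Ych G m' ch') (hm : (m + 1) + (m' + 1) < g) {i j : ℕ} (hi : i < m)
    (hj : j < m') (e : bs G ch (i + 1) = bs G ch' (j + 1))
    (hne : ¬ ((mt σ (G.ε (ch i)) = mt σ (G.ε (ch' j)) ∧ G.ε (ch (i + 1)) = G.ε (ch' (j + 1))) ∨
      (mt σ (G.ε (ch i)) = G.ε (ch' (j + 1)) ∧ G.ε (ch (i + 1)) = mt σ (G.ε (ch' j))))) :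
    ¬ (bs G ch i = bs G ch' j ∧ bs G ch (i + 2) = bs G ch' (j + 2)) ∧
    ¬ (bs G ch i = bs G ch' (j + 2) ∧ bs G ch (i + 2) = bs G ch' j) := by
  constructor
  · rintro ⟨e1, e2⟩
    apply hne
    left
    have h1 := (port_eq_iff hR hg h h' hm (i := i) (j := j) (by omega) (by omega)).2 ⟨e1, e⟩
    have h2 := (port_eq_iff hR hg h h' hm (i := i + 1) (j := j + 1) (by omega) (by omega)).2
      ⟨e, e2⟩
    exact ⟨by rw [h1], h2⟩
  · rintro ⟨e1, e2⟩
    apply hne
    right
    have h1 := (port_mt_iff hR hg h h' hm (i := i) (j := j + 1) (by omega) (by omega)).2 ⟨e1, e⟩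
    have h2 := (port_mt_iff hR hg h h' hm (i := i + 1) (j := j) (by omega) (by omega)).2
      ⟨e, e2⟩
    exact ⟨by rw [h1, mt_mt], h2⟩

end Vale.Agent.P201.S.Geo
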