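import Vale.Agent.P201.S.LA.Cyc

/-!
P201, part LA1: the Euler count.
-/

namespace Vale.Agent.P201.S

open Finset

variable {S : Sys} {σ : Equiv.Perm (S.C)}

namespace Glue

variable (G : Glue σ)

/-- `s` lies on an `X`-cycle of length two -/
def GoodX (s : G.Q) : Prop := ∃ t, G.X s = some t ∧ G.X t = some s

/-- `s` lies on an `XY`-cycle of length two with label sum zero -/
def Good2 (s : G.Q) : Prop :=
  ∃ t, t ≠ s ∧ G.XY s = some t ∧ G.XY t = some s ∧ G.inc s + G.inc t = 0

open Classical in
/-- number of elements of `dom X` off the `X`-cycles of length two -/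
noncomputable def badO : ℕ := (univ.filter fun s => (G.X s).isSome ∧ ¬ G.GoodX s).card

open Classical in
/-- number of elements of `dom XY` off the good cycles of length two -/
noncomputable def badM : ℕ := (univ.filter fun s => (G.XY s).isSome ∧ ¬ G.Good2 s).card

variable {G}

theorem XY_eq {s v : G.Q} : G.XY s = some v ↔ ∃ u, G.X s = some u ∧ G.Y u = some v := by
  unfold XY
  exact PEquiv.mem_trans G.X G.Y s v

theorem inc_eq {s u v : G.Q} (h1 : G.X s = some u) (h2 : G.Y u = some v) :
    G.inc s = S.ht (mt σ (G.ε u)) - S.ht (G.ε v) := by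
  unfold inc
  rw [h1]
  simp only
  rw [h2]

/-- `X` changes the copy -/
theorem Red.flip (hR : G.Red) {s t : G.Q} (h : G.X s = some t) : (G.ε s).2 = !(G.ε t).2 := by
  have h1 := (hR.x s t h).1
  rw [S.cp _ _ h1, mt_snd]

theorem Red.X_ne (hR : G.Red) {s t : G.Q} (h : G.X s = some t) : s ≠ t := by
  rintro rfl
  have h1 := hR.flip h
  cases h2 : (G.ε s).2 <;> rw [h2] at h1 <;> simp at h1

theorem Red.X_ne3 (hR : G.Red) {s t u v : G.Q} (h1 : G.X s = some t) (h2 : G.X t = some u)
    (h3 : G.X u = some v) : s ≠ v := by
  rintro rfl
  have e1 := hR.flip h1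
  have e2 := hR.flip h2
  have e3 := hR.flip h3
  rw [e3] at e2
  rw [e2] at e1
  cases h2 : (G.ε s).2 <;> rw [h2] at e1 <;> simp at e1

/-- a fixed point of `XY` has nonzero label sum -/
theorem Red.fix (hR : G.Red) {s : G.Q} (h : G.XY s = some s) : G.inc s ≠ 0 := by
  intro h0
  obtain ⟨u, h1, h2⟩ := XY_eq.1 h
  rw [inc_eq h1 h2] at h0
  obtain ⟨h3, h4⟩ := hR.y u s h2
  obtain ⟨h5, -⟩ := hR.x s u h1
  exact h4 (S.inj _ _ h5 h3.symm (by omega))

/-- exceptional cycles -/
def Exc (G : Glue σ) (s : G.Q) : Prop := ∑ t ∈ orb G.XY s, G.inc t ≠ 0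

theorem Lab.exc (hL : G.Lab) {s s' : G.Q} (hs : Per G.XY s) (hs' : Per G.XY s') (h : G.Exc s)
    (h' : G.Exc s') : orb G.XY s = orb G.XY s' := by
  obtain ⟨E, hE, hE2⟩ := hL
  refine hE s s' ?_ ?_
  · by_contra hn
    exact h (hE2 s hs hn)
  · by_contra hn
    exact h' (hE2 s' hs' hn)

theorem GoodX.symm {s t : G.Q} (h1 : G.X s = some t) (h2 : G.X t = some s) : G.GoodX t :=
  ⟨s, h2, h1⟩

open Classical in
theorem cycX_le (hR : G.Red) : 4 * cyc G.X + G.badO ≤ 2 * domc G.X := by
  have h := cyc_weight0 G.X (fun s => if G.GoodX s then 2 else 1) 4 ?_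
  · have hsum : ∑ s ∈ univ.filter (fun s => (G.X s).isSome), (if G.GoodX s then 2 else 1)
        + G.badO = 2 * domc G.X := by
      unfold badO domc
      rw [← Finset.filter_filter, Finset.card_filter (fun s => ¬ G.GoodX s), Finset.card_eq_sum_ones,
        mul_sum, ← sum_add_distrib]
      refine sum_congr rfl fun s _ => ?_
      by_cases hs : G.GoodX s <;> simp [hs]
    omega
  · intro s hs
    obtain ⟨t, ht⟩ := Option.isSome_iff_exists.1 hs.dom
    obtain ⟨u, hu⟩ := Option.isSome_iff_exists.1 (hs.step ht).dom
    obtain ⟨v, hv⟩ := Option.isSome_iff_exists.1 ((hs.step ht).step hu).dom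
    have m0 := self_mem_orb G.X s
    have m1 := step_mem_orb m0 ht
    have m2 := step_mem_orb m1 hu
    have m3 := step_mem_orb m2 hv
    have d1 := hR.X_ne ht
    by_cases hus : u = s
    · subst hus
      have hsub : ({u, t} : Finset G.Q) ⊆ orb G.X u := by
        intro x hx
        simp only [mem_insert, mem_singleton] at hx
        rcases hx with rfl | rfl
        · exact m0
        · exact m1
      refine le_trans ?_ (sum_le_sum_of_subset hsub)
      rw [sum_pair d1, if_pos ⟨t, ht, hu⟩, if_pos ⟨u, hu, ht⟩]
    · have d2 := hR.X_ne hu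
      have d3 := hR.X_ne hv
      have d4 := hR.X_ne3 ht hu hv
      have d5 : t ≠ v := by
        rintro rfl
        exact hus (G.X.inj hv ht)
      have hsub : ({s, t, u, v} : Finset G.Q) ⊆ orb G.X s := by
        intro x hx
        simp only [mem_insert, mem_singleton] at hx
        rcases hx with rfl | rfl | rfl | rfl
        · exact m0
        · exact m1
        · exact m2
        · exact m3
      have hcard : ({s, t, u, v} : Finset G.Q).card = 4 := by
        rw [card_insert_of_notMem, card_insert_of_notMem, card_insert_of_notMem, card_singleton]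
        · simpa using d3
        · simp only [mem_insert, mem_singleton, not_or]
          exact ⟨d2, d5⟩
        · simp only [mem_insert, mem_singleton, not_or]
          exact ⟨d1, fun h => hus h.symm, d4⟩
      calc 4 = ∑ _x ∈ ({s, t, u, v} : Finset G.Q), 1 := by rw [← card_eq_sum_ones, hcard]
        _ ≤ ∑ x ∈ ({s, t, u, v} : Finset G.Q), (if G.GoodX x then 2 else 1) :=
            sum_le_sum fun x _ => by split_ifs <;> norm_num
        _ ≤ _ := sum_le_sum_of_subset hsub

open Classical in
theorem cycXY_le (hR : G.Red) (hL : G.Lab) : 6 * cyc G.XY + G.badM ≤ 3 * domc G.XY + 6 := by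
  have h := cyc_weight G.XY (fun s => if G.Good2 s then 3 else 2) 6 (fun s => G.Exc s)
    (fun s s' hs hs' h h' => hL.exc hs hs' h h') ?_
  · have hsum : ∑ s ∈ univ.filter (fun s => (G.XY s).isSome), (if G.Good2 s then 3 else 2)
        + G.badM = 3 * domc G.XY := by
      unfold badM domc
      rw [← Finset.filter_filter, Finset.card_filter (fun s => ¬ G.Good2 s), Finset.card_eq_sum_ones,
        mul_sum, ← sum_add_distrib]
      refine sum_congr rfl fun s _ => ?_
      by_cases hs : G.Good2 s <;> simp [hs]
    omega
  · intro s hs hE
    unfold Exc at hE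
    push Not at hE
    obtain ⟨t, ht⟩ := Option.isSome_iff_exists.1 hs.dom
    obtain ⟨u, hu⟩ := Option.isSome_iff_exists.1 (hs.step ht).dom
    have m0 := self_mem_orb G.XY s
    have m1 := step_mem_orb m0 ht
    have m2 := step_mem_orb m1 hu
    by_cases hts : t = s
    · exfalso
      subst hts
      have horb : orb G.XY t = {t} := by
        ext x
        rw [mem_orb, mem_singleton]
        constructor
        · rintro ⟨k, hk⟩
          have := pit_mul (k := 1) (f := G.XY) (s := t) (by rw [pit_one, ht]) k
          rw [one_mul, hk, Option.some.injEq] at this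
          exact this
        · rintro rfl
          exact ⟨0, rfl⟩
      rw [horb, sum_singleton] at hE
      exact hR.fix ht hE
    · by_cases hus : u = s
      · subst hus
        have horb : orb G.XY u = {u, t} := by
          apply Finset.Subset.antisymm
          · intro x hx
            rw [mem_orb] at hx
            obtain ⟨k, hk⟩ := hx
            have key : ∀ k : ℕ, pit G.XY k u = some u ∨ pit G.XY k u = some t := by
              intro k
              induction k with
              | zero => exact Or.inl rfl
              | succ k ih =>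
                rw [pit_succ']
                rcases ih with h | h
                · rw [h, Option.bind_some]
                  exact Or.inr ht
                · rw [h, Option.bind_some]
                  exact Or.inl hu
            rw [mem_insert, mem_singleton]
            rcases key k with h | h
            · rw [hk, Option.some.injEq] at h
              exact Or.inl h
            · rw [hk, Option.some.injEq] at h
              exact Or.inr h
          · intro x hx
            rw [mem_insert, mem_singleton] at hx
            rcases hx with rfl | rfl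
            · exact m0
            · exact m1
        rw [horb, sum_pair (Ne.symm hts)] at hE
        have g1 : G.Good2 u := ⟨t, hts, ht, hu, hE⟩
        have g2 : G.Good2 t := ⟨u, Ne.symm hts, hu, ht, by rw [add_comm]; exact hE⟩
        rw [horb, sum_pair (Ne.symm hts), if_pos g1, if_pos g2]
      · have d5 : t ≠ u := by
          rintro rfl
          exact hts (G.XY.inj hu ht)
        have hsub : ({s, t, u} : Finset G.Q) ⊆ orb G.XY s := by
          intro x hx
          simp only [mem_insert, mem_singleton] at hx
          rcases hx with rfl | rfl | rfl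
          · exact m0
          · exact m1
          · exact m2
        have hcard : ({s, t, u} : Finset G.Q).card = 3 := by
          rw [card_insert_of_notMem, card_insert_of_notMem, card_singleton]
          · simpa using d5
          · simp only [mem_insert, mem_singleton, not_or]
            exact ⟨fun h => hts h.symm, fun h => hus h.symm⟩
        calc 6 = ∑ _x ∈ ({s, t, u} : Finset G.Q), 2 := by
              rw [sum_const, hcard, smul_eq_mul]
          _ ≤ ∑ x ∈ ({s, t, u} : Finset G.Q), (if G.Good2 x then 3 else 2) :=
              sum_le_sum fun x _ => by split_ifs <;> norm_num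
          _ ≤ _ := sum_le_sum_of_subset hsub

theorem domc_XY_le (G : Glue σ) : domc G.XY ≤ domc G.X := by
  classical
  unfold domc
  refine card_le_card fun s hs => ?_
  simp only [mem_filter, mem_univ, true_and] at hs ⊢
  obtain ⟨v, hv⟩ := Option.isSome_iff_exists.1 hs
  obtain ⟨u, hu, -⟩ := XY_eq.1 hv
  rw [hu]
  rfl

/-- the Euler count -/
theorem la1 (hR : G.Red) (hL : G.Lab) (hE : G.Eul) :
    G.badO + G.badM ≤ 6 * ((Fintype.card G.Q - domc G.Y) + cyc G.Y) + 6 := by
  have h1 := cycX_le hR
  have h2 := cycXY_le hR hL
  have h3 := domc_XY_le G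
  have h4 := domc_le_card G.Y
  unfold Eul at hE
  omega

end Glue

end Vale.Agent.P201.S
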