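import Vale.Agent.P201.S.LA.LA2
import Vale.Agent.P201.S.C.Defs

/-!
P201, part LA2 over a general system: labels of paired units.
-/

namespace Vale.Agent.P201.S

open Finset

variable {S : Sys} {σ : Equiv.Perm (S.C)}

theorem rev_rev (l : Lbl S) : rev (rev l) = l := by
  obtain ⟨a, b, d⟩ := l
  simp [rev]

theorem lam_swap (q q' : Port S) : lam (q', q) = rev (lam (q, q')) := by
  simp [lam, rev]

/-- no unit has a symmetric label -/
theorem lam_ne_rev {q q' : Port S} (hb : S.blk q = S.blk q') (hne : q ≠ q') :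
    lam (q, q') ≠ rev (lam (q, q')) := by
  intro h
  simp only [lam, rev, Prod.mk.injEq] at h
  obtain ⟨h1, -, h3⟩ := h
  exact hne (S.inj q q' h1 hb (by omega))

namespace Glue

variable {G : Glue σ}

/-- the labels of paired units are reversed -/
theorem Pair.lam_eq (hR : G.Red) {s s' v v' : G.Q} (h : G.Pair s s') (h1 : G.Y s = some v)
    (h2 : G.Y s' = some v') :
    lam (mt σ (G.ε s'), G.ε v') = rev (lam (mt σ (G.ε s), G.ε v)) := by
  obtain ⟨l1, l2, l3⟩ := h.lab hR h1 h2
  simp only [lam, rev, Prod.mk.injEq]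
  exact ⟨l1, l2, l3⟩

end Glue

end Vale.Agent.P201.S
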