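import Mathlib

/-!
P201, LA5: the arithmetic of the sum over the levels (helper540).
-/

namespace Vale.Agent.P201.S.LevA

open Finset

/-- layer cake: `∑_{t = 1}^{tmax} ∑_{x : t ≤ m x} f x = ∑_x m x * f x` -/
theorem layer {α : Type*} (s : Finset α) (m : α → ℕ) (tmax : ℕ) (hm : ∀ x ∈ s, m x ≤ tmax)
    (f : α → ℝ) :
    ∑ t ∈ Icc 1 tmax, ∑ x ∈ s.filter (fun x => t ≤ m x), f x = ∑ x ∈ s, (m x : ℝ) * f x := by
  simp_rw [Finset.sum_filter]
  rw [Finset.sum_comm]
  refine Finset.sum_congr rfl fun x hx => ?_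
  rw [← Finset.sum_filter, Finset.sum_const, nsmul_eq_mul]
  congr 2
  have : (Icc 1 tmax).filter (fun t => t ≤ m x) = Icc 1 (m x) := by
    ext t
    simp only [mem_filter, mem_Icc]
    have := hm x hx
    omega
  rw [this, Nat.card_Icc]
  omega

/-- `∑_{t = 1}^{tmax} #{x | t ≤ m x} = ∑_x m x` -/
theorem layer_card {α : Type*} (s : Finset α) (m : α → ℕ) (tmax : ℕ)
    (hm : ∀ x ∈ s, m x ≤ tmax) :
    ∑ t ∈ Icc 1 tmax, (s.filter (fun x => t ≤ m x)).card = ∑ x ∈ s, m x := by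
  have h := layer s m tmax hm (fun _ => 1)
  simp only [Finset.sum_const, nsmul_eq_mul, mul_one] at h
  exact_mod_cast h

/-- `∑_{t = 1}^{tmax}` of the sum over the classes which meet `{x | t ≤ m x}` -/
theorem layer_cls {α β : Type*} [DecidableEq β] (s : Finset α) (cls : α → β) (m : α → ℕ)
    (tmax : ℕ) (hm : ∀ x ∈ s, m x ≤ tmax) (g : β → ℝ) :
    ∑ t ∈ Icc 1 tmax, ∑ c ∈ (s.filter (fun x => t ≤ m x)).image cls, g c =
      ∑ c ∈ s.image cls, (((s.filter (fun x => cls x = c)).sup m : ℕ) : ℝ) * g c := by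
  rw [← layer (s.image cls) (fun c => (s.filter (fun x => cls x = c)).sup m) tmax ?_ g]
  · refine Finset.sum_congr rfl fun t ht => Finset.sum_congr ?_ fun _ _ => rfl
    rw [mem_Icc] at ht
    ext c
    simp only [mem_image, mem_filter]
    constructor
    · rintro ⟨x, ⟨hx, htx⟩, rfl⟩
      exact ⟨⟨x, hx, rfl⟩, le_trans htx (Finset.le_sup (f := m) (by simp [hx]))⟩
    · rintro ⟨-, htc⟩
      by_contra hcon
      push Not at hcon
      have : (s.filter (fun x => cls x = c)).sup m < t := by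
        rw [Finset.sup_lt_iff (by simp only [bot_eq_zero]; omega)]
        intro x hx
        rw [mem_filter] at hx
        by_contra h
        exact hcon x ⟨hx.1, not_lt.1 h⟩ hx.2
      omega
  · intro c _
    refine Finset.sup_le fun x hx => ?_
    rw [mem_filter] at hx
    exact hm x hx.1

/-- the inequality for one class -/
theorem one_class {N M b : ℕ} {r T : ℝ} (hT : 1 ≤ T) (h1 : 1 ≤ T * r) (h2 : r ^ 2 ≤ 1 / 2)
    (hb : 2 * M ≤ N + b) :
    (N : ℝ) * Real.log r - M * (Real.log 2 + 2 * Real.log r) ≤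
      -(Real.log 2 / 2) * N + Real.log T * b := by
  have hr : 0 < r := by
    by_contra h
    have : T * r ≤ 0 := mul_nonpos_of_nonneg_of_nonpos (by linarith) (not_lt.1 h)
    linarith
  have hlr : Real.log r ≤ -(Real.log 2 / 2) := by
    have : Real.log (r ^ 2) ≤ Real.log (1 / 2) := Real.log_le_log (by positivity) h2
    rw [Real.log_pow, Real.log_div one_ne_zero two_ne_zero, Real.log_one] at this
    push_cast at this
    linarith
  have hlT : -Real.log r ≤ Real.log T := by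
    have : 0 ≤ Real.log (T * r) := Real.log_nonneg h1
    rw [Real.log_mul (by linarith) hr.ne'] at this
    linarith
  have hT0 : 0 ≤ Real.log T := Real.log_nonneg hT
  have hl2 : 0 < Real.log 2 := Real.log_pos one_lt_two
  have hb0 : (0 : ℝ) ≤ b := Nat.cast_nonneg b
  rcases le_total (2 * M) N with h | h
  · have h' : (2 * M : ℝ) ≤ N := by exact_mod_cast h
    have e : (N - 2 * M : ℝ) * Real.log r ≤ (N - 2 * M : ℝ) * -(Real.log 2 / 2) :=
      mul_le_mul_of_nonneg_left hlr (by linarith)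
    nlinarith [mul_nonneg hT0 hb0]
  · have h' : (N : ℝ) ≤ 2 * M := by exact_mod_cast h
    have hbR : (2 * M - N : ℝ) ≤ b := by
      have : (2 * M : ℝ) ≤ N + b := by exact_mod_cast hb
      linarith
    have e : (2 * M - N : ℝ) * -Real.log r ≤ (2 * M - N : ℝ) * Real.log T :=
      mul_le_mul_of_nonneg_left hlT (by linarith)
    have e2 : (2 * M - N : ℝ) * Real.log T ≤ b * Real.log T :=
      mul_le_mul_of_nonneg_right hbR hT0
    nlinarith

/-- **The sum over the levels.** -/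
theorem lev_sum {α β : Type*} [DecidableEq β] (s : Finset α) (cls : α → β) (m : α → ℕ)
    (ρ : β → ℝ) (b : β → ℕ) {T : ℝ} (tmax : ℕ) (hT : 1 ≤ T)
    (h1 : ∀ x ∈ s, 1 ≤ T * ρ (cls x)) (h2 : ∀ x ∈ s, ρ (cls x) ^ 2 ≤ 1 / 2)
    (hm : ∀ x ∈ s, m x ≤ tmax)
    (hb : ∀ x ∈ s, 2 * m x ≤ ∑ y ∈ s.filter (fun y => cls y = cls x), m y + b (cls x)) :
    ∑ t ∈ Icc 1 tmax, (∑ x ∈ s.filter (fun x => t ≤ m x), Real.log (ρ (cls x)) -
        ∑ c ∈ (s.filter (fun x => t ≤ m x)).image cls, (Real.log 2 + 2 * Real.log (ρ c))) ≤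
      -(Real.log 2 / 2) * ∑ x ∈ s, (m x : ℝ) + Real.log T * ∑ c ∈ s.image cls, (b c : ℝ) := by
  rw [Finset.sum_sub_distrib, layer s m tmax hm, layer_cls s cls m tmax hm]
  have e1 : ∑ x ∈ s, (m x : ℝ) * Real.log (ρ (cls x)) =
      ∑ c ∈ s.image cls, (∑ y ∈ s.filter (fun y => cls y = c), m y : ℕ) * Real.log (ρ c) := by
    rw [← Finset.sum_fiberwise_of_maps_to (s := s) (t := s.image cls) (g := cls)
      (fun x hx => mem_image_of_mem cls hx)]
    refine Finset.sum_congr rfl fun c _ => ?_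
    push_cast
    rw [Finset.sum_mul]
    refine Finset.sum_congr rfl fun x hx => ?_
    rw [mem_filter] at hx
    rw [hx.2]
  have e2 : ∑ x ∈ s, (m x : ℝ) =
      ∑ c ∈ s.image cls, ((∑ y ∈ s.filter (fun y => cls y = c), m y : ℕ) : ℝ) := by
    rw [← Finset.sum_fiberwise_of_maps_to (s := s) (t := s.image cls) (g := cls)
      (fun x hx => mem_image_of_mem cls hx)]
    refine Finset.sum_congr rfl fun c _ => ?_
    push_cast
    rfl
  rw [e1, e2, Finset.mul_sum, Finset.mul_sum, ← Finset.sum_sub_distrib,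
    ← Finset.sum_add_distrib]
  refine Finset.sum_le_sum fun c hc => ?_
  obtain ⟨x, hx, rfl⟩ := mem_image.1 hc
  refine one_class hT (h1 x hx) (h2 x hx) ?_
  obtain ⟨y, hy, hy2⟩ := Finset.exists_mem_eq_sup (s.filter (fun y => cls y = cls x))
    ⟨x, by simp [hx]⟩ m
  rw [hy2]
  rw [mem_filter] at hy
  have := hb y hy.1
  rw [hy.2] at this
  exact this

/-- subtype form of the two sums -/
theorem sum_sub {α : Type*} [Fintype α] (Reg : α → Prop) [DecidablePred Reg] (m : α → ℕ) (t : ℕ)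
    [Fintype {x // Reg x ∧ t ≤ m x}] (f : α → ℝ) :
    ∑ x : {x // Reg x ∧ t ≤ m x}, f x =
      ∑ x ∈ (univ.filter Reg).filter (fun x => t ≤ m x), f x := by
  rw [Finset.sum_subtype ((univ.filter Reg).filter (fun x => t ≤ m x))
    (p := fun x => Reg x ∧ t ≤ m x) (fun x => by simp)]

theorem sum_sub_cls {α β : Type*} [Fintype α] [DecidableEq β] (Reg : α → Prop)
    [DecidablePred Reg] (cls : α → β) (m : α → ℕ) (t : ℕ)
    [Fintype {k // ∃ x, Reg x ∧ t ≤ m x ∧ cls x = k}] (g : β → ℝ) :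
    ∑ c : {k // ∃ x, Reg x ∧ t ≤ m x ∧ cls x = k}, g c =
      ∑ c ∈ ((univ.filter Reg).filter (fun x => t ≤ m x)).image cls, g c := by
  rw [Finset.sum_subtype (((univ.filter Reg).filter (fun x => t ≤ m x)).image cls)
    (p := fun k => ∃ x, Reg x ∧ t ≤ m x ∧ cls x = k) (fun x => by simp [and_assoc])]

/-- **The sum over the levels**, subtype form. -/
theorem lev_sum_sub {α β : Type*} [Fintype α] [DecidableEq β] (Reg : α → Prop)
    [DecidablePred Reg] (cls : α → β) (m : α → ℕ) (ρ : β → ℝ) (b : β → ℕ) {T : ℝ} (tmax : ℕ)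
    [∀ t, Fintype {x // Reg x ∧ t ≤ m x}]
    [∀ t, Fintype {k // ∃ x, Reg x ∧ t ≤ m x ∧ cls x = k}] (hT : 1 ≤ T)
    (h1 : ∀ x, Reg x → 1 ≤ T * ρ (cls x)) (h2 : ∀ x, Reg x → ρ (cls x) ^ 2 ≤ 1 / 2)
    (hm : ∀ x, Reg x → m x ≤ tmax)
    (hb : ∀ x, Reg x → 2 * m x ≤
      ∑ y ∈ (univ.filter Reg).filter (fun y => cls y = cls x), m y + b (cls x)) :
    ∑ t ∈ Icc 1 tmax, (∑ x : {x // Reg x ∧ t ≤ m x}, Real.log (ρ (cls x)) -
        ∑ c : {k // ∃ x, Reg x ∧ t ≤ m x ∧ cls x = k}, (Real.log 2 + 2 * Real.log (ρ c))) ≤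
      -(Real.log 2 / 2) * ∑ x ∈ univ.filter Reg, (m x : ℝ) +
        Real.log T * ∑ c ∈ (univ.filter Reg).image cls, (b c : ℝ) := by
  have := lev_sum (univ.filter Reg) cls m ρ b tmax hT (fun x hx => h1 x (by simpa using hx))
    (fun x hx => h2 x (by simpa using hx)) (fun x hx => hm x (by simpa using hx))
    (fun x hx => hb x (by simpa using hx))
  refine le_trans (le_of_eq (Finset.sum_congr rfl fun t _ => ?_)) this
  rw [sum_sub Reg m t (fun x => Real.log (ρ (cls x))),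
    sum_sub_cls Reg cls m t (fun c => Real.log 2 + 2 * Real.log (ρ c))]

end Vale.Agent.P201.S.LevA
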