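import Vale.Agent.P201.S.LA.Pat
import Vale.Agent.P201.S.LA.Skel
import Vale.Agent.P201.S.LA.ClsB
import Vale.Agent.P201.S.LA.LevA

/-!
P201, part LA5: counting over the levels (helper540).
-/

namespace Vale.Agent.P201.S

open Finset Classical

variable {S : Sys} {σ : Equiv.Perm (S.C)}

namespace Lev

open Glue

variable (G : Glue σ)

/-- the multiplicities of the edges sum up to the number of squares -/
theorem sum_mulP : ∑ c : S.C, G.mulP (c, true) = Fintype.card G.Q := by
  have h : ∀ c : S.C, G.mulP (c, true) =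
      (univ.filter fun s : G.Q => (qh σ (G.ε s)).1 = c).card := by
    intro c
    unfold mulP
    congr 1
    ext s
    simp only [mem_filter, mem_univ, true_and]
    rcases hq : G.ε s with ⟨d, e⟩
    cases e
    · simp only [mt, qh, Bool.false_eq_true, if_false, Prod.mk.injEq, and_false, false_or,
        and_true]
    · simp [mt, qh]
  simp_rw [h]
  rw [← Finset.card_eq_sum_card_fiberwise (fun s _ => mem_coe.2 (mem_univ _))]
  rfl

/-- the number of squares without predecessor -/
theorem card_ysymm_none : (univ.filter fun s : G.Q => G.Y.symm s = none).card =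
    Fintype.card G.Q - domc G.Y := by
  have h1 : (univ.filter fun s : G.Q => (G.Y.symm s).isSome).card = domc G.Y := by
    unfold domc
    refine Finset.card_bij (fun s _ => (G.Y.symm s).getD s) ?_ ?_ ?_
    · intro s hs
      simp only [mem_filter, mem_univ, true_and] at hs ⊢
      obtain ⟨r, hr⟩ := Option.isSome_iff_exists.1 hs
      rw [hr, Option.getD_some, (PEquiv.eq_some_iff _).1 hr]
      rfl
    · intro s hs t ht hst
      simp only [mem_filter, mem_univ, true_and] at hs ht
      obtain ⟨r, hr⟩ := Option.isSome_iff_exists.1 hs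
      obtain ⟨r', hr'⟩ := Option.isSome_iff_exists.1 ht
      rw [hr, hr', Option.getD_some, Option.getD_some] at hst
      subst hst
      have e1 := (PEquiv.eq_some_iff _).1 hr
      have e2 := (PEquiv.eq_some_iff _).1 hr'
      rw [e1] at e2
      exact Option.some.inj e2
    · intro r hr
      simp only [mem_filter, mem_univ, true_and] at hr
      obtain ⟨s, hs⟩ := Option.isSome_iff_exists.1 hr
      have e1 : G.Y.symm s = some r := (PEquiv.eq_some_iff _).2 hs
      exact ⟨s, by simp [e1], by rw [e1, Option.getD_some]⟩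
  have h2 : (univ.filter fun s : G.Q => (G.Y.symm s).isSome).card +
      (univ.filter fun s : G.Q => G.Y.symm s = none).card = Fintype.card G.Q := by
    rw [← Finset.card_univ, ← Finset.card_filter_add_card_filter_not
      (s := (univ : Finset G.Q)) (p := fun s => (G.Y.symm s).isSome)]
    congr 2
    ext s
    simp
  omega

/-- the multiplicities of the blocks sum up to `F + (F - domc Y)` -/
theorem sum_mulB : ∑ b : S.B, G.mulB b =
    Fintype.card G.Q + (Fintype.card G.Q - domc G.Y) := by
  unfold mulB
  rw [Finset.sum_add_distrib]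
  congr 1
  · rw [← Finset.card_eq_sum_card_fiberwise (fun s _ => mem_coe.2 (mem_univ _))]
    rfl
  · rw [← card_ysymm_none]
    rw [Finset.card_eq_sum_card_fiberwise (f := fun s => S.blk (G.ε s)) (t := univ)
      (fun s _ => mem_coe.2 (mem_univ _))]
    refine Finset.sum_congr rfl fun b _ => ?_
    rw [Finset.filter_filter]

variable {G}

/-- sum of the multiplicities of the irregular blocks -/
noncomputable def irv (G : Glue σ) : ℕ := ∑ b ∈ univ.filter (fun b => ¬ G.Reg b), G.mulB b

/-- sum of the multiplicities of the regular blocks -/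
noncomputable def rgv (G : Glue σ) : ℕ := ∑ b ∈ univ.filter (fun b => G.Reg b), G.mulB b

theorem rgv_add_irv (G : Glue σ) :
    (rgv G) + (irv G) = Fintype.card G.Q + (Fintype.card G.Q - domc G.Y) := by
  rw [← sum_mulB G]
  exact Finset.sum_filter_add_sum_filter_not _ _ _

theorem irv_le {B : ℕ} (h : G.Bnd B) : (irv G) ≤ B * B := by
  have e : (irv G) = ∑ b ∈ univ.filter (fun b => ¬ G.Reg b ∧ 0 < G.mulB b), G.mulB b := by
    unfold irv
    refine (Finset.sum_subset ?_ ?_).symm
    · intro b hb
      simp only [mem_filter, mem_univ, true_and] at hb ⊢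
      exact hb.1
    · intro b hb hb2
      simp only [mem_filter, mem_univ, true_and, not_and, not_lt] at hb hb2
      exact Nat.le_zero.1 (hb2 hb)
  rw [e]
  calc ∑ b ∈ univ.filter (fun b => ¬ G.Reg b ∧ 0 < G.mulB b), G.mulB b
      ≤ (univ.filter (fun b => ¬ G.Reg b ∧ 0 < G.mulB b)).card • B :=
        Finset.sum_le_card_nsmul _ _ _ (fun b _ => h.mul b)
    _ ≤ B * B := by
        rw [smul_eq_mul]
        exact Nat.mul_le_mul_right _ h.irr

/-- starts at a block -/
theorem starts_le (hR : G.Red) (b : S.B) :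
    (univ.filter fun s : G.Q => S.blk (G.ε s) = b).card ≤ G.mulB b := by
  unfold mulB
  rw [← Finset.card_filter_add_card_filter_not
    (s := univ.filter fun s : G.Q => S.blk (G.ε s) = b) (p := fun s => G.Y.symm s = none),
    add_comm]
  refine Nat.add_le_add ?_ (le_of_eq ?_)
  · refine Finset.card_le_card_of_injOn (fun s => (G.Y.symm s).getD s) ?_ ?_
    · intro s hs
      rw [mem_coe, mem_filter, mem_filter] at hs
      obtain ⟨r, hr⟩ := Option.ne_none_iff_exists'.1 hs.2
      rw [mem_coe, mem_filter]
      refine ⟨mem_univ _, ?_⟩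
      simp only [hr, Option.getD_some]
      rw [(hR.y r s ((PEquiv.eq_some_iff _).1 hr)).1, hs.1.2]
    · intro s hs t ht hst
      rw [mem_coe, mem_filter, mem_filter] at hs ht
      obtain ⟨r, hr⟩ := Option.ne_none_iff_exists'.1 hs.2
      obtain ⟨r', hr'⟩ := Option.ne_none_iff_exists'.1 ht.2
      simp only [hr, hr', Option.getD_some] at hst
      subst hst
      have e1 := (PEquiv.eq_some_iff _).1 hr
      have e2 := (PEquiv.eq_some_iff _).1 hr'
      rw [e1] at e2
      exact Option.some.inj e2
  · congr 1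
    ext s
    simp only [mem_filter, mem_univ, true_and]
    exact and_comm

/-- used ports at irregular blocks -/
theorem sum_mulP_irr (hR : G.Red) :
    ∑ q ∈ univ.filter (fun q : Port S => ¬ G.Reg (S.blk q)), G.mulP q ≤ 2 * (irv G) := by
  have h1 : ∀ q : Port S, G.mulP q ≤ (univ.filter fun s : G.Q => G.ε s = q).card +
      (univ.filter fun s : G.Q => mt σ (G.ε s) = q).card := by
    intro q
    unfold mulP
    rw [Finset.filter_or]
    exact Finset.card_union_le _ _
  have h2 : ∀ f : G.Q → Port S,
      ∑ q ∈ univ.filter (fun q : Port S => ¬ G.Reg (S.blk q)),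
        (univ.filter fun s : G.Q => f s = q).card =
      ∑ b ∈ univ.filter (fun b => ¬ G.Reg b),
        (univ.filter fun s : G.Q => S.blk (f s) = b).card := by
    intro f
    have e1 : ∑ q ∈ univ.filter (fun q : Port S => ¬ G.Reg (S.blk q)),
        (univ.filter fun s : G.Q => f s = q).card =
        (univ.filter fun s : G.Q => ¬ G.Reg (S.blk (f s))).card := by
      rw [Finset.card_eq_sum_card_fiberwise (f := f)
        (t := univ.filter (fun q : Port S => ¬ G.Reg (S.blk q)))]
      · refine Finset.sum_congr rfl fun q hq => ?_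
        congr 1
        ext s
        simp only [mem_filter, mem_univ, true_and] at hq ⊢
        constructor
        · rintro rfl
          exact ⟨hq, rfl⟩
        · exact fun h => h.2
      · intro s hs
        rw [mem_coe, mem_filter] at hs ⊢
        exact ⟨mem_univ _, hs.2⟩
    have e2 : ∑ b ∈ univ.filter (fun b => ¬ G.Reg b),
        (univ.filter fun s : G.Q => S.blk (f s) = b).card =
        (univ.filter fun s : G.Q => ¬ G.Reg (S.blk (f s))).card := by
      rw [Finset.card_eq_sum_card_fiberwise (f := fun s => S.blk (f s))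
        (t := univ.filter (fun b => ¬ G.Reg b))]
      · refine Finset.sum_congr rfl fun b hb => ?_
        congr 1
        ext s
        simp only [mem_filter, mem_univ, true_and] at hb ⊢
        constructor
        · rintro rfl
          exact ⟨hb, rfl⟩
        · exact fun h => h.2
      · intro s hs
        rw [mem_coe, mem_filter] at hs ⊢
        exact ⟨mem_univ _, hs.2⟩
    rw [e1, e2]
  calc ∑ q ∈ univ.filter (fun q : Port S => ¬ G.Reg (S.blk q)), G.mulP q
      ≤ ∑ q ∈ univ.filter (fun q : Port S => ¬ G.Reg (S.blk q)),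
        ((univ.filter fun s : G.Q => G.ε s = q).card +
          (univ.filter fun s : G.Q => mt σ (G.ε s) = q).card) :=
        Finset.sum_le_sum fun q _ => h1 q
    _ = ∑ b ∈ univ.filter (fun b => ¬ G.Reg b), (univ.filter fun s : G.Q =>
          S.blk (G.ε s) = b).card + ∑ b ∈ univ.filter (fun b => ¬ G.Reg b),
          (univ.filter fun s : G.Q => S.blk (mt σ (G.ε s)) = b).card := by
        rw [Finset.sum_add_distrib, h2, h2 (fun s => mt σ (G.ε s))]
    _ ≤ (irv G) + (irv G) := by
        refine Nat.add_le_add (Finset.sum_le_sum fun b _ => starts_le hR b)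
          (Finset.sum_le_sum fun b _ => ?_)
        unfold mulB
        exact Nat.le_add_right _ _
    _ = 2 * (irv G) := by ring

/-- links at irregular blocks -/
theorem links_irr_le (G : Glue σ) :
    (univ.filter fun s : G.Q => (G.Y s).isSome ∧ ¬ G.Reg (G.bl s)).card ≤ (irv G) := by
  calc (univ.filter fun s : G.Q => (G.Y s).isSome ∧ ¬ G.Reg (G.bl s)).card
      ≤ (univ.filter fun s : G.Q => ¬ G.Reg (G.bl s)).card :=
        Finset.card_le_card (fun s hs => by
          rw [mem_filter] at hs ⊢
          exact ⟨mem_univ _, hs.2.2⟩)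
    _ = ∑ b ∈ univ.filter (fun b => ¬ G.Reg b),
        (univ.filter fun s : G.Q => G.bl s = b).card := by
        rw [Finset.card_eq_sum_card_fiberwise (f := G.bl)
          (t := univ.filter (fun b => ¬ G.Reg b))]
        · refine Finset.sum_congr rfl fun b hb => ?_
          congr 1
          ext s
          simp only [mem_filter, mem_univ, true_and] at hb ⊢
          constructor
          · exact fun h => h.2
          · rintro rfl
            exact ⟨hb, rfl⟩
        · intro s hs
          rw [mem_coe, mem_filter] at hs ⊢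
          exact ⟨mem_univ _, hs.2⟩
    _ ≤ (irv G) := Finset.sum_le_sum fun b _ => Nat.le_add_right _ _

end Lev

open Glue Lev in
/-- **The sum over the levels.** -/
theorem stmtLev : StmtLev := by
  intro S D σ G hR hrho hN B C1 K0 hC1 hK0 hB hU
  obtain ⟨hr1, hr2, -⟩ := hrho
  obtain ⟨T, hTd⟩ : ∃ T : ℝ, T = max (D : ℝ) 1 := ⟨_, rfl⟩
  have hT : (1 : ℝ) ≤ T := hTd ▸ le_max_right _ _
  have hlD : Real.log D = Real.log T := by
    rcases Nat.eq_zero_or_pos D with h | h
    · rw [hTd, h, Nat.cast_zero, max_eq_right zero_le_one, Real.log_zero, Real.log_one]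
    · rw [hTd, max_eq_left (by exact_mod_cast h)]
  rw [hlD]
  have hlT : 0 ≤ Real.log T := Real.log_nonneg hT
  have hl2 : 0 < Real.log 2 := Real.log_pos one_lt_two
  have hl2' : Real.log 2 ≤ 1 := by
    have := Real.log_two_lt_d9
    linarith
  have hU1 : ∀ b, G.Reg b → ∃ u : Port S × Port S, IsU u ∧ G.dens (G.rep b) = rho S (lam u) := by
    intro b hb
    exact ⟨G.u0 (G.rep b) hb.rep_reg, (G.u0_spec _ _).isU hR, by
      unfold Glue.dens
      rw [dif_pos hb.rep_reg]⟩
  have key := Vale.Agent.P201.S.LevA.lev_sum (univ.filter G.Reg) G.rep G.mulB G.dens G.badC B hT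
    (fun b hb => by
      obtain ⟨u, h1, h2⟩ := hU1 b (mem_filter.1 hb).2
      rw [h2]
      refine (hr2 u h1).trans (mul_le_mul_of_nonneg_right (hTd ▸ le_max_left _ _) ?_)
      unfold rho
      positivity)
    (fun b hb => by
      obtain ⟨u, h1, h2⟩ := hU1 b (mem_filter.1 hb).2
      rw [h2]
      have := hr1 {lam u}
      rwa [Finset.sum_singleton] at this)
    (fun b _ => hB.mul b) (fun b hb => cls_bound hR (mem_filter.1 hb).2)
  -- sum of the inequalities
  have hsum := Finset.sum_le_sum (s := Icc 1 B) (fun t ht => hU t (mem_Icc.1 ht).1 (mem_Icc.1 ht).2)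
  have eE : ∑ t ∈ Icc 1 B, ((univ.filter fun c : S.C => t ≤ G.mulP (c, true)).card : ℝ) =
      Fintype.card G.Q := by
    have := Vale.Agent.P201.S.LevA.layer_card univ (fun c : S.C => G.mulP (c, true)) B
      (fun c _ => (mulP_le hR _).trans (hB.mul _))
    rw [(sum_mulP G)] at this
    exact_mod_cast this
  have eB : ∑ t ∈ Icc 1 B, ((univ.filter fun b : S.B => t ≤ G.mulB b).card : ℝ) =
      (Fintype.card G.Q : ℝ) + ((Fintype.card G.Q : ℝ) - domc G.Y) := by
    have h := Vale.Agent.P201.S.LevA.layer_card univ (fun b : S.B => G.mulB b) B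
      (fun b _ => hB.mul _)
    rw [(sum_mulB G)] at h
    have hd : domc G.Y ≤ Fintype.card G.Q := by
      unfold domc
      exact Finset.card_le_univ _
    have h' : (∑ t ∈ Icc 1 B, ((univ.filter fun b : S.B => t ≤ G.mulB b).card : ℝ)) =
        ((Fintype.card G.Q + (Fintype.card G.Q - domc G.Y) : ℕ) : ℝ) := by
      rw [← h]
      push_cast
      rfl
    rw [h', Nat.cast_add, Nat.cast_sub hd]
  have eV : ∑ t ∈ Icc 1 B, ((univ.filter fun b : S.B => ¬ G.Reg b ∧ t ≤ G.mulB b).card : ℝ) =
      (irv G) := by
    have h := Vale.Agent.P201.S.LevA.layer_card (univ.filter fun b : S.B => ¬ G.Reg b)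
      (fun b : S.B => G.mulB b) B (fun b _ => hB.mul _)
    simp_rw [Finset.filter_filter] at h
    unfold irv
    exact_mod_cast h
  have eH : ∑ t ∈ Icc 1 B,
      ((univ.filter fun q : Port S => ¬ G.Reg (S.blk q) ∧ t ≤ G.mulP q).card : ℝ) ≤
      2 * (irv G) := by
    have h := Vale.Agent.P201.S.LevA.layer_card
      (univ.filter fun q : Port S => ¬ G.Reg (S.blk q)) (fun q => G.mulP q) B
      (fun q _ => (mulP_le hR _).trans (hB.mul _))
    simp_rw [Finset.filter_filter] at h
    have h2 := sum_mulP_irr hR
    rw [← h] at h2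
    exact_mod_cast h2
  have eS : ∑ t ∈ Icc 1 B,
      (∑ b ∈ univ.filter (fun b : S.B => G.Reg b ∧ t ≤ G.mulB b),
        Real.log (G.dens (G.rep b)) -
      ∑ k ∈ (univ.filter fun b : S.B => G.Reg b ∧ t ≤ G.mulB b).image G.rep,
        (Real.log 2 + 2 * Real.log (G.dens k))) ≤
      -(Real.log 2 / 2) * (rgv G) + Real.log T *
        ((Fintype.card G.Q - domc G.X : ℕ) + B + (irv G)) := by
    simp_rw [Finset.filter_filter] at key
    refine key.trans ?_
    have h1 : (∑ b ∈ univ.filter G.Reg, (G.mulB b : ℝ)) = (rgv G) := by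
      unfold rgv
      push_cast
      rfl
    have h2 : (∑ k ∈ (univ.filter G.Reg).image G.rep, (G.badC k : ℝ)) ≤
        (Fintype.card G.Q - domc G.X : ℕ) + B + (irv G) := by
      have h3 := (G.sum_badC_le).trans (Nat.add_le_add hB.unp (links_irr_le G))
      exact_mod_cast h3
    rw [h1]
    exact add_le_add le_rfl (mul_le_mul_of_nonneg_left h2 hlT)
  have hX : ((Fintype.card G.Q - domc G.X : ℕ) : ℝ) = (Fintype.card G.Q : ℝ) - domc G.X := by
    rw [Nat.cast_sub]
    unfold domc
    exact Finset.card_le_univ _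
  have hirv : (irv G : ℝ) ≤ B * B := by exact_mod_cast irv_le hB
  have hirv0 : (0 : ℝ) ≤ (irv G) := Nat.cast_nonneg _
  have hrgv : (rgv G : ℝ) = Fintype.card G.Q + ((Fintype.card G.Q : ℝ) - domc G.Y) - (irv G) := by
    have h := rgv_add_irv G
    have hd : domc G.Y ≤ Fintype.card G.Q := by
      unfold domc
      exact Finset.card_le_univ _
    have h' : (rgv G : ℝ) + (irv G) =
        ((Fintype.card G.Q + (Fintype.card G.Q - domc G.Y) : ℕ) : ℝ) := by exact_mod_cast h
    rw [Nat.cast_add, Nat.cast_sub hd] at h'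
    linarith
  have hop : (0 : ℝ) ≤ (Fintype.card G.Q : ℝ) - domc G.Y := by
    have hd : domc G.Y ≤ Fintype.card G.Q := by
      unfold domc
      exact Finset.card_le_univ _
    have : (domc G.Y : ℝ) ≤ Fintype.card G.Q := by exact_mod_cast hd
    linarith
  have hB0 : (0 : ℝ) ≤ B := Nat.cast_nonneg _
  -- expand the sum
  have hL : ∑ t ∈ Icc 1 B, ((((univ.filter fun c : S.C => t ≤ G.mulP (c, true)).card : ℝ) -
      (univ.filter fun b : S.B => t ≤ G.mulB b).card) *
        Real.log (Fintype.card (S.C))) =
      -((Fintype.card G.Q : ℝ) - domc G.Y) * Real.log (Fintype.card (S.C)) := by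
    rw [← Finset.sum_mul, Finset.sum_sub_distrib, eE, eB]
    ring
  rw [hL] at hsum
  have hRt : ∑ t ∈ Icc 1 B,
      (∑ b ∈ univ.filter (fun b : S.B => G.Reg b ∧ t ≤ G.mulB b),
        Real.log (G.dens (G.rep b)) -
      ∑ k ∈ (univ.filter fun b : S.B => G.Reg b ∧ t ≤ G.mulB b).image G.rep,
        (Real.log 2 + 2 * Real.log (G.dens k)) +
      C1 * ((univ.filter fun b : S.B => ¬ G.Reg b ∧ t ≤ G.mulB b).card +
        (univ.filter fun q : Port S => ¬ G.Reg (S.blk q) ∧ t ≤ G.mulP q).card + 1) + K0) ≤
      -(Real.log 2 / 2) * (rgv G) + Real.log T *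
        (((Fintype.card G.Q : ℝ) - domc G.X) + B + (irv G)) +
        C1 * ((irv G) + 2 * (irv G) + B) + B * K0 := by
    rw [Finset.sum_add_distrib, Finset.sum_add_distrib, ← Finset.mul_sum, Finset.sum_add_distrib,
      Finset.sum_add_distrib, Finset.sum_const, Finset.sum_const, eV, Nat.card_Icc]
    rw [← hX]
    simp only [Nat.add_sub_cancel, nsmul_eq_mul, mul_one]
    have h4 := mul_le_mul_of_nonneg_left eH hC1
    nlinarith [eS, h4]
  have hfin := hsum.trans hRt
  rw [hrgv] at hfin
  have q1 : Real.log 2 / 2 * (irv G) ≤ B * B := by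
    calc Real.log 2 / 2 * (irv G) ≤ 1 * (irv G) := mul_le_mul_of_nonneg_right (by linarith) hirv0
      _ ≤ B * B := by linarith
  have q2 : Real.log T * (B + (irv G)) ≤ Real.log T * (B + B * B) :=
    mul_le_mul_of_nonneg_left (by linarith) hlT
  have q3 : C1 * ((irv G) + 2 * (irv G) + B) ≤ C1 * (3 * (B * B) + B) :=
    mul_le_mul_of_nonneg_left (by linarith) hC1
  have q4 : 0 ≤ Real.log 2 / 2 * ((Fintype.card G.Q : ℝ) - domc G.Y) := by positivity
  have q5 : 0 ≤ Real.log T * (B * B) := by positivity
  have q6 : 0 ≤ C1 * (B * B) := by positivity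
  have q7 : 0 ≤ K0 * (B * B) := by positivity
  have q8 : 0 ≤ Real.log T * B := by positivity
  have q9 : 0 ≤ C1 * B := by positivity
  have q10 : 0 ≤ K0 * B := by positivity
  have q11 : (0 : ℝ) ≤ B * B := by positivity
  nlinarith

end Vale.Agent.P201.S
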