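import Vale.Agent.P201.S.LA.Pat

/-!
P201, part LA5: counts over the levels (helper576).
-/

namespace Vale.Agent.P201.S

open Finset

variable {S : Sys} {σ : Equiv.Perm S.C}

open Classical in
theorem sum_levels {α : Type} [Fintype α] (m : α → ℕ) (B : ℕ) (hm : ∀ x, m x ≤ B) :
    ∑ t ∈ Icc 1 B, (univ.filter fun x => t ≤ m x).card = ∑ x, m x := by
  simp_rw [card_filter]
  rw [sum_comm]
  refine sum_congr rfl fun x _ => ?_
  rw [← card_filter]
  have : (Icc 1 B).filter (fun t => t ≤ m x) = Icc 1 (m x) := by
    ext t
    simp only [mem_filter, mem_Icc]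
    have := hm x
    constructor
    · rintro ⟨⟨h1, -⟩, h3⟩
      exact ⟨h1, h3⟩
    · rintro ⟨h1, h3⟩
      exact ⟨⟨h1, h3.trans this⟩, h3⟩
  rw [this, Nat.card_Icc]
  omega

namespace Glue

variable (G : Glue σ)

open Classical in
theorem sum_mulP : ∑ c : S.C, G.mulP (c, true) = Fintype.card G.Q := by
  unfold mulP
  simp_rw [card_filter]
  rw [sum_comm]
  rw [← Finset.card_univ, card_eq_sum_ones]
  refine sum_congr rfl fun s _ => ?_
  rw [sum_eq_single (qh σ (G.ε s)).1]
  · rw [if_pos]
    generalize G.ε s = q
    obtain ⟨c, e⟩ := q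
    cases e
    · right; simp [qh, mt]
    · left; simp [qh]
  · intro c _ hc
    rw [if_neg]
    intro h
    apply hc
    generalize G.ε s = q at h ⊢
    obtain ⟨c', e⟩ := q
    cases e
    · rcases h with h | h
      · simp at h
      · have h1 : mt σ (c', false) = (σ.symm c', true) := by simp [mt]
        rw [h1, Prod.mk.injEq] at h
        simp [qh, h.1]
    · rcases h with h | h
      · rw [Prod.mk.injEq] at h
        simp [qh, h.1]
      · have h1 : mt σ (c', true) = (σ c', false) := by simp [mt]
        rw [h1, Prod.mk.injEq] at h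
        simp at h
  · intro h
    exact absurd (mem_univ _) h

open Classical in
theorem card_ran : (univ.filter fun s : G.Q => G.Y.symm s = none).card =
    Fintype.card G.Q - domc G.Y := by
  have h1 : (univ.filter fun s => ¬ (G.Y.symm s = none)).card = domc G.Y := by
    unfold domc
    refine Finset.card_bij' (fun s hs => (G.Y.symm s).get
        (Option.isSome_iff_ne_none.2 (mem_filter.1 hs).2))
      (fun s hs => (G.Y s).get (mem_filter.1 hs).2) ?_ ?_ ?_ ?_
    · intro s hs
      rw [mem_filter]
      refine ⟨mem_univ _, ?_⟩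
      have : G.Y ((G.Y.symm s).get (Option.isSome_iff_ne_none.2 (mem_filter.1 hs).2)) =
          some s := by
        rw [← PEquiv.eq_some_iff]
        exact (Option.some_get _).symm
      rw [this]
      rfl
    · intro s hs
      rw [mem_filter]
      refine ⟨mem_univ _, ?_⟩
      have : G.Y.symm ((G.Y s).get (mem_filter.1 hs).2) = some s := by
        rw [PEquiv.eq_some_iff]
        exact (Option.some_get _).symm
      rw [this]
      simp
    · intro s hs
      have : G.Y ((G.Y.symm s).get (Option.isSome_iff_ne_none.2 (mem_filter.1 hs).2)) =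
          some s := by
        rw [← PEquiv.eq_some_iff]
        exact (Option.some_get _).symm
      simp only [this, Option.get_some]
    · intro s hs
      have : G.Y.symm ((G.Y s).get (mem_filter.1 hs).2) = some s := by
        rw [PEquiv.eq_some_iff]
        exact (Option.some_get _).symm
      simp only [this, Option.get_some]
  have h2 := Finset.card_filter_add_card_filter_not (s := (univ : Finset G.Q))
    (fun s => G.Y.symm s = none)
  rw [h1, Finset.card_univ] at h2
  omega

open Classical in
theorem sum_mulB : ∑ b : S.B, G.mulB b = Fintype.card G.Q + (Fintype.card G.Q - domc G.Y) := by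
  unfold mulB
  rw [sum_add_distrib]
  congr 1
  · rw [← Finset.card_univ (α := G.Q)]
    exact (card_eq_sum_card_fiberwise (f := fun s : G.Q => S.blk (mt σ (G.ε s)))
      (fun s _ => mem_coe.2 (mem_univ _))).symm
  · rw [← G.card_ran]
    rw [card_eq_sum_card_fiberwise (s := univ.filter fun s : G.Q => G.Y.symm s = none)
      (t := univ) (f := fun s : G.Q => S.blk (G.ε s)) (fun s _ => mem_coe.2 (mem_univ _))]
    refine sum_congr rfl fun b _ => ?_
    rw [filter_filter]

variable {G}

open Classical in
/-- number of squares whose start side is at the block `b` -/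
theorem start_le (hR : G.Red) (b : S.B) :
    (univ.filter fun s : G.Q => S.blk (G.ε s) = b).card ≤ G.mulB b := by
  unfold mulB
  have hsub : (univ.filter fun s : G.Q => S.blk (G.ε s) = b) ⊆
      (univ.filter fun s : G.Q => S.blk (G.ε s) = b ∧ ∃ r, G.Y r = some s) ∪
      (univ.filter fun s : G.Q => G.Y.symm s = none ∧ S.blk (G.ε s) = b) := by
    intro s hs
    simp only [mem_union, mem_filter, mem_univ, true_and] at hs ⊢
    cases h : G.Y.symm s with
    | none => exact Or.inr ⟨rfl, hs⟩
    | some r => exact Or.inl ⟨hs, r, (PEquiv.eq_some_iff _).1 h⟩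
  refine (card_le_card hsub).trans ((card_union_le _ _).trans (Nat.add_le_add_right ?_ _))
  refine Finset.card_le_card_of_injOn (fun s => (G.Y.symm s).getD s) ?_ ?_
  · intro s hs
    rw [mem_coe, mem_filter] at hs
    obtain ⟨-, k1, r, k2⟩ := hs
    have h4 : G.Y.symm s = some r := (PEquiv.eq_some_iff _).2 k2
    rw [mem_coe, mem_filter]
    simp only [h4, Option.getD_some]
    exact ⟨mem_univ _, (hR.y r s k2).1.trans k1⟩
  · intro s hs t ht hst
    rw [mem_coe, mem_filter] at hs ht
    obtain ⟨-, k1, r, k2⟩ := hs
    obtain ⟨-, l1, r', l2⟩ := ht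
    have h4 : G.Y.symm s = some r := (PEquiv.eq_some_iff _).2 k2
    have h5 : G.Y.symm t = some r' := (PEquiv.eq_some_iff _).2 l2
    simp only [h4, h5, Option.getD_some] at hst
    subst hst
    rw [k2] at l2
    exact Option.some.inj l2

open Classical in
/-- number of used ports of a block -/
theorem used_le (hR : G.Red) (b : S.B) :
    (univ.filter fun q : Port S => 1 ≤ G.mulP q ∧ S.blk q = b).card ≤ 2 * G.mulB b := by
  have h1 : (univ.filter fun s : G.Q => S.blk (mt σ (G.ε s)) = b).card ≤ G.mulB b := by
    unfold mulB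
    omega
  have h2 := start_le hR b
  have hsub : (univ.filter fun q : Port S => 1 ≤ G.mulP q ∧ S.blk q = b) ⊆
      ((univ.filter fun s : G.Q => S.blk (mt σ (G.ε s)) = b).image fun s => mt σ (G.ε s)) ∪
      ((univ.filter fun s : G.Q => S.blk (G.ε s) = b).image fun s => G.ε s) := by
    intro q hq
    rw [mem_filter] at hq
    obtain ⟨-, k1, k2⟩ := hq
    unfold mulP at k1
    obtain ⟨s, hs⟩ := card_pos.1 k1
    rw [mem_filter] at hs
    rw [mem_union, mem_image, mem_image]
    rcases hs.2 with h | h
    · right
      exact ⟨s, by rw [mem_filter]; exact ⟨mem_univ _, by rw [h]; exact k2⟩, h⟩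
    · left
      exact ⟨s, by rw [mem_filter]; exact ⟨mem_univ _, by rw [h]; exact k2⟩, h⟩
  refine (card_le_card hsub).trans ((card_union_le _ _).trans ?_)
  have h3 := card_image_le (s := univ.filter fun s : G.Q => S.blk (mt σ (G.ε s)) = b)
    (f := fun s => mt σ (G.ε s))
  have h4 := card_image_le (s := univ.filter fun s : G.Q => S.blk (G.ε s) = b)
    (f := fun s => G.ε s)
  omega

open Classical in
/-- number of used ports at irregular blocks -/
theorem irr_used_le (hR : G.Red) (B : ℕ)
    (hI : (univ.filter fun b : S.B => ¬ G.Reg b ∧ 1 ≤ G.mulB b).card ≤ B)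
    (hM : ∀ b, G.mulB b ≤ B) :
    (univ.filter fun q : Port S => 1 ≤ G.mulP q ∧ ¬ G.Reg (S.blk q)).card ≤ 2 * B * B := by
  have hsub : (univ.filter fun q : Port S => 1 ≤ G.mulP q ∧ ¬ G.Reg (S.blk q)) ⊆
      (univ.filter fun b : S.B => ¬ G.Reg b ∧ 1 ≤ G.mulB b).biUnion fun b =>
        univ.filter fun q : Port S => 1 ≤ G.mulP q ∧ S.blk q = b := by
    intro q hq
    rw [mem_filter] at hq
    rw [mem_biUnion]
    refine ⟨S.blk q, ?_, ?_⟩
    · rw [mem_filter]
      exact ⟨mem_univ _, hq.2.2, hq.2.1.trans (mulP_le hR q)⟩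
    · rw [mem_filter]
      exact ⟨mem_univ _, hq.2.1, rfl⟩
  refine (card_le_card hsub).trans (card_biUnion_le.trans ?_)
  have h1 : ∑ b ∈ (univ.filter fun b : S.B => ¬ G.Reg b ∧ 1 ≤ G.mulB b),
      (univ.filter fun q : Port S => 1 ≤ G.mulP q ∧ S.blk q = b).card ≤
      ∑ _b ∈ (univ.filter fun b : S.B => ¬ G.Reg b ∧ 1 ≤ G.mulB b), 2 * B :=
    sum_le_sum fun b _ => (used_le hR b).trans (Nat.mul_le_mul_left 2 (hM b))
  refine h1.trans ?_
  rw [sum_const, smul_eq_mul, mul_comm]
  exact Nat.mul_le_mul_left _ hI

open Classical in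
/-- sum of the multiplicities of the ports of a block -/
theorem sum_mulP_blk (hR : G.Red) (b : S.B) :
    ∑ q ∈ univ.filter (fun q : Port S => S.blk q = b), G.mulP q ≤ 2 * G.mulB b := by
  have h1 : (univ.filter fun s : G.Q => S.blk (mt σ (G.ε s)) = b).card ≤ G.mulB b := by
    unfold mulB
    omega
  have h2 := start_le hR b
  have h3 : ∀ q, G.mulP q ≤ (univ.filter fun s : G.Q => G.ε s = q).card +
      (univ.filter fun s : G.Q => mt σ (G.ε s) = q).card := by
    intro q
    unfold mulP
    rw [filter_or]
    exact card_union_le _ _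
  refine (sum_le_sum fun q _ => h3 q).trans ?_
  rw [sum_add_distrib]
  have h4 : ∑ q ∈ univ.filter (fun q : Port S => S.blk q = b),
      (univ.filter fun s : G.Q => G.ε s = q).card =
      (univ.filter fun s : G.Q => S.blk (G.ε s) = b).card := by
    rw [card_eq_sum_card_fiberwise (s := univ.filter fun s : G.Q => S.blk (G.ε s) = b)
      (t := univ.filter (fun q : Port S => S.blk q = b)) (f := fun s : G.Q => G.ε s)]
    · refine sum_congr rfl fun q hq => ?_
      rw [filter_filter]
      congr 1
      ext s
      simp only [mem_filter, mem_univ, true_and]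
      constructor
      · intro h
        exact ⟨by rw [h]; exact (mem_filter.1 hq).2, h⟩
      · exact fun h => h.2
    · intro s hs
      rw [mem_coe, mem_filter] at hs ⊢
      exact ⟨mem_univ _, hs.2⟩
  have h5 : ∑ q ∈ univ.filter (fun q : Port S => S.blk q = b),
      (univ.filter fun s : G.Q => mt σ (G.ε s) = q).card =
      (univ.filter fun s : G.Q => S.blk (mt σ (G.ε s)) = b).card := by
    rw [card_eq_sum_card_fiberwise (s := univ.filter fun s : G.Q => S.blk (mt σ (G.ε s)) = b)
      (t := univ.filter (fun q : Port S => S.blk q = b)) (f := fun s : G.Q => mt σ (G.ε s))]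
    · refine sum_congr rfl fun q hq => ?_
      rw [filter_filter]
      congr 1
      ext s
      simp only [mem_filter, mem_univ, true_and]
      constructor
      · intro h
        exact ⟨by rw [h]; exact (mem_filter.1 hq).2, h⟩
      · exact fun h => h.2
    · intro s hs
      rw [mem_coe, mem_filter] at hs ⊢
      exact ⟨mem_univ _, hs.2⟩
  rw [h4, h5]
  omega

end Glue

end Vale.Agent.P201.S
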