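import Vale.Agent.P201.S.LA.Skel
import Vale.Agent.P201.S.LA.LevC
import Vale.Agent.P201.S.LA.ClsB
import Vale.Agent.P201.S.LA.LevA

/-!
P201, part LA5: the sum over the levels, `StmtLev` (helper747).
-/

namespace Vale.Agent.P201.S.LevF

open Finset

variable {S : Sys} {σ : Equiv.Perm S.C} {G : Glue σ}

theorem dens_eq {b : S.B} (h : G.Reg b) : G.dens b = rho S (lam (G.u0 b h)) := by
  unfold Glue.dens
  rw [dif_pos h]

theorem one_le_dens (hR : G.Red) {D : ℕ} (hρ : RhoFacts S D) {b : S.B} (h : G.Reg b) :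
    1 ≤ (D : ℝ) * G.dens b := by
  rw [dens_eq h]
  exact hρ.2.1 _ ((G.u0_spec b h).isU hR)

theorem dens_sq {D : ℕ} (hρ : RhoFacts S D) {b : S.B} (h : G.Reg b) : G.dens b ^ 2 ≤ 1 / 2 := by
  classical
  rw [dens_eq h]
  have := hρ.1 {lam (G.u0 b h)}
  simpa using this

open Classical in
/-- sum of the multiplicities of the irregular blocks -/
theorem irr_sum {B : ℕ} (hB : G.Bnd B) :
    ∑ b ∈ univ.filter (fun b : S.B => ¬ G.Reg b), G.mulB b ≤ B * B := by
  have h1 : ∑ b ∈ univ.filter (fun b : S.B => ¬ G.Reg b), G.mulB b =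
      ∑ b ∈ univ.filter (fun b : S.B => ¬ G.Reg b ∧ 0 < G.mulB b), G.mulB b := by
    rw [← Finset.filter_filter]
    refine (Finset.sum_filter_of_ne fun b _ hb => ?_).symm
    exact Nat.pos_of_ne_zero hb
  rw [h1]
  refine (Finset.sum_le_card_nsmul _ _ B fun b _ => hB.mul b).trans ?_
  rw [smul_eq_mul]
  exact Nat.mul_le_mul_right _ hB.irr

open Classical in
/-- number of links at irregular blocks -/
theorem irr_links {B : ℕ} (hB : G.Bnd B) :
    (univ.filter fun s : G.Q => (G.Y s).isSome ∧ ¬ G.Reg (G.bl s)).card ≤ B * B := by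
  refine le_trans ?_ (irr_sum hB)
  have h1 : (univ.filter fun s : G.Q => (G.Y s).isSome ∧ ¬ G.Reg (G.bl s)).card ≤
      (univ.filter fun s : G.Q => ¬ G.Reg (G.bl s)).card :=
    card_le_card fun s hs => by
      simp only [mem_filter, mem_univ, true_and] at hs ⊢
      exact hs.2
  refine h1.trans ?_
  rw [card_eq_sum_card_fiberwise (s := univ.filter fun s : G.Q => ¬ G.Reg (G.bl s))
    (t := univ.filter (fun b : S.B => ¬ G.Reg b)) (f := fun s : G.Q => G.bl s)]
  · refine sum_le_sum fun b hb => ?_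
    have : (univ.filter fun s : G.Q => S.blk (mt σ (G.ε s)) = b).card ≤ G.mulB b := by
      unfold Glue.mulB
      omega
    refine le_trans (card_le_card fun s hs => ?_) this
    simp only [mem_filter, mem_univ, true_and] at hs ⊢
    exact hs.2
  · intro s hs
    rw [mem_coe, mem_filter] at hs ⊢
    exact ⟨mem_univ _, hs.2⟩

open Classical in
/-- sum of the multiplicities of the ports of irregular blocks -/
theorem irr_ports (hR : G.Red) {B : ℕ} (hB : G.Bnd B) :
    ∑ q ∈ univ.filter (fun q : Port S => ¬ G.Reg (S.blk q)), G.mulP q ≤ 2 * (B * B) := by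
  rw [← Finset.sum_fiberwise_of_maps_to (s := univ.filter (fun q : Port S => ¬ G.Reg (S.blk q)))
    (t := univ.filter (fun b : S.B => ¬ G.Reg b)) (g := fun q : Port S => S.blk q)
    (fun q hq => by
      simp only [mem_filter, mem_univ, true_and] at hq ⊢
      exact hq)]
  refine le_trans (sum_le_sum (g := fun b => 2 * G.mulB b) fun b hb => ?_) ?_
  · refine le_trans (le_of_eq ?_) (Glue.sum_mulP_blk hR b)
    refine Finset.sum_congr ?_ fun _ _ => rfl
    ext q
    simp only [mem_filter, mem_univ, true_and] at hb ⊢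
    exact ⟨fun h => h.2, fun h => ⟨by rw [h]; exact hb, h⟩⟩
  · rw [← Finset.mul_sum]
    exact Nat.mul_le_mul_left _ (irr_sum hB)

end Vale.Agent.P201.S.LevF

namespace Vale.Agent.P201.S

open Finset

theorem stmtLev : StmtLev := by
  classical
  intro S D σ G hR hρ hN B C1 K0 hC1 hK0 hB hU
  have hlT : 0 ≤ Real.log (D : ℝ) := Real.log_natCast_nonneg D
  have hmP : ∀ q : Port S, G.mulP q ≤ B := fun q => (Glue.mulP_le hR q).trans (hB.mul _)
  set LN := Real.log (Fintype.card S.C) with hLN
  -- sum of the inequalities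
  have hsum := Finset.sum_le_sum (s := Icc 1 B) fun t ht =>
    hU t (mem_Icc.1 ht).1 (mem_Icc.1 ht).2
  -- left-hand side
  have hL : ∑ t ∈ Icc 1 B, (((univ.filter fun c : S.C => t ≤ G.mulP (c, true)).card : ℝ) -
      (univ.filter fun b : S.B => t ≤ G.mulB b).card) * LN =
      -(((Fintype.card G.Q : ℝ) - domc G.Y) * LN) := by
    rw [← Finset.sum_mul, Finset.sum_sub_distrib]
    have e1 : ∑ t ∈ Icc 1 B, ((univ.filter fun c : S.C => t ≤ G.mulP (c, true)).card : ℝ) =
        Fintype.card G.Q := by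
      have := sum_levels (fun c : S.C => G.mulP (c, true)) B (fun c => hmP _)
      rw [G.sum_mulP] at this
      rw [← this]
      push_cast
      rfl
    have e2 : ∑ t ∈ Icc 1 B, ((univ.filter fun b : S.B => t ≤ G.mulB b).card : ℝ) =
        Fintype.card G.Q + ((Fintype.card G.Q : ℝ) - domc G.Y) := by
      have := sum_levels (fun b : S.B => G.mulB b) B (fun b => hB.mul _)
      rw [G.sum_mulB] at this
      have h3 : ((Fintype.card G.Q - domc G.Y : ℕ) : ℝ) = (Fintype.card G.Q : ℝ) - domc G.Y :=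
        Nat.cast_sub (domc_le_card G.Y)
      rw [← h3]
      have h4 : (((Fintype.card G.Q + (Fintype.card G.Q - domc G.Y) : ℕ)) : ℝ) =
          (Fintype.card G.Q : ℝ) + ((Fintype.card G.Q - domc G.Y : ℕ) : ℝ) := by push_cast; rfl
      rw [← h4, ← this]
      push_cast
      rfl
    rw [e1, e2]
    ring
  -- the main sum
  have hmain : ∑ t ∈ Icc 1 B, (∑ x ∈ (univ.filter fun b : S.B => G.Reg b).filter
        (fun x => t ≤ G.mulB x), Real.log (G.dens (G.rep x)) -
        ∑ c ∈ ((univ.filter fun b : S.B => G.Reg b).filter (fun x => t ≤ G.mulB x)).image G.rep,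
          (Real.log 2 + 2 * Real.log (G.dens c))) ≤
      -(Real.log 2 / 2) * ∑ x ∈ univ.filter (fun b : S.B => G.Reg b), (G.mulB x : ℝ) +
        Real.log (D : ℝ) *
          ∑ c ∈ (univ.filter fun b : S.B => G.Reg b).image G.rep, (G.badC c : ℝ) := by
    rcases Nat.eq_zero_or_pos D with h0 | h0
    · have hem : (univ.filter fun b : S.B => G.Reg b) = ∅ := by
        rw [Finset.filter_eq_empty_iff]
        intro x _ hx
        have h1 := LevF.one_le_dens hR hρ hx
        rw [h0] at h1
        norm_num at h1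
      rw [hem]
      simp
    · exact Vale.Agent.P201.S.LevA.lev_sum (univ.filter fun b : S.B => G.Reg b) G.rep
        G.mulB G.dens G.badC B (by exact_mod_cast h0)
        (fun x hx => LevF.one_le_dens hR hρ ((mem_filter.1 hx).2.rep_reg))
        (fun x hx => LevF.dens_sq hρ ((mem_filter.1 hx).2.rep_reg))
        (fun x _ => hB.mul x)
        (fun x hx => by
          have := Glue.cls_bound hR (mem_filter.1 hx).2
          convert this using 2)
  have hreg : (Fintype.card G.Q : ℝ) - (B : ℝ) * B ≤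
      ∑ x ∈ univ.filter (fun b : S.B => G.Reg b), (G.mulB x : ℝ) := by
    have h1 := LevF.irr_sum hB
    have h2 := Finset.sum_filter_add_sum_filter_not (univ : Finset (S.B))
      (fun b => G.Reg b) G.mulB
    rw [G.sum_mulB] at h2
    have h3 : Fintype.card G.Q ≤
        ∑ x ∈ univ.filter (fun b : S.B => G.Reg b), G.mulB x + B * B := by omega
    have h4 : (Fintype.card G.Q : ℝ) ≤
        ((∑ x ∈ univ.filter (fun b : S.B => G.Reg b), G.mulB x + B * B : ℕ) : ℝ) := by
      exact_mod_cast h3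
    push_cast at h4
    linarith
  have hbad : ∑ c ∈ (univ.filter fun b : S.B => G.Reg b).image G.rep, (G.badC c : ℝ) ≤
      ((Fintype.card G.Q : ℝ) - domc G.X) + B + B * B := by
    have h1 := G.sum_badC_le
    have h2 := hB.unp
    have h3 := LevF.irr_links hB
    have h4 : ∑ c ∈ (univ.filter fun b : S.B => G.Reg b).image G.rep, G.badC c ≤
        (Fintype.card G.Q - domc G.X) + B + B * B := by
      refine le_trans (le_of_eq ?_) (h1.trans ?_)
      · congr 1
      · have e1 : (univ.filter fun s : G.Q => (G.Y s).isSome = true ∧ ¬ G.Paired s).card ≤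
            (Fintype.card G.Q - domc G.X) + B := by
          refine le_trans (le_of_eq ?_) h2
          congr 1
        have e2 : (univ.filter fun s : G.Q => (G.Y s).isSome = true ∧ ¬ G.Reg (G.bl s)).card ≤
            B * B := by
          refine le_trans (le_of_eq ?_) h3
          congr 1
        exact Nat.add_le_add e1 e2
    have h5 : ((Fintype.card G.Q - domc G.X : ℕ) : ℝ) = (Fintype.card G.Q : ℝ) - domc G.X :=
      Nat.cast_sub (domc_le_card G.X)
    have h6 : ((∑ c ∈ (univ.filter fun b : S.B => G.Reg b).image G.rep, G.badC c : ℕ) : ℝ) ≤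
        (((Fintype.card G.Q - domc G.X) + B + B * B : ℕ) : ℝ) := by exact_mod_cast h4
    push_cast at h6
    rw [h5] at h6
    exact h6
  -- error terms
  have herr : ∑ t ∈ Icc 1 B, (C1 * (((univ.filter fun b : S.B => ¬ G.Reg b ∧
        t ≤ G.mulB b).card : ℝ) +
      (univ.filter fun q : Port S => ¬ G.Reg (S.blk q) ∧ t ≤ G.mulP q).card + 1) + K0) ≤
      C1 * (3 * (B * B) + B) + B * K0 := by
    rw [Finset.sum_add_distrib, ← Finset.mul_sum, Finset.sum_const, Nat.card_Icc, nsmul_eq_mul]
    have e0 : ((B + 1 - 1 : ℕ) : ℝ) = B := by simp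
    rw [e0]
    refine add_le_add (mul_le_mul_of_nonneg_left ?_ hC1) le_rfl
    rw [Finset.sum_add_distrib, Finset.sum_add_distrib, Finset.sum_const, Nat.card_Icc,
      nsmul_eq_mul, e0, mul_one]
    have e1 : ∑ t ∈ Icc 1 B, ((univ.filter fun b : S.B => ¬ G.Reg b ∧
        t ≤ G.mulB b).card : ℝ) ≤ B * B := by
      have h := Vale.Agent.P201.S.LevA.layer_card (univ.filter fun b : S.B => ¬ G.Reg b)
        G.mulB B (fun b _ => hB.mul b)
      have h1 := LevF.irr_sum hB
      have h2 : ∑ t ∈ Icc 1 B, (univ.filter fun b : S.B => ¬ G.Reg b ∧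
          t ≤ G.mulB b).card ≤ B * B := by
        refine le_trans (le_of_eq ?_) h1
        rw [← h]
        refine Finset.sum_congr rfl fun t _ => ?_
        rw [Finset.filter_filter]
      exact_mod_cast h2
    have e2 : ∑ t ∈ Icc 1 B, ((univ.filter fun q : Port S => ¬ G.Reg (S.blk q) ∧
        t ≤ G.mulP q).card : ℝ) ≤ 2 * (B * B) := by
      have h := Vale.Agent.P201.S.LevA.layer_card
        (univ.filter fun q : Port S => ¬ G.Reg (S.blk q)) G.mulP B (fun q _ => hmP q)
      have h1 := LevF.irr_ports hR hB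
      have h2 : ∑ t ∈ Icc 1 B, (univ.filter fun q : Port S => ¬ G.Reg (S.blk q) ∧
          t ≤ G.mulP q).card ≤ 2 * (B * B) := by
        refine le_trans (le_of_eq ?_) h1
        rw [← h]
        refine Finset.sum_congr rfl fun t _ => ?_
        rw [Finset.filter_filter]
      exact_mod_cast h2
    linarith
  -- right-hand side
  have hRHS : ∑ t ∈ Icc 1 B,
      (∑ b ∈ univ.filter (fun b : S.B => G.Reg b ∧ t ≤ G.mulB b), Real.log (G.dens (G.rep b)) -
      ∑ k ∈ (univ.filter fun b : S.B => G.Reg b ∧ t ≤ G.mulB b).image G.rep,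
        (Real.log 2 + 2 * Real.log (G.dens k)) +
      C1 * ((univ.filter fun b : S.B => ¬ G.Reg b ∧ t ≤ G.mulB b).card +
        (univ.filter fun q : Port S => ¬ G.Reg (S.blk q) ∧ t ≤ G.mulP q).card + 1) + K0) ≤
      (-(Real.log 2 / 2) * ∑ x ∈ univ.filter (fun b : S.B => G.Reg b), (G.mulB x : ℝ) +
        Real.log D *
          ∑ c ∈ (univ.filter fun b : S.B => G.Reg b).image G.rep, (G.badC c : ℝ)) +
      (C1 * (3 * (B * B) + B) + B * K0) := by
    refine le_trans (le_of_eq ?_) (add_le_add hmain herr)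
    rw [← Finset.sum_add_distrib]
    refine Finset.sum_congr rfl fun t _ => ?_
    rw [Finset.filter_filter]
    ring
  have hfin := hL ▸ (hsum.trans hRHS)
  have hl2 : 0 < Real.log 2 := Real.log_pos one_lt_two
  have hl2' : Real.log 2 / 2 ≤ 1 := by
    have := Real.log_two_lt_d9
    linarith
  have hB0 : (0 : ℝ) ≤ B := Nat.cast_nonneg B
  have h1 : -(Real.log 2 / 2) * ∑ x ∈ univ.filter (fun b : S.B => G.Reg b), (G.mulB x : ℝ) ≤
      -(Real.log 2 / 2) * ((Fintype.card G.Q : ℝ) - (B : ℝ) * B) :=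
    mul_le_mul_of_nonpos_left hreg (by linarith)
  have h2 := mul_le_mul_of_nonneg_left hbad hlT
  have h3 : Real.log 2 / 2 * ((B : ℝ) * B) ≤ 1 * ((B : ℝ) * B) :=
    mul_le_mul_of_nonneg_right hl2' (by positivity)
  have hBB : (0 : ℝ) ≤ (B : ℝ) * B := by positivity
  nlinarith [mul_nonneg hC1 hBB, mul_nonneg hC1 hB0, mul_nonneg hK0 hBB, mul_nonneg hK0 hB0,
    mul_nonneg hlT hBB, mul_nonneg hlT hB0]

end Vale.Agent.P201.S
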