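import Vale.Agent.P201.S.LA.PDefs

/-!
P201, assembly of `StmtLoc` from part C (`StmtU`) and part LA (`StmtLA`): choice of the parameters
(helper621).
-/

namespace Vale.Agent.P201.S

open Finset Filter

/-- PART LA: for all large systems a finite family of patterns whose inequalities (U) imply the
local isoperimetric inequality.  The family is chosen before `σ`. -/
def StmtLA : Prop :=
  ∀ D : ℕ, ∀ c : ℝ, 0 < c → ∀ C1 : ℝ, 0 ≤ C1 → ∃ e1 : ℝ, 0 < e1 ∧ ∀ K : ℕ,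
    ∃ N0 : ℕ, ∀ S : Sys, S.Ok D → N0 ≤ Fintype.card S.C → ∀ Y g : ℕ,
      Real.log (Fintype.card S.C) ≤ Y → (Y : ℝ) ≤ 2 * Real.log (Fintype.card S.C) →
      c * Y ≤ g →
      (2 * (K * Y) + 2) * ((2 * D + 2) ^ (g + 3) + K * Y) ≤ Fintype.card S.C →
      ∃ (ι : Type) (_ : Fintype ι) (_ : Nonempty ι) (PP : ι → Ptn),
        (∀ i, Fintype.card (PP i).E ≤ K * Y) ∧
        ∀ σ : Equiv.Perm S.C, Girth σ g →
          (∀ i, ∀ r : Rlz (PP i) σ, UIneq r C1 (Real.log (Fintype.card ι))) →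
          LocIso σ (K * Y) Y e1

private theorem ev_lin (a b d : ℝ) (hd : 0 < d) :
    ∀ᶠ x : ℝ in atTop, a * x + b ≤ Real.exp (d * x) := by
  have h1 : (fun x : ℝ => x ^ 1) =o[atTop] fun x => Real.exp (d * x) :=
    isLittleO_pow_exp_pos_mul_atTop 1 hd
  have h0 : (fun x : ℝ => x ^ 0) =o[atTop] fun x => Real.exp (d * x) :=
    isLittleO_pow_exp_pos_mul_atTop 0 hd
  have e1 := h1.def (c := 1 / (2 * (|a| + 1))) (by positivity)
  have e0 := h0.def (c := 1 / (2 * (|b| + 1))) (by positivity)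
  filter_upwards [e1, e0, eventually_ge_atTop 0] with x hx1 hx0 hx
  have hE : 0 < Real.exp (d * x) := Real.exp_pos _
  rw [Real.norm_of_nonneg hE.le, pow_one, Real.norm_of_nonneg hx] at hx1
  rw [Real.norm_of_nonneg hE.le, pow_zero, norm_one] at hx0
  have k1 : |a| * x ≤ Real.exp (d * x) / 2 := by
    have : (|a| + 1) * x ≤ Real.exp (d * x) / 2 := by
      have := mul_le_mul_of_nonneg_left hx1 (by positivity : (0:ℝ) ≤ |a| + 1)
      calc (|a| + 1) * x ≤ (|a| + 1) * (1 / (2 * (|a| + 1)) * Real.exp (d * x)) := this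
        _ = Real.exp (d * x) / 2 := by field_simp
    nlinarith [abs_nonneg a]
  have k0 : |b| ≤ Real.exp (d * x) / 2 := by
    have : (|b| + 1) * 1 ≤ Real.exp (d * x) / 2 := by
      have := mul_le_mul_of_nonneg_left hx0 (by positivity : (0:ℝ) ≤ |b| + 1)
      calc (|b| + 1) * 1 ≤ (|b| + 1) * (1 / (2 * (|b| + 1)) * Real.exp (d * x)) := this
        _ = Real.exp (d * x) / 2 := by field_simp
    linarith
  have := mul_le_mul_of_nonneg_right (le_abs_self a) hx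
  linarith [le_abs_self b]

/-- the parameter inequality -/
theorem ev_param (T K : ℕ) :
    ∀ᶠ L : ℝ in atTop, ∀ Y g : ℕ, (Y : ℝ) ≤ L + 1 →
      (g : ℝ) ≤ 1 / (16 * Real.log (2 * T + 2)) * Y + 1 →
      ((2 * (K * Y) + 2 : ℕ) : ℝ) * (((2 * T + 2) ^ (g + 3) + K * Y : ℕ) : ℝ) ≤ Real.exp L := by
  have a1 := ev_lin (2 * K) (2 * K + 2) (1 / 4) (by norm_num)
  have a2 := ev_lin K K (1 / 8) (by norm_num)
  have a3 := ev_lin 0 ((2 * T + 2) ^ 4 * Real.exp (1 / 16) + 1) (1 / 16) (by norm_num)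
  filter_upwards [a1, a2, a3, eventually_ge_atTop 0] with L h1 h2 h3 hL Y g hY hg
  have hT : (1 : ℝ) < 2 * T + 2 := by
    have : (0 : ℝ) ≤ T := Nat.cast_nonneg T
    linarith
  have hlog : 0 < Real.log (2 * T + 2) := Real.log_pos hT
  push_cast
  have hp : ((2 * T + 2 : ℝ)) ^ (g + 3) ≤
      (2 * T + 2) ^ 4 * Real.exp (1 / 16) * Real.exp (1 / 16 * L) := by
    have e1 : ((2 * T + 2 : ℝ)) ^ (g + 3) = Real.exp (Real.log (2 * T + 2) * (g + 3)) := by
      rw [← Real.rpow_natCast, Real.rpow_def_of_pos (by linarith)]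
      push_cast
      rfl
    have e2 : ((2 * T + 2 : ℝ)) ^ 4 = Real.exp (Real.log (2 * T + 2) * 4) := by
      rw [← Real.rpow_natCast, Real.rpow_def_of_pos (by linarith)]
      norm_num
    rw [e1, e2, ← Real.exp_add, ← Real.exp_add]
    apply Real.exp_le_exp.2
    have : Real.log (2 * T + 2) * g ≤ 1 / 16 * Y + Real.log (2 * T + 2) := by
      calc Real.log (2 * T + 2) * g
          ≤ Real.log (2 * T + 2) * (1 / (16 * Real.log (2 * T + 2)) * Y + 1) :=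
            mul_le_mul_of_nonneg_left hg hlog.le
        _ = 1 / 16 * Y + Real.log (2 * T + 2) := by
            generalize Real.log (2 * (T : ℝ) + 2) = l at hlog
            field_simp
    nlinarith
  have hY0 : (0 : ℝ) ≤ Y := Nat.cast_nonneg Y
  have hK0 : (0 : ℝ) ≤ K := Nat.cast_nonneg K
  have hKY : (K : ℝ) * Y ≤ K * L + K := by nlinarith
  have b1 : (2 * ((K : ℝ) * Y) + 2) ≤ Real.exp (1 / 4 * L) := by nlinarith
  have e8 : Real.exp (1 / 16 * L) * Real.exp (1 / 16 * L) = Real.exp (1 / 8 * L) := by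
    rw [← Real.exp_add]; ring_nf
  have hx : (0:ℝ) < Real.exp (1 / 16 * L) := Real.exp_pos _
  have b2 : ((2 * T + 2 : ℝ)) ^ (g + 3) + K * Y ≤ 2 * Real.exp (1 / 8 * L) := by
    have : (2 * T + 2) ^ 4 * Real.exp (1 / 16) * Real.exp (1 / 16 * L) ≤
        Real.exp (1 / 8 * L) := by
      rw [← e8]
      exact mul_le_mul_of_nonneg_right (by linarith) hx.le
    linarith
  have b3 : 2 * Real.exp (1 / 8 * L) ≤ Real.exp (1 / 4 * L) := by
    have e4 : Real.exp (1 / 8 * L) * Real.exp (1 / 8 * L) = Real.exp (1 / 4 * L) := by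
      rw [← Real.exp_add]; ring_nf
    have h16 : (2 : ℝ) ≤ Real.exp (1 / 16 * L) := by
      have : (1 : ℝ) ≤ (2 * T + 2) ^ 4 * Real.exp (1 / 16) := by
        have u1 : (1 : ℝ) ≤ (2 * T + 2) ^ 4 := one_le_pow₀ hT.le
        have u2 : (1 : ℝ) ≤ Real.exp (1 / 16) := Real.one_le_exp (by norm_num)
        nlinarith
      linarith
    have h8 : (2 : ℝ) ≤ Real.exp (1 / 8 * L) := by
      rw [← e8]; nlinarith
    rw [← e4]
    exact mul_le_mul_of_nonneg_right h8 (Real.exp_pos _).le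
  calc (2 * ((K : ℝ) * Y) + 2) * ((2 * T + 2) ^ (g + 3) + K * Y)
      ≤ Real.exp (1 / 4 * L) * Real.exp (1 / 4 * L) := by
        apply mul_le_mul b1 (b2.trans b3) (by positivity) (Real.exp_pos _).le
    _ = Real.exp (1 / 2 * L) := by rw [← Real.exp_add]; ring_nf
    _ ≤ Real.exp L := Real.exp_le_exp.2 (by linarith)

/-- existence of parameters -/
theorem exists_param (T K Y0 : ℕ) :
    ∃ N0 : ℕ, ∀ N : ℕ, N0 ≤ N → 0 < N ∧ ∃ Y g : ℕ, Y0 ≤ Y ∧
      Real.log (N : ℝ) ≤ Y ∧ (Y : ℝ) ≤ 2 * Real.log (N : ℝ) ∧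
      1 / (16 * Real.log (2 * T + 2)) * Y ≤ g ∧
      (2 * (K * Y) + 2) * ((2 * T + 2) ^ (g + 3) + K * Y) ≤ N := by
  have htend : Tendsto (fun m : ℕ => Real.log (m : ℝ)) atTop atTop :=
    Real.tendsto_log_atTop.comp tendsto_natCast_atTop_atTop
  have ev := htend.eventually ((ev_param T K).and (eventually_ge_atTop (max 1 (Y0 : ℝ))))
  obtain ⟨N0, hN0⟩ := eventually_atTop.1 (ev.and (eventually_ge_atTop 1))
  refine ⟨N0, fun N hN => ?_⟩
  obtain ⟨⟨hm, hm1⟩, hm2⟩ := hN0 N hN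
  refine ⟨hm2, ?_⟩
  set L := Real.log (N : ℝ) with hLdef
  have hL1 : 1 ≤ L := (le_max_left _ _).trans hm1
  have hL0 : (Y0 : ℝ) ≤ L := (le_max_right _ _).trans hm1
  set Y := ⌈L⌉₊ with hYdef
  have hY1 : L ≤ Y := Nat.le_ceil L
  have hY2 : (Y : ℝ) ≤ L + 1 := (Nat.ceil_lt_add_one (by linarith)).le
  set g := ⌈1 / (16 * Real.log (2 * T + 2)) * (Y : ℝ)⌉₊ with hgdef
  have hlog : 0 < Real.log ((2 : ℝ) * T + 2) := by
    apply Real.log_pos
    have : (0 : ℝ) ≤ T := Nat.cast_nonneg T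
    linarith
  have hg1 : 1 / (16 * Real.log (2 * T + 2)) * (Y : ℝ) ≤ g := Nat.le_ceil _
  have hg2 : (g : ℝ) ≤ 1 / (16 * Real.log (2 * T + 2)) * (Y : ℝ) + 1 :=
    (Nat.ceil_lt_add_one (by positivity)).le
  refine ⟨Y, g, ?_, hY1, by linarith, hg1, ?_⟩
  · exact_mod_cast hL0.trans hY1
  · have h := hm Y g hY2 hg2
    have hpos : (0 : ℝ) < (N : ℝ) := by exact_mod_cast hm2
    rw [hLdef, Real.exp_log hpos] at h
    exact_mod_cast h

/-- **`StmtLoc` from parts C and LA.** -/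
theorem stmtLoc_of (hU : StmtU) (hLA : StmtLA) : StmtLoc := by
  intro D
  obtain ⟨C1, hC1, hU⟩ := hU D
  have hlog : 0 < Real.log ((2 : ℝ) * D + 2) := by
    apply Real.log_pos
    have : (0 : ℝ) ≤ D := Nat.cast_nonneg _
    linarith
  have hc : 0 < 1 / (16 * Real.log ((2 : ℝ) * D + 2)) := by positivity
  obtain ⟨e1, he1, hLA⟩ := hLA D _ hc C1 hC1
  refine ⟨_, e1, hc, he1, fun K Y0 => ?_⟩
  obtain ⟨N1, hLA⟩ := hLA K
  obtain ⟨N2, hpar⟩ := exists_param D K Y0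
  refine ⟨max N1 N2, fun S hS hN => ?_⟩
  obtain ⟨hpos, Y, g, hY0, h1, h2, h3, h4⟩ := hpar _ ((le_max_right _ _).trans hN)
  obtain ⟨ι, _, _, PP, hE, hloc⟩ := hLA S hS ((le_max_left _ _).trans hN) Y g h1 h2 h3 h4
  obtain ⟨σ, hσ, hUI⟩ := hU S hS g (K * Y) hpos h4 ι PP hE
  exact ⟨Y, hY0, σ, g, h3, hσ, hloc σ hσ hUI⟩

end Vale.Agent.P201.S
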