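import Vale.Agent.P201.S.LA.LA2

/-!
P201, part LA: ends of the antidiagonal runs of the pairing (helper252).
-/

namespace Vale.Agent.P201.S.PairRun

open Finset Vale.Agent.P201.S

variable {S : Sys} {σ : Equiv.Perm S.C}

/-- the partner of a link (only used for paired links) -/
noncomputable def mu (G : Glue σ) (s : G.Q) : G.Q := (G.X ((G.Y s).getD s)).getD s

theorem mu_eq {G : Glue σ} {s s' : G.Q} (h : G.Pair s s') : mu G s = s' := by
  obtain ⟨v, v', h1, h2, -⟩ := h
  unfold mu
  rw [h1, Option.getD_some, h2, Option.getD_some]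

/-- the pairing relation in a numbering -/
def Rel (G : Glue σ) (e : G.Q ≃ Fin (Fintype.card G.Q)) (i j : ℕ) : Prop :=
  ∃ s s', (e s : ℕ) = i ∧ (e s' : ℕ) = j ∧ G.Pair s s'

theorem Rel.lt {G : Glue σ} {e : G.Q ≃ Fin (Fintype.card G.Q)} {i j : ℕ} (h : Rel G e i j) :
    i < Fintype.card G.Q ∧ j < Fintype.card G.Q := by
  obtain ⟨s, s', rfl, rfl, -⟩ := h
  exact ⟨(e s).2, (e s').2⟩

open Classical in
/-- one step forward in the first and backward in the second coordinate is possible except for few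
pairs -/
theorem ends_le (G : Glue σ) (T : Finset G.Q) (e : G.Q ≃ Fin (Fintype.card G.Q))
    (hnum : ∀ s v, (e v : ℕ) = e s + 1 → v ∉ T → G.Y s = some v)
    (h0 : ∀ s, (e s : ℕ) = 0 → s ∈ T) :
    ((range (Fintype.card G.Q) ×ˢ range (Fintype.card G.Q)).filter
      (fun x => Rel G e x.1 x.2 ∧ ¬ (1 ≤ x.2 ∧ Rel G e (x.1 + 1) (x.2 - 1)))).card ≤
      2 * T.card + (G.badO + (Fintype.card G.Q - domc G.Y) + G.badM) := by
  -- cyclic successor
  let nx : G.Q → G.Q := fun s =>
    e.symm ⟨((e s : ℕ) + 1) % (Fintype.card G.Q), Nat.mod_lt _ (lt_of_le_of_lt (Nat.zero_le _) (e s).2)⟩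
  have hnx : ∀ s, (e (nx s) : ℕ) = ((e s : ℕ) + 1) % (Fintype.card G.Q) := by
    intro s
    simp only [nx, Equiv.apply_symm_apply]
  have hinj : Function.Injective nx := by
    intro s t hst
    have h1 := congrArg (fun u => (e u : ℕ)) hst
    simp only [hnx] at h1
    have h2 := (e s).2
    have h3 := (e t).2
    apply e.injective
    apply Fin.ext
    rcases Nat.lt_or_ge ((e s : ℕ) + 1) (Fintype.card G.Q) with h4 | h4 <;>
      rcases Nat.lt_or_ge ((e t : ℕ) + 1) (Fintype.card G.Q) with h5 | h5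
    · rw [Nat.mod_eq_of_lt h4, Nat.mod_eq_of_lt h5] at h1
      omega
    · rw [Nat.mod_eq_of_lt h4, show (e t : ℕ) + 1 = Fintype.card G.Q by omega, Nat.mod_self] at h1
      omega
    · rw [Nat.mod_eq_of_lt h5, show (e s : ℕ) + 1 = Fintype.card G.Q by omega, Nat.mod_self] at h1
      omega
    · omega
  let A : Finset G.Q := univ.filter fun s => nx s ∈ T
  let B : Finset G.Q := T.image (mu G)
  let C : Finset G.Q := univ.filter fun s =>
    G.Paired s ∧ ∀ v, G.Y s = some v → ¬ (G.GoodX v ∧ G.Paired v)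
  have hA : A.card ≤ T.card := by
    refine Finset.card_le_card_of_injOn nx ?_ (hinj.injOn)
    intro s hs
    exact (mem_filter.1 (Finset.mem_coe.1 hs)).2
  have hB : B.card ≤ T.card := card_image_le
  have hC : C.card ≤ G.badO + (Fintype.card G.Q - domc G.Y) + G.badM := Glue.breaks_le G
  have hsub : ((range (Fintype.card G.Q) ×ˢ range (Fintype.card G.Q)).filter
      (fun x => Rel G e x.1 x.2 ∧ ¬ (1 ≤ x.2 ∧ Rel G e (x.1 + 1) (x.2 - 1)))) ⊆
      (A ∪ B ∪ C).image (fun s => ((e s : ℕ), (e (mu G s) : ℕ))) := by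
    intro x hx
    rw [mem_filter] at hx
    obtain ⟨-, ⟨s, s', h1, h2, h3⟩, h4⟩ := hx
    rw [mem_image]
    refine ⟨s, ?_, ?_⟩
    · by_contra hcon
      rw [mem_union, mem_union, not_or, not_or] at hcon
      obtain ⟨⟨hnA, hnB⟩, hnC⟩ := hcon
      have hnA' : nx s ∉ T := fun h => hnA (mem_filter.2 ⟨mem_univ _, h⟩)
      have hnB' : s' ∉ T := fun h => hnB (mem_image.2 ⟨s', h, mu_eq h3.symm⟩)
      have hnC' : ¬ (G.Paired s ∧ ∀ v, G.Y s = some v → ¬ (G.GoodX v ∧ G.Paired v)) :=
        fun h => hnC (mem_filter.2 ⟨mem_univ _, h⟩)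
      -- successor
      have h5 : (e s : ℕ) + 1 < Fintype.card G.Q := by
        by_contra h6
        have h7 := (e s).2
        apply hnA'
        apply h0
        rw [hnx, show (e s : ℕ) + 1 = Fintype.card G.Q by omega, Nat.mod_self]
      have h6 : G.Y s = some (nx s) := hnum _ _ (by rw [hnx, Nat.mod_eq_of_lt h5]) hnA'
      -- predecessor of the partner
      have h7 : 1 ≤ (e s' : ℕ) := by
        by_contra h8
        exact hnB' (h0 s' (by omega))
      have h8 : (e s' : ℕ) - 1 < Fintype.card G.Q := by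
        have := (e s').2
        omega
      have h9 : G.Y (e.symm ⟨(e s' : ℕ) - 1, h8⟩) = some s' := by
        apply hnum _ _ _ hnB'
        rw [Equiv.apply_symm_apply]
        simp only
        omega
      have h10 : G.GoodX (nx s) ∧ G.Paired (nx s) := by
        by_contra h11
        apply hnC'
        refine ⟨⟨s', h3⟩, fun v hv => ?_⟩
        rw [h6, Option.some.injEq] at hv
        rw [← hv]
        exact h11
      obtain ⟨h11, w, h12⟩ := h10
      have h13 := h3.slope h6 h11 h12
      have h14 : w = e.symm ⟨(e s' : ℕ) - 1, h8⟩ := G.Y.inj h13 h9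
      apply h4
      rw [← h2]
      refine ⟨h7, nx s, w, ?_, ?_, h12⟩
      · rw [hnx, Nat.mod_eq_of_lt h5, h1]
      · rw [h14, Equiv.apply_symm_apply]
    · simp only [mu_eq h3, h1, h2]
  calc _ ≤ _ := card_le_card hsub
    _ ≤ (A ∪ B ∪ C).card := card_image_le
    _ ≤ (A ∪ B).card + C.card := card_union_le _ _
    _ ≤ A.card + B.card + C.card := Nat.add_le_add_right (card_union_le A B) _
    _ ≤ _ := by omega

end Vale.Agent.P201.S.PairRun
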