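import Vale.Agent.P201.S.LA.PatDefs

/-!
P201, part LA3: level patterns of gluing data and their canonical realization (helper576).
-/

namespace Vale.Agent.P201.S

open Finset

variable {S : Sys} {σ : Equiv.Perm S.C}

/-- no loops in the matching graph -/
def NoLoop (σ : Equiv.Perm S.C) : Prop := ∀ q : Port S, S.blk (mt σ q) ≠ S.blk q

theorem Girth.noLoop {g : ℕ} (hg : Girth σ g) (h2 : 2 ≤ g) : NoLoop σ := by
  intro q hq
  have h1 : IsCWalk σ [q] := by
    refine ⟨List.isChain_singleton q, ?_⟩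
    intro a ha b hb
    simp only [List.getLast?_singleton, List.head?_cons, Option.mem_def, Option.some.injEq] at ha hb
    subst ha hb
    exact ⟨hq, (mt_ne σ q).symm⟩
  have := hg [q] (by simp) h1
  simp at this
  omega

namespace Glue

variable {G : Glue σ}

theorem mulP_mt (q : Port S) : G.mulP (mt σ q) = G.mulP q := by
  unfold mulP
  congr 1
  ext s
  simp only [mem_filter, mem_univ, true_and]
  constructor
  · rintro (h | h)
    · exact Or.inr (by rw [h, mt_mt])
    · exact Or.inl (mt_inj σ h)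
  · rintro (h | h)
    · exact Or.inr (by rw [h])
    · exact Or.inl (by rw [← h, mt_mt])

open Classical in
theorem mulP_le (hR : G.Red) (q : Port S) : G.mulP q ≤ G.mulB (S.blk q) := by
  unfold mulP mulB
  have hsub : (univ.filter fun s : G.Q => G.ε s = q ∨ mt σ (G.ε s) = q) ⊆
      ((univ.filter fun s : G.Q => mt σ (G.ε s) = q) ∪
        (univ.filter fun s : G.Q => G.ε s = q ∧ ∃ r, G.Y r = some s)) ∪
      (univ.filter fun s : G.Q => G.Y.symm s = none ∧ S.blk (G.ε s) = S.blk q) := by
    intro s hs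
    simp only [mem_union, mem_filter, mem_univ, true_and] at hs ⊢
    rcases hs with h | h
    · cases h1 : G.Y.symm s with
      | none => exact Or.inr ⟨rfl, by rw [h]⟩
      | some r =>
        left; right
        exact ⟨h, r, (PEquiv.eq_some_iff _).1 h1⟩
    · exact Or.inl (Or.inl h)
  refine (card_le_card hsub).trans ((card_union_le _ _).trans (Nat.add_le_add_right ?_ _))
  refine Finset.card_le_card_of_injOn
    (fun s => if mt σ (G.ε s) = q then s else (G.Y.symm s).getD s) ?_ ?_
  · intro s hs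
    rw [mem_coe, mem_union, mem_filter, mem_filter] at hs
    rw [mem_coe, mem_filter]
    refine ⟨mem_univ _, ?_⟩
    by_cases h1 : mt σ (G.ε s) = q
    · simp only [h1, if_true]
    · rcases hs with h | h
      · exact absurd h.2 h1
      · obtain ⟨-, h2, r, h3⟩ := h
        have h4 : G.Y.symm s = some r := (PEquiv.eq_some_iff _).2 h3
        simp only [h1, if_false, h4, Option.getD_some]
        rw [(hR.y r s h3).1, h2]
  · intro s hs t ht hst
    rw [mem_coe, mem_union, mem_filter, mem_filter] at hs ht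
    simp only at hst
    by_cases h1 : mt σ (G.ε s) = q <;> by_cases h2 : mt σ (G.ε t) = q
    · simpa [h1, h2] using hst
    · rcases ht with h | h
      · exact absurd h.2 h2
      · obtain ⟨-, k2, r, k3⟩ := h
        have h4 : G.Y.symm t = some r := (PEquiv.eq_some_iff _).2 k3
        simp only [h1, h2, if_true, if_false, h4, Option.getD_some] at hst
        subst hst
        exact absurd (k2.trans h1.symm) (hR.y s t k3).2
    · rcases hs with h | h
      · exact absurd h.2 h1
      · obtain ⟨-, k2, r, k3⟩ := h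
        have h4 : G.Y.symm s = some r := (PEquiv.eq_some_iff _).2 k3
        simp only [h1, h2, if_true, if_false, h4, Option.getD_some] at hst
        subst hst
        exact absurd (k2.trans h2.symm) (hR.y r s k3).2
    · rcases hs with h | h
      · exact absurd h.2 h1
      · rcases ht with k | k
        · exact absurd k.2 h2
        · obtain ⟨-, -, r, h3⟩ := h
          obtain ⟨-, -, r', k3⟩ := k
          have h4 : G.Y.symm s = some r := (PEquiv.eq_some_iff _).2 h3
          have k4 : G.Y.symm t = some r' := (PEquiv.eq_some_iff _).2 k3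
          simp only [h1, h2, if_false, h4, k4, Option.getD_some] at hst
          subst hst
          rw [h3] at k3
          exact Option.some.inj k3

open Classical in
theorem OU.mulB_le {b : S.B} {u : Port S × Port S} (hu : G.OU b u) :
    G.mulB b ≤ G.mulP u.1 := by
  have hr := hu.reg
  unfold mulP mulB
  have h0 : (univ.filter fun s : G.Q => G.Y.symm s = none ∧ S.blk (G.ε s) = b).card = 0 := by
    rw [card_eq_zero, filter_eq_empty_iff]
    rintro s - ⟨h1, h2⟩
    obtain ⟨r, h3⟩ := hr.ran s h2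
    rw [(PEquiv.eq_some_iff _).2 h3] at h1
    exact absurd h1 (by simp)
  rw [h0, add_zero]
  have key : ∀ s, S.blk (mt σ (G.ε s)) = b → ∃ v, G.Y s = some v ∧
      (mt σ (G.ε s) = u.1 ∨ G.ε v = u.1) := by
    intro s hs
    obtain ⟨v, hv⟩ := hr.dom s hs
    refine ⟨v, hv, ?_⟩
    rcases hu.two ⟨hr, s, v, hv, hs, Or.inl rfl⟩ with h | h
    · exact Or.inl (congrArg Prod.fst h)
    · exact Or.inr (congrArg Prod.snd h)
  refine Finset.card_le_card_of_injOn
    (fun s => if mt σ (G.ε s) = u.1 then s else (G.Y s).getD s) ?_ ?_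
  · intro s hs
    rw [mem_coe, mem_filter] at hs
    rw [mem_coe, mem_filter]
    refine ⟨mem_univ _, ?_⟩
    obtain ⟨v, hv, h1⟩ := key s hs.2
    by_cases h2 : mt σ (G.ε s) = u.1
    · simp only [h2, if_true, or_true]
    · simp only [h2, if_false, hv, Option.getD_some]
      rcases h1 with h1 | h1
      · exact absurd h1 h2
      · exact Or.inl h1
  · intro s hs t ht hst
    rw [mem_coe, mem_filter] at hs ht
    obtain ⟨v, hv, h1⟩ := key s hs.2
    obtain ⟨w, hw, k1⟩ := key t ht.2
    simp only at hst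
    by_cases h2 : mt σ (G.ε s) = u.1 <;> by_cases k2 : mt σ (G.ε t) = u.1
    · simpa [h2, k2] using hst
    · simp only [h2, k2, if_true, if_false, hw, Option.getD_some] at hst
      subst hst
      rcases k1 with k1 | k1
      · exact absurd k1 k2
      · exact absurd (h2.trans k1.symm) (mt_ne σ _)
    · simp only [h2, k2, if_true, if_false, hv, Option.getD_some] at hst
      subst hst
      rcases h1 with h1 | h1
      · exact absurd h1 h2
      · exact absurd (k2.trans h1.symm) (mt_ne σ _)
    · simp only [h2, k2, if_false, hv, hw, Option.getD_some] at hst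
      subst hst
      exact G.Y.inj hv hw

theorem OU.mulP_eq (hR : G.Red) {b : S.B} {u : Port S × Port S} (hu : G.OU b u) :
    G.mulP u.1 = G.mulB b :=
  le_antisymm (by have := mulP_le hR u.1; rwa [hu.blk1 hR] at this) hu.mulB_le

/-- used ports at a regular block -/
theorem OU.used (hR : G.Red) {b : S.B} {u : Port S × Port S} (hu : G.OU b u)
    {q : Port S} (hq : 1 ≤ G.mulP q) (hb : S.blk q = b) : q = u.1 ∨ q = u.2 := by
  have hr := hu.reg
  unfold mulP at hq
  obtain ⟨s, hs⟩ := card_pos.1 hq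
  rw [mem_filter] at hs
  rcases hs.2 with h | h
  · obtain ⟨r, h3⟩ := hr.ran s (by rw [h]; exact hb)
    have h5 : S.blk (mt σ (G.ε r)) = b := by rw [(hR.y r s h3).1, h, hb]
    rcases hu.two ⟨hr, r, s, h3, h5, Or.inl rfl⟩ with h1 | h1
    · right; rw [← h]; exact congrArg Prod.snd h1
    · left; rw [← h]; exact congrArg Prod.snd h1
  · obtain ⟨v, hv⟩ := hr.dom s (by rw [h]; exact hb)
    rcases hu.two ⟨hr, s, v, hv, by rw [h]; exact hb, Or.inl rfl⟩ with h1 | h1
    · left; rw [← h]; exact congrArg Prod.fst h1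
    · right; rw [← h]; exact congrArg Prod.fst h1

theorem OU.ne (hR : G.Red) {b : S.B} {u : Port S × Port S} (hu : G.OU b u) :
    u.1 ≠ u.2 := (hu.isU hR).2

section ptn

variable (G)

/-- regular blocks of the level `t` -/
abbrev RT (t : ℕ) : Type := {b : S.B // G.Reg b ∧ t ≤ G.mulB b}

/-- irregular blocks of the level `t` -/
abbrev VT (t : ℕ) : Type := {b : S.B // ¬ G.Reg b ∧ t ≤ G.mulB b}

/-- edges of the level `t` -/
abbrev ET (t : ℕ) : Type := {c : S.C // t ≤ G.mulP (c, true)}

open Classical in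
/-- the place of a port -/
noncomputable def attQ (t : ℕ) (q : Port S) (hm : t ≤ G.mulB (S.blk q)) :
    G.VT t ⊕ (G.RT t × Bool) :=
  if hr : G.Reg (S.blk q) then Sum.inr (⟨_, hr, hm⟩, decide (q = (G.fu _ hr).1))
  else Sum.inl ⟨_, hr, hm⟩

variable {G} in
theorem attQ_congr {t : ℕ} {q q' : Port S} (h : q = q') {hm : t ≤ G.mulB (S.blk q)}
    {hm' : t ≤ G.mulB (S.blk q')} : G.attQ t q hm = G.attQ t q' hm' := by
  subst h
  rfl

variable {G} in
theorem attQ_inl {t : ℕ} {q : Port S} {hm : t ≤ G.mulB (S.blk q)} {v : G.VT t}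
    (h : G.attQ t q hm = Sum.inl v) : S.blk q = v.1 := by
  unfold attQ at h
  split_ifs at h with hr
  rw [Sum.inl.injEq] at h
  rw [← h]

variable {G} in
theorem attQ_inr {t : ℕ} {q : Port S} {hm : t ≤ G.mulB (S.blk q)} {x : G.RT t × Bool}
    (h : G.attQ t q hm = Sum.inr x) : S.blk q = x.1.1 ∧ (q = (G.fu x.1.1 x.1.2.1).1 ↔ x.2 = true) := by
  unfold attQ at h
  split_ifs at h with hr
  rw [Sum.inr.injEq] at h
  subst h
  exact ⟨rfl, by simp⟩

/-- port of a place of a regular block -/
noncomputable def rport {t : ℕ} (x : G.RT t × Bool) : Port S :=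
  if x.2 then (G.fu x.1.1 x.1.2.1).1 else (G.fu x.1.1 x.1.2.1).2

variable {G} in
theorem rport_mulP (hR : G.Red) {t : ℕ} (x : G.RT t × Bool) :
    G.mulP (G.rport x) = G.mulB x.1.1 := by
  unfold rport
  split_ifs
  · exact (G.fu_ou _ _).mulP_eq hR
  · exact (G.fu_ou _ _).swap.mulP_eq hR

variable {G} in
theorem rport_blk (hR : G.Red) {t : ℕ} (x : G.RT t × Bool) :
    S.blk (G.rport x) = x.1.1 := by
  unfold rport
  split_ifs
  · exact (G.fu_ou _ _).blk1 hR
  · exact (G.fu_ou _ _).blk2 hR

variable {G} in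
theorem attQ_rport (hR : G.Red) {t : ℕ} (x : G.RT t × Bool)
    (hm : t ≤ G.mulB (S.blk (G.rport x))) : G.attQ t (G.rport x) hm = Sum.inr x := by
  have h1 := rport_blk hR x
  have hr : G.Reg (S.blk (G.rport x)) := by rw [h1]; exact x.1.2.1
  unfold attQ
  rw [dif_pos hr]
  obtain ⟨⟨b, hb, hm'⟩, e⟩ := x
  simp only at h1
  rw [Sum.inr.injEq, Prod.mk.injEq]
  refine ⟨Subtype.ext h1, ?_⟩
  have hne := (G.fu_ou b hb).ne hR
  have h2 : ∀ b' (hb' : G.Reg b'), b' = b → G.fu b' hb' = G.fu b hb := by
    rintro b' hb' rfl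
    rfl
  rw [h2 _ hr h1]
  cases e
  · simp only [rport, Bool.false_eq_true, if_false, decide_eq_false_iff_not]
    exact hne.symm
  · simp [rport]

theorem mulP_qh (q : Port S) : G.mulP ((qh σ q).1, true) = G.mulP q := by
  obtain ⟨c, e⟩ := q
  cases e
  · have : ((qh σ (c, false)).1, true) = mt σ (c, false) := by simp [qh, mt]
    rw [this, mulP_mt]
  · simp [qh]

theorem mulP_hc (h : S.C × Bool) : G.mulP (hc σ h) = G.mulP (h.1, true) := by
  have h1 := G.mulP_qh (hc σ h)
  rw [qh_hc] at h1
  exact h1.symm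

variable {G} in
theorem att_le (hR : G.Red) {t : ℕ} (h : G.ET t × Bool) :
    t ≤ G.mulB (S.blk (hc σ (h.1.1, h.2))) :=
  (h.1.2.trans (G.mulP_hc (h.1.1, h.2)).ge).trans (mulP_le hR _)

/-- half-edge of a place of a regular block -/
noncomputable def hf (hR : G.Red) (t : ℕ) (x : G.RT t × Bool) : G.ET t × Bool :=
  (⟨(qh σ (G.rport x)).1, by rw [mulP_qh, rport_mulP hR x]; exact x.1.2.2⟩,
    (qh σ (G.rport x)).2)

variable {G} in
theorem hc_hf (hR : G.Red) (t : ℕ) (x : G.RT t × Bool) :
    hc σ ((G.hf hR t x).1.1, (G.hf hR t x).2) = G.rport x := by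
  unfold hf
  simp only
  exact hc_qh _

/-- classes of the level `t` -/
abbrev CT (t : ℕ) : Type := {k : S.B // ∃ b, G.Reg b ∧ t ≤ G.mulB b ∧ G.rep b = k}

variable {G} in
theorem CT.reg {t : ℕ} (k : G.CT t) : G.Reg k.1 := by
  obtain ⟨k, b, h1, h2, rfl⟩ := k
  exact h1.rep_reg

open Classical in
/-- the pattern of level `t` -/
noncomputable def ptn (hR : G.Red) (t : ℕ) (ht : 1 ≤ t) : Ptn where
  E := G.ET t
  V := G.VT t
  R := G.RT t
  C := G.CT t
  att h := G.attQ t (hc σ (h.1.1, h.2)) (att_le hR h)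
  hf := G.hf hR t
  att_hf x := by
    rw [attQ_congr (hc_hf hR t x)]
    exact attQ_rport hR x (by rw [rport_blk hR x]; exact x.1.2.2)
  hf_unique h x hx := by
    obtain ⟨h1, h2⟩ := attQ_inr hx
    have h3 := (G.fu_ou x.1.1 x.1.2.1).used hR (q := hc σ (h.1.1, h.2))
      (ht.trans (h.1.2.trans (G.mulP_hc (h.1.1, h.2)).ge)) h1
    have h4 : hc σ (h.1.1, h.2) = G.rport x := by
      unfold rport
      by_cases h5 : x.2 = true
      · rw [if_pos h5]
        exact h2.2 h5
      · rw [if_neg h5]
        rcases h3 with h3 | h3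
        · exact absurd (h2.1 h3) h5
        · exact h3
    have h6 : (h.1.1, h.2) = qh σ (G.rport x) := by rw [← h4, qh_hc]
    unfold Glue.hf
    refine Prod.ext (Subtype.ext ?_) ?_
    · have := congrArg Prod.fst h6
      exact this
    · have := congrArg Prod.snd h6
      exact this
  cl x := (⟨G.rep x.1, x.1, x.2.1, x.2.2, rfl⟩, true)
  cl_surj := by
    rintro ⟨k, b, h1, h2, h3⟩
    exact ⟨⟨b, h1, h2⟩, Subtype.ext h3⟩

/-- the canonical realization -/
noncomputable def rlz (hR : G.Red) (t : ℕ) (ht : 1 ≤ t) : Rlz (G.ptn hR t ht) σ where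
  prt h := hc σ (h.1.1, h.2)
  mate c := mt_hc c.1 true
  inj := by
    rintro ⟨⟨c, hc⟩, e⟩ ⟨⟨c', hc'⟩, e'⟩ h
    simp only at h
    have h1 := congrArg (qh σ) h
    rw [qh_hc, qh_hc, Prod.mk.injEq] at h1
    obtain ⟨rfl, rfl⟩ := h1
    rfl
  vb v := v.1
  hv h v hx := attQ_inl (hm := att_le hR h) hx
  L k := lam (G.u0 k.1 k.reg)
  hblk x := by
    have h1 := hc_hf hR t (x, true)
    have h2 := hc_hf hR t (x, false)
    change S.blk (hc σ ((G.hf hR t (x, true)).1.1, (G.hf hR t (x, true)).2)) =
      S.blk (hc σ ((G.hf hR t (x, false)).1.1, (G.hf hR t (x, false)).2))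
    rw [h1, h2, rport_blk hR, rport_blk hR]
  hlam x := by
    have h1 := hc_hf hR t (x, true)
    have h2 := hc_hf hR t (x, false)
    change lam (hc σ ((G.hf hR t (x, true)).1.1, (G.hf hR t (x, true)).2),
      hc σ ((G.hf hR t (x, false)).1.1, (G.hf hR t (x, false)).2)) = _
    rw [h1, h2]
    change lam (G.fu x.1 x.2.1) = lam (G.u0 (G.rep x.1) _)
    exact G.fu_lam hR x.1 x.2.1

end ptn

end Glue

end Vale.Agent.P201.S
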