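import Mathlib

/-!
P201, part LA (B1): relations on numbers which are unions of few diagonal / antidiagonal runs
(helper300; interface of helper621).
-/

namespace Vale.Agent.P201.S.RunsH

open Finset

/-- a run: start `(i, j)`, length, direction (`true` diagonal, `false` antidiagonal) -/
abbrev Run := ℕ × ℕ × ℕ × Bool

def Run.rel (r : Run) (i j : ℕ) : Prop :=
  ∃ x < r.2.2.1, i = r.1 + x ∧ (if r.2.2.2 then j = r.2.1 + x else j + x = r.2.1)

def IsRuns (F B : ℕ) (R : ℕ → ℕ → Prop) : Prop :=
  ∃ c : Fin B → Run, (∀ b, (c b).1 ≤ F ∧ (c b).2.1 ≤ F ∧ (c b).2.2.1 ≤ F) ∧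
    ∀ i j, R i j ↔ ∃ b, (c b).rel i j

theorem Run.rel_zero (i j : ℕ) : ¬ Run.rel (0, 0, 0, true) i j := by
  rintro ⟨x, hx, _⟩
  exact absurd hx (Nat.not_lt_zero _)

theorem IsRuns.of_fintype {β : Type} [Fintype β] {F B : ℕ} {R : ℕ → ℕ → Prop} (c : β → Run)
    (hc : ∀ b, (c b).1 ≤ F ∧ (c b).2.1 ≤ F ∧ (c b).2.2.1 ≤ F)
    (hR : ∀ i j, R i j ↔ ∃ b, (c b).rel i j) (hB : Fintype.card β ≤ B) : IsRuns F B R := by
  refine ⟨fun k => if h : k.1 < Fintype.card β then c ((Fintype.equivFin β).symm ⟨k.1, h⟩)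
    else (0, 0, 0, true), ?_, ?_⟩
  · intro k
    by_cases h : k.1 < Fintype.card β
    · simp only [h, dite_true]
      exact hc _
    · simp only [h, dite_false]
      exact ⟨Nat.zero_le _, Nat.zero_le _, Nat.zero_le _⟩
  · intro i j
    rw [hR]
    constructor
    · rintro ⟨b, hb⟩
      refine ⟨⟨(Fintype.equivFin β b).1, lt_of_lt_of_le (Fintype.equivFin β b).2 hB⟩, ?_⟩
      have h : ((Fintype.equivFin β) b).1 < Fintype.card β := (Fintype.equivFin β b).2
      simp only [h, dite_true]
      have : (⟨(Fintype.equivFin β b).1, h⟩ : Fin (Fintype.card β)) = Fintype.equivFin β b := rfl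
      rw [this, Equiv.symm_apply_apply]
      exact hb
    · rintro ⟨k, hk⟩
      by_cases h : k.1 < Fintype.card β
      · simp only [h, dite_true] at hk
        exact ⟨_, hk⟩
      · simp only [h, dite_false] at hk
        exact absurd hk (Run.rel_zero i j)

/-- (a) -/
theorem IsRuns.mono {F B B' : ℕ} {R : ℕ → ℕ → Prop} (h : IsRuns F B R) (hB : B ≤ B') :
    IsRuns F B' R := by
  obtain ⟨c, h1, h2⟩ := h
  exact IsRuns.of_fintype c h1 h2 (by simpa using hB)

theorem IsRuns.congr {F B : ℕ} {R R' : ℕ → ℕ → Prop} (h : IsRuns F B R)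
    (hR : ∀ i j, R' i j ↔ R i j) : IsRuns F B R' := by
  obtain ⟨c, h1, h2⟩ := h
  exact ⟨c, h1, fun i j => (hR i j).trans (h2 i j)⟩

theorem IsRuns.union {F B B' : ℕ} {R R' : ℕ → ℕ → Prop} (h : IsRuns F B R)
    (h' : IsRuns F B' R') : IsRuns F (B + B') (fun i j => R i j ∨ R' i j) := by
  obtain ⟨c, h1, h2⟩ := h
  obtain ⟨c', h1', h2'⟩ := h'
  refine IsRuns.of_fintype (β := Fin B ⊕ Fin B') (Sum.elim c c') ?_ ?_ (by simp)
  · rintro (b | b)
    · exact h1 b
    · exact h1' b
  · intro i j
    rw [h2, h2']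
    constructor
    · rintro (⟨b, hb⟩ | ⟨b, hb⟩)
      · exact ⟨Sum.inl b, hb⟩
      · exact ⟨Sum.inr b, hb⟩
    · rintro ⟨b | b, hb⟩
      · exact Or.inl ⟨b, hb⟩
      · exact Or.inr ⟨b, hb⟩

theorem IsRuns.biUnion {ι : Type} [Fintype ι] {F B : ℕ} {R : ι → ℕ → ℕ → Prop}
    (h : ∀ w, IsRuns F B (R w)) : IsRuns F (Fintype.card ι * B) (fun i j => ∃ w, R w i j) := by
  choose c h1 h2 using h
  refine IsRuns.of_fintype (β := ι × Fin B) (fun b => c b.1 b.2) ?_ ?_ (by simp)
  · rintro ⟨w, b⟩
    exact h1 w b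
  · intro i j
    constructor
    · rintro ⟨w, hw⟩
      obtain ⟨b, hb⟩ := (h2 w i j).1 hw
      exact ⟨(w, b), hb⟩
    · rintro ⟨⟨w, b⟩, hb⟩
      exact ⟨w, (h2 w i j).2 ⟨b, hb⟩⟩

theorem IsRuns.biUnion_le {ι : Type} [Fintype ι] {F B W : ℕ} {R : ι → ℕ → ℕ → Prop}
    (h : ∀ w, IsRuns F B (R w)) (hW : Fintype.card ι ≤ W) :
    IsRuns F (W * B) (fun i j => ∃ w, R w i j) :=
  (IsRuns.biUnion h).mono (Nat.mul_le_mul_right _ hW)

theorem IsRuns.biUnion_sq {W F B : ℕ} {R : Fin W → Fin W → ℕ → ℕ → Prop}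
    (h : ∀ w w', IsRuns F B (R w w')) :
    IsRuns F (W * W * B) (fun i j => ∃ w w', R w w' i j) := by
  have := IsRuns.biUnion (ι := Fin W × Fin W) (R := fun w => R w.1 w.2) (fun w => h w.1 w.2)
  refine (this.mono (by simp)).congr fun i j => ?_
  constructor
  · rintro ⟨w, w', hw⟩; exact ⟨(w, w'), hw⟩
  · rintro ⟨⟨w, w'⟩, hw⟩; exact ⟨w, w', hw⟩

/-- (b) -/
theorem one_run {F : ℕ} {R : ℕ → ℕ → Prop} (hF : ∀ i j, R i j → i < F ∧ j < F)
    (h : ∀ i i' j j', i ≤ i' → R i j → R i' j' →
      (j ≤ j' → i' - i = j' - j ∧ ∀ x ≤ i' - i, R (i + x) (j + x)) ∧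
      (j' ≤ j → i' - i = j - j' ∧ ∀ x ≤ i' - i, R (i + x) (j - x))) : IsRuns F 1 R := by
  classical
  by_cases hne : ∃ i j, R i j
  · -- uniqueness of `j`
    have huniq : ∀ i j j', R i j → R i j' → j = j' := by
      intro i j j' h1 h2
      rcases le_total j j' with hj | hj
      · have := ((h i i j j' le_rfl h1 h2).1 hj).1
        omega
      · have := ((h i i j j' le_rfl h1 h2).2 hj).1
        omega
    have hex0 : ∃ i, ∃ j, R i j := hne
    let i0 := Nat.find hex0
    obtain ⟨j0, h0⟩ := Nat.find_spec hex0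
    have hmin : ∀ i j, R i j → i0 ≤ i := fun i j hij => Nat.find_min' hex0 ⟨j, hij⟩
    -- maximum
    have hex1 : ∃ i1, (∃ j, R i1 j) ∧ ∀ i j, R i j → i ≤ i1 := by
      have hS : ((range F).filter (fun i => ∃ j, R i j)).Nonempty :=
        ⟨i0, by rw [mem_filter, mem_range]; exact ⟨(hF _ _ h0).1, j0, h0⟩⟩
      refine ⟨((range F).filter (fun i => ∃ j, R i j)).max' hS, ?_, ?_⟩
      · exact (mem_filter.1 (Finset.max'_mem _ hS)).2
      · intro i j hij
        apply Finset.le_max'
        rw [mem_filter, mem_range]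
        exact ⟨(hF _ _ hij).1, j, hij⟩
    obtain ⟨i1, ⟨j1, h1⟩, hmax⟩ := hex1
    have h01 : i0 ≤ i1 := hmin _ _ h1
    have hi1 := (hF _ _ h1).1
    have hj0 := (hF _ _ h0).2
    have h0' : R i0 j0 := h0
    rcases le_total j0 j1 with hj | hj
    · obtain ⟨e1, e2⟩ := (h i0 i1 j0 j1 h01 h0' h1).1 hj
      refine ⟨fun _ => (i0, j0, i1 - i0 + 1, true), fun _ => ⟨?_, ?_, ?_⟩, ?_⟩
      · show i0 ≤ F; omega
      · show j0 ≤ F; omega
      · show i1 - i0 + 1 ≤ F; omega
      · intro i j
        constructor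
        · intro hij
          have h2 := hmin _ _ hij
          have h3 := hmax _ _ hij
          refine ⟨0, i - i0, ?_, ?_, ?_⟩
          · show i - i0 < i1 - i0 + 1; omega
          · show i = i0 + (i - i0); omega
          · show (if true = true then j = j0 + (i - i0) else _)
            rw [if_pos rfl]
            have h4 := e2 (i - i0) (by omega)
            have h5 : i0 + (i - i0) = i := by omega
            rw [h5] at h4
            exact huniq _ _ _ hij h4
        · rintro ⟨_, x, hx, hi, hj'⟩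
          have hx' : x < i1 - i0 + 1 := hx
          have hi' : i = i0 + x := hi
          have hj'' : j = j0 + x := hj'
          rw [hi', hj'']
          exact e2 x (by omega)
    · obtain ⟨e1, e2⟩ := (h i0 i1 j0 j1 h01 h0' h1).2 hj
      refine ⟨fun _ => (i0, j0, i1 - i0 + 1, false), fun _ => ⟨?_, ?_, ?_⟩, ?_⟩
      · show i0 ≤ F; omega
      · show j0 ≤ F; omega
      · show i1 - i0 + 1 ≤ F; omega
      · intro i j
        constructor
        · intro hij
          have h2 := hmin _ _ hij
          have h3 := hmax _ _ hij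
          refine ⟨0, i - i0, ?_, ?_, ?_⟩
          · show i - i0 < i1 - i0 + 1; omega
          · show i = i0 + (i - i0); omega
          · show (if false = true then _ else j + (i - i0) = j0)
            rw [if_neg (by simp)]
            have h4 := e2 (i - i0) (by omega)
            have h5 : i0 + (i - i0) = i := by omega
            rw [h5] at h4
            have h6 := huniq _ _ _ hij h4
            omega
        · rintro ⟨_, x, hx, hi, hj'⟩
          have hx' : x < i1 - i0 + 1 := hx
          have hi' : i = i0 + x := hi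
          have hj'' : j + x = j0 := hj'
          have h6 : j = j0 - x := by omega
          rw [hi', h6]
          exact e2 x (by omega)
  · refine ⟨fun _ => (0, 0, 0, true), fun _ => ⟨Nat.zero_le _, Nat.zero_le _, Nat.zero_le _⟩, ?_⟩
    intro i j
    constructor
    · intro hij
      exact absurd ⟨i, j, hij⟩ hne
    · rintro ⟨_, hb⟩
      exact absurd hb (Run.rel_zero i j)

open Classical in
/-- (c), antidiagonal -/
theorem runs_of_ends {F B : ℕ} {R : ℕ → ℕ → Prop} (hF : ∀ i j, R i j → i < F ∧ j < F)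
    (hB : ((range F ×ˢ range F).filter
      (fun x => R x.1 x.2 ∧ ¬ (1 ≤ x.2 ∧ R (x.1 + 1) (x.2 - 1)))).card ≤ B) : IsRuns F B R := by
  set E := ((range F ×ˢ range F).filter
      (fun x => R x.1 x.2 ∧ ¬ (1 ≤ x.2 ∧ R (x.1 + 1) (x.2 - 1)))) with hE
  -- backward length
  have hex : ∀ x : ℕ × ℕ, ∃ y, ¬ (y ≤ x.1 ∧ R (x.1 - y) (x.2 + y)) := fun x =>
    ⟨x.1 + 1, fun h => by omega⟩
  let len : ℕ × ℕ → ℕ := fun x => Nat.find (hex x)
  have hlen : ∀ x y, y < len x → y ≤ x.1 ∧ R (x.1 - y) (x.2 + y) := by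
    intro x y hy
    have := Nat.find_min (hex x) hy
    simpa using this
  have hlen2 : ∀ x y, (∀ z ≤ y, z ≤ x.1 ∧ R (x.1 - z) (x.2 + z)) → y < len x := by
    intro x y hy
    by_contra hcon
    exact Nat.find_spec (hex x) (hy _ (not_lt.1 hcon))
  have hpos : ∀ x ∈ E, 0 < len x := by
    intro x hx
    have h1 := (mem_filter.1 hx).2.1
    apply hlen2
    intro z hz
    have : z = 0 := by omega
    subst this
    exact ⟨Nat.zero_le _, by simpa using h1⟩
  refine IsRuns.of_fintype (β := {x // x ∈ E})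
    (fun x => (x.1.1 - (len x.1 - 1), x.1.2 + (len x.1 - 1), len x.1, false)) ?_ ?_
    (by rw [Fintype.card_coe]; exact hB)
  · rintro ⟨x, hx⟩
    have h0 := hpos x hx
    have h1 := hlen x (len x - 1) (by omega)
    have h2 := hF _ _ h1.2
    have h3 := mem_range.1 (mem_product.1 (mem_filter.1 hx).1).1
    refine ⟨?_, ?_, ?_⟩
    · show x.1 - (len x - 1) ≤ F; omega
    · show x.2 + (len x - 1) ≤ F; omega
    · show len x ≤ F
      have := h1.1
      omega
  · intro i j
    constructor
    · intro hij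
      -- go forward to the end
      have hex2 : ∃ y, ¬ (y + 1 ≤ j ∧ R (i + (y + 1)) (j - (y + 1))) := ⟨j, fun h => by omega⟩
      let m := Nat.find hex2
      have hm1 : ¬ (m + 1 ≤ j ∧ R (i + (m + 1)) (j - (m + 1))) := Nat.find_spec hex2
      have hm2 : ∀ y < m, y + 1 ≤ j ∧ R (i + (y + 1)) (j - (y + 1)) := by
        intro y hy
        have := Nat.find_min hex2 hy
        simpa using this
      have hm3 : ∀ y ≤ m, y ≤ j ∧ R (i + y) (j - y) := by
        intro y hy
        rcases Nat.eq_zero_or_pos y with rfl | hy0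
        · exact ⟨Nat.zero_le _, by simpa using hij⟩
        · have := hm2 (y - 1) (by omega)
          have e : y - 1 + 1 = y := by omega
          rw [e] at this
          exact this
      have hmj := (hm3 m le_rfl).1
      have hRm := (hm3 m le_rfl).2
      have hbd := hF _ _ hRm
      have hxE : (i + m, j - m) ∈ E := by
        rw [hE, mem_filter, mem_product, mem_range, mem_range]
        refine ⟨⟨hbd.1, hbd.2⟩, hRm, ?_⟩
        rintro ⟨h1, h2⟩
        apply hm1
        have e1 : i + m + 1 = i + (m + 1) := by omega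
        have e2 : j - m - 1 = j - (m + 1) := by omega
        have h1' : 1 ≤ j - m := h1
        have h2' : R (i + m + 1) (j - m - 1) := h2
        rw [e1, e2] at h2'
        exact ⟨by omega, h2'⟩
      have hml : m < len (i + m, j - m) := by
        apply hlen2
        intro z hz
        have h3 := hm3 (m - z) (by omega)
        refine ⟨by show z ≤ i + m; omega, ?_⟩
        have e1 : i + m - z = i + (m - z) := by omega
        have e2 : j - m + z = j - (m - z) := by omega
        show R (i + m - z) (j - m + z)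
        rw [e1, e2]
        exact h3.2
      have h0 := hpos _ hxE
      have hl := (hlen (i + m, j - m) (len (i + m, j - m) - 1) (by omega)).1
      refine ⟨⟨(i + m, j - m), hxE⟩, len (i + m, j - m) - 1 - m, ?_, ?_, ?_⟩
      · show len (i + m, j - m) - 1 - m < len (i + m, j - m); omega
      · show i = i + m - (len (i + m, j - m) - 1) + (len (i + m, j - m) - 1 - m)
        have hl' : len (i + m, j - m) - 1 ≤ i + m := hl
        omega
      · show (if false = true then _ else
          j + (len (i + m, j - m) - 1 - m) = j - m + (len (i + m, j - m) - 1))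
        rw [if_neg (by simp)]
        omega
    · rintro ⟨⟨x, hx⟩, y, hy, hi, hj⟩
      have hy' : y < len x := hy
      have hi' : i = x.1 - (len x - 1) + y := hi
      have hj' : j + y = x.2 + (len x - 1) := hj
      have h0 := hpos x hx
      have h1 := (hlen x (len x - 1) (by omega)).1
      have h2 := (hlen x (len x - 1 - y) (by omega)).2
      have e1 : x.1 - (len x - 1 - y) = i := by omega
      have e2 : x.2 + (len x - 1 - y) = j := by omega
      rw [e1, e2] at h2
      exact h2

open Classical in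
/-- (c), diagonal -/
theorem runs_of_ends' {F B : ℕ} {R : ℕ → ℕ → Prop} (hF : ∀ i j, R i j → i < F ∧ j < F)
    (hB : ((range F ×ˢ range F).filter
      (fun x => R x.1 x.2 ∧ ¬ R (x.1 + 1) (x.2 + 1))).card ≤ B) : IsRuns F B R := by
  set E := ((range F ×ˢ range F).filter
      (fun x => R x.1 x.2 ∧ ¬ R (x.1 + 1) (x.2 + 1))) with hE
  have hex : ∀ x : ℕ × ℕ, ∃ y, ¬ (y ≤ x.1 ∧ y ≤ x.2 ∧ R (x.1 - y) (x.2 - y)) := fun x =>
    ⟨x.1 + 1, fun h => by omega⟩
  let len : ℕ × ℕ → ℕ := fun x => Nat.find (hex x)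
  have hlen : ∀ x y, y < len x → y ≤ x.1 ∧ y ≤ x.2 ∧ R (x.1 - y) (x.2 - y) := by
    intro x y hy
    have := Nat.find_min (hex x) hy
    exact not_not.1 this
  have hlen2 : ∀ x y, (∀ z ≤ y, z ≤ x.1 ∧ z ≤ x.2 ∧ R (x.1 - z) (x.2 - z)) → y < len x := by
    intro x y hy
    by_contra hcon
    exact Nat.find_spec (hex x) (hy _ (not_lt.1 hcon))
  have hpos : ∀ x ∈ E, 0 < len x := by
    intro x hx
    have h1 := (mem_filter.1 hx).2.1
    apply hlen2
    intro z hz
    have : z = 0 := by omega
    subst this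
    exact ⟨Nat.zero_le _, Nat.zero_le _, by simpa using h1⟩
  refine IsRuns.of_fintype (β := {x // x ∈ E})
    (fun x => (x.1.1 - (len x.1 - 1), x.1.2 - (len x.1 - 1), len x.1, true)) ?_ ?_
    (by rw [Fintype.card_coe]; exact hB)
  · rintro ⟨x, hx⟩
    have h0 := hpos x hx
    have h1 := hlen x (len x - 1) (by omega)
    have h3 := mem_range.1 (mem_product.1 (mem_filter.1 hx).1).1
    have h4 := mem_range.1 (mem_product.1 (mem_filter.1 hx).1).2
    refine ⟨?_, ?_, ?_⟩
    · show x.1 - (len x - 1) ≤ F; omega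
    · show x.2 - (len x - 1) ≤ F; omega
    · show len x ≤ F
      have := h1.1
      omega
  · intro i j
    constructor
    · intro hij
      have hex2 : ∃ y, ¬ R (i + (y + 1)) (j + (y + 1)) :=
        ⟨F, fun h => by have := (hF _ _ h).1; omega⟩
      let m := Nat.find hex2
      have hm1 : ¬ R (i + (m + 1)) (j + (m + 1)) := Nat.find_spec hex2
      have hm2 : ∀ y < m, R (i + (y + 1)) (j + (y + 1)) := by
        intro y hy
        have := Nat.find_min hex2 hy
        exact not_not.1 this
      have hm3 : ∀ y ≤ m, R (i + y) (j + y) := by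
        intro y hy
        rcases Nat.eq_zero_or_pos y with rfl | hy0
        · simpa using hij
        · have := hm2 (y - 1) (by omega)
          have e : y - 1 + 1 = y := by omega
          rw [e] at this
          exact this
      have hRm := hm3 m le_rfl
      have hbd := hF _ _ hRm
      have hxE : (i + m, j + m) ∈ E := by
        rw [hE, mem_filter, mem_product, mem_range, mem_range]
        exact ⟨⟨hbd.1, hbd.2⟩, hRm, hm1⟩
      have hml : m < len (i + m, j + m) := by
        apply hlen2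
        intro z hz
        have h3 := hm3 (m - z) (by omega)
        refine ⟨by show z ≤ i + m; omega, by show z ≤ j + m; omega, ?_⟩
        have e1 : i + m - z = i + (m - z) := by omega
        have e2 : j + m - z = j + (m - z) := by omega
        show R (i + m - z) (j + m - z)
        rw [e1, e2]
        exact h3
      have h0 := hpos _ hxE
      have hl := hlen (i + m, j + m) (len (i + m, j + m) - 1) (by omega)
      have hl1 : len (i + m, j + m) - 1 ≤ i + m := hl.1
      have hl2 : len (i + m, j + m) - 1 ≤ j + m := hl.2.1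
      refine ⟨⟨(i + m, j + m), hxE⟩, len (i + m, j + m) - 1 - m, ?_, ?_, ?_⟩
      · show len (i + m, j + m) - 1 - m < len (i + m, j + m); omega
      · show i = i + m - (len (i + m, j + m) - 1) + (len (i + m, j + m) - 1 - m)
        omega
      · show (if true = true then
          j = j + m - (len (i + m, j + m) - 1) + (len (i + m, j + m) - 1 - m) else _)
        rw [if_pos rfl]
        omega
    · rintro ⟨⟨x, hx⟩, y, hy, hi, hj⟩
      have hy' : y < len x := hy
      have hi' : i = x.1 - (len x - 1) + y := hi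
      have hj' : j = x.2 - (len x - 1) + y := hj
      have h0 := hpos x hx
      have h1 := hlen x (len x - 1) (by omega)
      have h1a := h1.1
      have h1b := h1.2.1
      have h2 := (hlen x (len x - 1 - y) (by omega)).2.2
      have e1 : x.1 - (len x - 1 - y) = i := by omega
      have e2 : x.2 - (len x - 1 - y) = j := by omega
      rw [e1, e2] at h2
      exact h2

/-- (d): the number of codes, for `m` relations -/
theorem exists_codes_gen (m V B : ℕ) : ∃ 𝒞 : Finset (ℕ × (Fin m → ℕ → ℕ → Prop)),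
    𝒞.card ≤ (V + 1) * ((2 * (V + 1) ^ 3) ^ (m * B)) ∧
    ∀ F ≤ V, ∀ R : Fin m → ℕ → ℕ → Prop, (∀ k, IsRuns F B (R k)) → (F, R) ∈ 𝒞 := by
  classical
  let D := Fin (V + 1) × (Fin m → Fin B → (Fin (V + 1) × Fin (V + 1) × Fin (V + 1) × Bool))
  let dec : D → ℕ × (Fin m → ℕ → ℕ → Prop) := fun d => (d.1.1, fun k i j =>
    ∃ b, Run.rel (((d.2 k b).1 : ℕ), ((d.2 k b).2.1 : ℕ), ((d.2 k b).2.2.1 : ℕ),
      (d.2 k b).2.2.2) i j)
  refine ⟨(univ : Finset D).image dec, ?_, ?_⟩
  · refine (Finset.card_image_le).trans (le_of_eq ?_)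
    rw [Finset.card_univ]
    show Fintype.card (Fin (V + 1) ×
      (Fin m → Fin B → (Fin (V + 1) × Fin (V + 1) × Fin (V + 1) × Bool))) = _
    simp only [Fintype.card_prod, Fintype.card_fin, Fintype.card_pi, Finset.prod_const,
      Finset.card_univ, Fintype.card_bool]
    congr 1
    rw [← pow_mul, mul_comm B m]
    congr 1
    ring
  · intro F hF R hR
    choose c h1 h2 using hR
    have hlt : ∀ k b, (c k b).1 < V + 1 ∧ (c k b).2.1 < V + 1 ∧ (c k b).2.2.1 < V + 1 := by
      intro k b
      have := h1 k b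
      refine ⟨by omega, by omega, by omega⟩
    refine Finset.mem_image.2 ⟨(⟨F, by omega⟩, fun k b => (⟨(c k b).1, (hlt k b).1⟩,
      ⟨(c k b).2.1, (hlt k b).2.1⟩, ⟨(c k b).2.2.1, (hlt k b).2.2⟩, (c k b).2.2.2)),
      Finset.mem_univ _, ?_⟩
    show (F, _) = (F, R)
    congr 1
    funext k i j
    exact propext (h2 k i j).symm

/-- (d) -/
theorem exists_codes (V B : ℕ) : ∃ 𝒞 : Finset (ℕ × (Fin 7 → ℕ → ℕ → Prop)),
    𝒞.card ≤ (V + 1) * ((2 * (V + 1) ^ 3) ^ (7 * B)) ∧
    ∀ F ≤ V, ∀ R : Fin 7 → ℕ → ℕ → Prop, (∀ k, IsRuns F B (R k)) → (F, R) ∈ 𝒞 :=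
  exists_codes_gen 7 V B

end Vale.Agent.P201.S.RunsH
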