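import Vale.Agent.P201.S.LA.Gir

/-!
P201, part LA: two short reduced walks meet in one diagonal or antidiagonal run of positions
(helper252).
-/

namespace Vale.Agent.P201.S.Sg

open Finset Vale.Agent.P201.S

variable {S : Sys} {σ : Equiv.Perm S.C}

/-- reduced walk of length `m` given by a function -/
def WkF (σ : Equiv.Perm S.C) (a : ℕ → Port S) (m : ℕ) : Prop :=
  ∀ i, i + 1 < m → S.blk (mt σ (a i)) = S.blk (a (i + 1)) ∧ a (i + 1) ≠ mt σ (a i)

/-- block at position `i` -/
noncomputable def bl (σ : Equiv.Perm S.C) (a : ℕ → Port S) (i : ℕ) : S.B :=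
  if i = 0 then S.blk (a 0) else S.blk (mt σ (a (i - 1)))

theorem bl_succ (a : ℕ → Port S) (i : ℕ) : bl σ a (i + 1) = S.blk (mt σ (a i)) := by
  simp [bl]

theorem bl_eq {a : ℕ → Port S} {m : ℕ} (h : WkF σ a m) {i : ℕ} (hi : i < m) :
    bl σ a i = S.blk (a i) := by
  cases i with
  | zero => simp [bl]
  | succ i => rw [bl_succ, (h i hi).1]

/-- part of the walk -/
def sl (a : ℕ → Port S) : ℕ → ℕ → List (Port S)
  | _, 0 => []
  | i, k + 1 => a i :: sl a (i + 1) k

theorem sl_length (a : ℕ → Port S) (k i : ℕ) : (sl a i k).length = k := by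
  induction k generalizing i with
  | zero => rfl
  | succ k ih => rw [sl, List.length_cons, ih]

theorem sl_get (a : ℕ → Port S) (k i x : ℕ) (hx : x < k) : (sl a i k)[x]? = some (a (i + x)) := by
  induction k generalizing i x with
  | zero => omega
  | succ k ih =>
    rw [sl]
    cases x with
    | zero => simp
    | succ x =>
      rw [List.getElem?_cons_succ, ih (i + 1) x (by omega)]
      congr 2
      omega

theorem sl_rw {a : ℕ → Port S} {m : ℕ} (h : WkF σ a m) (k i : ℕ) (hk : i + k ≤ m) :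
    RW σ (bl σ a i) (sl a i k) (bl σ a (i + k)) := by
  induction k generalizing i with
  | zero => exact rfl
  | succ k ih =>
    rw [sl, RW.cons_iff]
    refine ⟨(bl_eq h (by omega)).symm, ?_, ?_⟩
    · intro b hb
      cases k with
      | zero => simp [sl] at hb
      | succ k =>
        simp only [sl, List.head?_cons, Option.mem_def, Option.some.injEq] at hb
        subst hb
        exact (h i (by omega)).2
    · have h1 := ih (i + 1) (by omega)
      rw [bl_succ] at h1
      rw [show i + (k + 1) = i + 1 + k by omega]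
      exact h1

theorem sl_eq {a a' : ℕ → Port S} {k k' i j : ℕ} (h : sl a i k = sl a' j k') :
    k = k' ∧ ∀ x < k, a (i + x) = a' (j + x) := by
  have h1 : k = k' := by
    have := congrArg List.length h
    rwa [sl_length, sl_length] at this
  subst h1
  refine ⟨rfl, fun x hx => ?_⟩
  have h2 := sl_get a k i x hx
  rw [h, sl_get a' k j x hx, Option.some.injEq] at h2
  exact h2.symm

theorem sl_eq_rvw {a a' : ℕ → Port S} {k k' i j : ℕ} (h : sl a i k = rvw σ (sl a' j k')) :
    k = k' ∧ ∀ x < k, a (i + x) = mt σ (a' (j + (k - 1 - x))) := by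
  have h1 : k = k' := by
    have := congrArg List.length h
    rwa [sl_length, rvw_length, sl_length] at this
  subst h1
  refine ⟨rfl, fun x hx => ?_⟩
  have h2 := sl_get a k i x hx
  rw [h, rvw, List.getElem?_reverse (by rw [List.length_map, sl_length]; exact hx),
    List.getElem?_map, List.length_map, sl_length, sl_get a' k j _ (by omega), Option.map_some,
    Option.some.injEq] at h2
  exact h2.symm

/-- (S1) the blocks of a short reduced walk are different -/
theorem bl_inj {g : ℕ} (hg : Girth σ g) {a : ℕ → Port S} {m : ℕ} (h : WkF σ a m) (hm : m < g)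
    {i j : ℕ} (hi : i ≤ m) (hj : j ≤ m) (he : bl σ a i = bl σ a j) : i = j := by
  wlog hij : i ≤ j generalizing i j
  · exact (this hj hi he.symm (by omega)).symm
  by_contra hne
  have h1 := sl_rw h (j - i) i (by omega)
  rw [show i + (j - i) = j by omega, ← he] at h1
  have h2 := h1.girth hg (by
    intro h3
    have := congrArg List.length h3
    rw [sl_length, List.length_nil] at this
    omega)
  rw [sl_length] at h2
  omega

/-- local form of (S2) -/
theorem two {g : ℕ} (hg : Girth σ g) {a a' : ℕ → Port S} {m m' : ℕ} (h : WkF σ a m)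
    (h' : WkF σ a' m') (hm : m + m' < g) {i i' j j' : ℕ} (hi : i ≤ i') (hi' : i' ≤ m)
    (hj : j ≤ m') (hj' : j' ≤ m') (he : bl σ a i = bl σ a' j) (he' : bl σ a i' = bl σ a' j') :
    (j ≤ j' ∧ i' - i = j' - j ∧ ∀ x < i' - i, a (i + x) = a' (j + x)) ∨
    (j' ≤ j ∧ i' - i = j - j' ∧ ∀ x < i' - i, a (i + x) = mt σ (a' (j' + (i' - i - 1 - x)))) := by
  have h1 := sl_rw h (i' - i) i (by omega)
  rw [show i + (i' - i) = i' by omega] at h1
  rcases le_total j j' with hjj | hjj
  · left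
    have h2 := sl_rw h' (j' - j) j (by omega)
    rw [show j + (j' - j) = j' by omega, ← he, ← he'] at h2
    have h3 := h1.unique hg h2 (by rw [sl_length, sl_length]; omega)
    obtain ⟨h4, h5⟩ := sl_eq h3
    exact ⟨hjj, h4, h5⟩
  · right
    have h2 := sl_rw h' (j - j') j' (by omega)
    rw [show j' + (j - j') = j by omega, ← he, ← he'] at h2
    have h3 := h1.unique hg h2.reverse (by rw [rvw_length, sl_length, sl_length]; omega)
    obtain ⟨h4, h5⟩ := sl_eq_rvw h3
    exact ⟨hjj, h4, h5⟩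

theorem bl_of_diag {a a' : ℕ → Port S} {i j k : ℕ} (he : bl σ a i = bl σ a' j)
    (hx : ∀ x < k, a (i + x) = a' (j + x)) {x : ℕ} (hxk : x ≤ k) :
    bl σ a (i + x) = bl σ a' (j + x) := by
  cases x with
  | zero => exact he
  | succ x =>
    rw [← add_assoc, ← add_assoc, bl_succ, bl_succ, hx x (by omega)]

theorem bl_of_anti {a a' : ℕ → Port S} {m' : ℕ} (h' : WkF σ a' m')
    {i j' k : ℕ} (hj : j' + k ≤ m')
    (he : bl σ a i = bl σ a' (j' + k))
    (hx : ∀ x < k, a (i + x) = mt σ (a' (j' + (k - 1 - x)))) {x : ℕ} (hxk : x ≤ k) :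
    bl σ a (i + x) = bl σ a' (j' + (k - x)) := by
  cases x with
  | zero => exact he
  | succ x =>
    rw [← add_assoc, bl_succ, hx x (by omega), mt_mt, ← bl_eq h' (by omega)]
    congr 2
    omega

/-- a run of positions: `(i0 + x, j0 + x)` or `(i0 + x, j0 - x)`, `x < len` -/
structure Run where
  i0 : ℕ
  j0 : ℕ
  len : ℕ
  sgn : Bool

/-- membership in a run -/
def Run.Mem (r : Run) (i j : ℕ) : Prop :=
  ∃ x < r.len, i = r.i0 + x ∧ ((r.sgn = true ∧ j = r.j0 + x) ∨ (r.sgn = false ∧ j + x = r.j0))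

/-- (S2) the common blocks of two short reduced walks form one run -/
theorem exists_run {g : ℕ} (hg : Girth σ g) {a a' : ℕ → Port S} {m m' : ℕ} (h : WkF σ a m)
    (h' : WkF σ a' m') (hm : m + m' < g) :
    ∃ r : Run, r.i0 ≤ m ∧ r.j0 ≤ m' ∧ r.i0 + r.len ≤ m + 1 ∧
      ∀ i j, i ≤ m → j ≤ m' → (bl σ a i = bl σ a' j ↔ r.Mem i j) := by
  classical
  by_cases hne : ∃ i, i ≤ m ∧ ∃ j, j ≤ m' ∧ bl σ a i = bl σ a' j
  · obtain ⟨i0, ⟨hi0, j0, hj0, he0⟩, hmin⟩ :=
      (⟨Nat.find hne, Nat.find_spec hne, fun i hi => Nat.find_min' hne hi⟩ :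
        ∃ i0, (i0 ≤ m ∧ ∃ j, j ≤ m' ∧ bl σ a i0 = bl σ a' j) ∧
          ∀ i, (i ≤ m ∧ ∃ j, j ≤ m' ∧ bl σ a i = bl σ a' j) → i0 ≤ i)
    obtain ⟨i1, ⟨hi1, j1, hj1, he1⟩, hmax⟩ : ∃ i1, (i1 ≤ m ∧ ∃ j, j ≤ m' ∧ bl σ a i1 = bl σ a' j) ∧
        ∀ i, (i ≤ m ∧ ∃ j, j ≤ m' ∧ bl σ a i = bl σ a' j) → i ≤ i1 := by
      refine ⟨Nat.findGreatest (fun i => ∃ j, j ≤ m' ∧ bl σ a i = bl σ a' j) m, ⟨?_, ?_⟩, ?_⟩
      · exact Nat.findGreatest_le m
      · exact Nat.findGreatest_spec (P := fun i => ∃ j, j ≤ m' ∧ bl σ a i = bl σ a' j) hi0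
          ⟨j0, hj0, he0⟩
      · intro i hi
        exact Nat.le_findGreatest hi.1 hi.2
    have hle : i0 ≤ i1 := hmin i1 ⟨hi1, j1, hj1, he1⟩
    rcases two hg h h' hm hle hi1 hj0 hj1 he0 he1 with ⟨k1, k2, k3⟩ | ⟨k1, k2, k3⟩
    · refine ⟨⟨i0, j0, i1 - i0 + 1, true⟩, hi0, hj0, by simp only; omega, ?_⟩
      have key : ∀ x, x ≤ i1 - i0 → bl σ a (i0 + x) = bl σ a' (j0 + x) := fun x hx =>
        bl_of_diag (k := i1 - i0) he0 k3 hx
      intro i j hi hj
      constructor
      · intro he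
        have h1 := hmin i ⟨hi, j, hj, he⟩
        have h2 := hmax i ⟨hi, j, hj, he⟩
        refine ⟨i - i0, by simp only; omega, by simp only; omega, Or.inl ⟨rfl, ?_⟩⟩
        have h3 := key (i - i0) (by omega)
        rw [show i0 + (i - i0) = i by omega, he] at h3
        exact bl_inj hg h' (by omega) hj (by simp only; omega) h3
      · rintro ⟨x, hx, rfl, ⟨-, rfl⟩ | ⟨h1, -⟩⟩
        · exact key x (by simp only at hx; omega)
        · simp at h1
    · refine ⟨⟨i0, j0, i1 - i0 + 1, false⟩, hi0, hj0, by simp only; omega, ?_⟩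
      have key : ∀ x, x ≤ i1 - i0 → bl σ a (i0 + x) = bl σ a' (j1 + (i1 - i0 - x)) := fun x hx =>
        bl_of_anti h' (k := i1 - i0) (by omega) (by rw [he0]; congr 1; omega) k3 hx
      intro i j hi hj
      constructor
      · intro he
        have h1 := hmin i ⟨hi, j, hj, he⟩
        have h2 := hmax i ⟨hi, j, hj, he⟩
        refine ⟨i - i0, by simp only; omega, by simp only; omega, Or.inr ⟨rfl, ?_⟩⟩
        have h3 := key (i - i0) (by omega)
        rw [show i0 + (i - i0) = i by omega, he] at h3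
        have h4 := bl_inj hg h' (by omega) hj (by omega) h3
        simp only
        omega
      · rintro ⟨x, hx, rfl, ⟨h1, -⟩ | ⟨-, h2⟩⟩
        · simp at h1
        · simp only at hx h2 ⊢
          rw [key x (by omega)]
          congr 1
          omega
  · refine ⟨⟨0, 0, 0, true⟩, by simp, by simp, by simp, ?_⟩
    intro i j hi hj
    constructor
    · intro he
      exact absurd ⟨i, hi, j, hj, he⟩ hne
    · rintro ⟨x, hx, -⟩
      exact absurd hx (Nat.not_lt_zero x)

/-- (S3) equal ports -/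
theorem port_eq_iff {g : ℕ} (hg : Girth σ g) {a a' : ℕ → Port S} {m m' : ℕ} (h : WkF σ a m)
    (h' : WkF σ a' m') (hm : m + m' < g) {i j : ℕ} (hi : i < m) (hj : j < m') :
    a i = a' j ↔ bl σ a i = bl σ a' j ∧ bl σ a (i + 1) = bl σ a' (j + 1) := by
  constructor
  · intro he
    rw [bl_eq h hi, bl_eq h' hj, bl_succ, bl_succ, he]
    exact ⟨rfl, rfl⟩
  · rintro ⟨h1, h2⟩
    rcases two hg h h' hm (Nat.le_succ i) hi (by omega) (by omega) h1 h2 with
      ⟨-, -, k3⟩ | ⟨k1, -, -⟩
    · exact k3 0 (by omega)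
    · omega

/-- (S3) matched ports -/
theorem port_mt_iff {g : ℕ} (hg : Girth σ g) {a a' : ℕ → Port S} {m m' : ℕ} (h : WkF σ a m)
    (h' : WkF σ a' m') (hm : m + m' < g) {i j : ℕ} (hi : i < m) (hj : j < m') :
    a i = mt σ (a' j) ↔ bl σ a i = bl σ a' (j + 1) ∧ bl σ a (i + 1) = bl σ a' j := by
  constructor
  · intro he
    rw [bl_eq h hi, bl_eq h' hj, bl_succ, bl_succ, he, mt_mt]
    exact ⟨rfl, rfl⟩
  · rintro ⟨h1, h2⟩
    rcases two hg h h' hm (Nat.le_succ i) hi (by omega) (by omega) h1 h2 with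
      ⟨k1, -, -⟩ | ⟨-, -, k3⟩
    · omega
    · have h3 := k3 0 (by omega)
      rw [show j + (i.succ - i - 1 - 0) = j by omega] at h3
      exact h3

end Vale.Agent.P201.S.Sg
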