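import Vale.Agent.P201.S.LA.Cnt
import Vale.Agent.P201.S.LA.Skel

/-!
P201, part LA: StmtCnt.
-/

namespace Vale.Agent.P201.S

open Finset

theorem stmtCnt : StmtCnt := by
  classical
  intro A
  refine ⟨242 * A ^ 2 + 40 * A + 6, ?_⟩
  intro S g hg3 σ hg G hR hL hE hF hop
  have hbad := Glue.la1 hR hL hE
  have hcyc : cyc G.Y ≤ A := by
    have h1 := Glue.girth_cyc hR hg
    by_contra hcon
    push Not at hcon
    have h2 : g * (A + 1) ≤ g * cyc G.Y := Nat.mul_le_mul_left _ hcon
    have h3 : g * (A + 1) = A * g + g := by ring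
    omega
  have hunp := Glue.unpaired_le G
  have hu : (univ.filter fun s : G.Q => (G.Y s).isSome ∧ ¬ G.Paired s).card ≤
      (Fintype.card G.Q - domc G.X) + (12 * A + 6) := by omega
  have hsq : 0 ≤ A ^ 2 := Nat.zero_le _
  rcases Nat.lt_or_ge g 7 with h7 | h7
  · -- small girth: few squares
    have hF6 : Fintype.card G.Q ≤ 6 * A := by
      refine hF.trans ?_
      have : A * g ≤ A * 6 := Nat.mul_le_mul_left _ (by omega)
      omega
    refine ⟨?_, fun b => ?_, ?_⟩
    · have hsub : (univ.filter fun b : S.B => ¬ G.Reg b ∧ 0 < G.mulB b) ⊆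
          (univ.image fun s : G.Q => S.blk (mt σ (G.ε s))) ∪
          (univ.image fun s : G.Q => S.blk (G.ε s)) := by
        intro b hb
        obtain ⟨-, -, hpos⟩ := mem_filter.1 hb
        rw [mem_union, mem_image, mem_image]
        by_contra hcon
        push Not at hcon
        unfold Glue.mulB at hpos
        have h0 : (univ.filter fun s : G.Q => S.blk (mt σ (G.ε s)) = b).card = 0 := by
          rw [card_eq_zero, filter_eq_empty_iff]
          exact fun s hs => hcon.1 s hs
        have h1 : (univ.filter fun s : G.Q => G.Y.symm s = none ∧ S.blk (G.ε s) = b).card = 0 := by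
          rw [card_eq_zero, filter_eq_empty_iff]
          exact fun s hs h => hcon.2 s hs h.2
        omega
      have e1 := card_le_card hsub
      have e2 := card_union_le (univ.image fun s : G.Q => S.blk (mt σ (G.ε s)))
        (univ.image fun s : G.Q => S.blk (G.ε s))
      have e3 := card_image_le (s := (univ : Finset G.Q)) (f := fun s => S.blk (mt σ (G.ε s)))
      have e4 := card_image_le (s := (univ : Finset G.Q)) (f := fun s => S.blk (G.ε s))
      rw [card_univ] at e3 e4
      omega
    · unfold Glue.mulB
      have e1 := card_le_univ (univ.filter fun s : G.Q => S.blk (mt σ (G.ε s)) = b)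
      have e2 := card_le_univ (univ.filter fun s : G.Q => G.Y.symm s = none ∧ S.blk (G.ε s) = b)
      omega
    · omega
  · -- windows
    obtain ⟨T, hT, hTc⟩ := Cnt.exists_wd (L := (g - 3) / 4) hR hg (by omega) (by omega)
    have hT10 : T.card - (Fintype.card G.Q - domc G.Y) ≤ 10 * A := by
      by_contra hcon
      push Not at hcon
      have h1 : (10 * A + 1) * ((g - 3) / 4) ≤
          (T.card - (Fintype.card G.Q - domc G.Y)) * ((g - 3) / 4) :=
        Nat.mul_le_mul_right _ hcon
      have h2 : g ≤ 10 * ((g - 3) / 4) := by omega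
      have h3 : A * g ≤ A * (10 * ((g - 3) / 4)) := Nat.mul_le_mul_left _ h2
      have h4 : (10 * A + 1) * ((g - 3) / 4) = A * (10 * ((g - 3) / 4)) + (g - 3) / 4 := by ring
      omega
    have hT11 : T.card ≤ 11 * A := by omega
    refine ⟨?_, fun b => ?_, ?_⟩
    · have h1 := hT.irr_le
      have h2 : T.card ^ 2 ≤ (11 * A) ^ 2 := Nat.pow_le_pow_left hT11 2
      have h3 : (11 * A) ^ 2 = 121 * A ^ 2 := by ring
      omega
    · have h1 := hT.mulB_le b
      omega
    · omega

end Vale.Agent.P201.S
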